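import Vale.Agent.P168.Upper.Series

/-!
# P168, upper bound: labels in a product and the tangent inequality

When the potential sees only the first component of the labels, the second component is uniform on
the consistent arrays.
-/

open Real Finset

namespace Vale.Agent.P168

variable {L n : ℕ}

theorem mean_const {α : Type*} [Fintype α] [Nonempty α] (c : ℝ) : mean (fun _ : α => c) = c := by
  simp [mean, Fintype.card_ne_zero]

theorem mean_fst {α β : Type*} [Fintype α] [Fintype β] [Nonempty β] (f : α → ℝ) :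
    mean (fun p : α × β => f p.1) = mean f := by
  have : (Fintype.card β : ℝ) ≠ 0 := Nat.cast_ne_zero.2 Fintype.card_ne_zero
  simp only [mean, Fintype.sum_prod_type, sum_const, card_univ, nsmul_eq_mul, Fintype.card_prod,
    Nat.cast_mul, ← mul_sum]
  rw [mul_comm (Fintype.card α : ℝ), mul_div_mul_left _ _ this]

theorem mean_pi_prod {ι α : Type*} [Fintype ι] [DecidableEq ι] [Fintype α] (g : ι → α → ℝ) :
    mean (fun i : ι → α => ∏ j, g j (i j)) = ∏ j, mean (g j) := by
  simp [mean, Finset.prod_div_distrib, Fintype.prod_sum]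

/-- Even powers lie above their tangents. -/
theorem tangent_pow {K : ℕ} (hK : Even K) (h1 : 1 ≤ K) (a b : ℝ) :
    0 ≤ a ^ K - K * a * b ^ (K - 1) + ((K : ℝ) - 1) * b ^ K := by
  have key : ∀ m : ℕ, ∀ a b : ℝ, 0 ≤ a → 0 ≤ b →
      0 ≤ a ^ (m + 1) - ((m + 1 : ℕ) : ℝ) * a * b ^ m + (m : ℝ) * b ^ (m + 1) := by
    intro m
    induction m with
    | zero => intro a b _ _; simp
    | succ m ih =>
      intro a b ha hb
      have e : a ^ (m + 1 + 1) - ((m + 1 + 1 : ℕ) : ℝ) * a * b ^ (m + 1) + ((m + 1 : ℕ) : ℝ) * b ^ (m + 1 + 1)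
          = a * (a ^ (m + 1) - ((m + 1 : ℕ) : ℝ) * a * b ^ m + (m : ℝ) * b ^ (m + 1))
            + ((m + 1 : ℕ) : ℝ) * b ^ m * (a - b) ^ 2 := by
        push_cast; ring
      rw [e]
      have := ih a b ha hb
      positivity
  have h := key (K - 1) |a| |b| (abs_nonneg _) (abs_nonneg _)
  rw [Nat.sub_add_cancel h1, hK.pow_abs, hK.pow_abs, Nat.cast_sub h1, Nat.cast_one] at h
  have h2 : (K : ℝ) * a * b ^ (K - 1) ≤ K * |a| * |b| ^ (K - 1) := by
    rw [mul_assoc, mul_assoc, ← abs_pow, ← abs_mul]
    exact mul_le_mul_of_nonneg_left (le_abs_self _) (Nat.cast_nonneg K)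
  linarith

section Product

variable {A B : Type} [Fintype A] [DecidableEq A] [Nonempty A] [Fintype B] [DecidableEq B] [Nonempty B]

theorem vRec_fst (G : Grid L) (H : (Fin L → A) → ℝ) :
    ∀ (d : ℕ) (ξ : Fin L → A × B),
      vRec G (fun ζ => H fun a => (ζ a).1) d ξ = vRec G H d fun a => (ξ a).1
  | 0, _ => rfl
  | d + 1, ξ => by
    have e : ∀ z : A × B, (fun a => (putZ ξ (L - d - 1) z a).1) = putZ (fun a => (ξ a).1) (L - d - 1) z.1 :=
      fun z => by
        funext a
        simp only [putZ]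
        split_ifs <;> rfl
    simp only [vRec, vRec_fst G H d, e]
    rw [mean_fst fun z => exp (G.m (L - d) * vRec G H d (putZ (fun a => (ξ a).1) (L - d - 1) z))]

theorem dens_fst (S : Shape L n) (G : Grid L) (H : (Fin L → A) → ℝ) (ξ : Fin n → Fin L → A × B) :
    S.dens G (fun ζ => H fun a => (ζ a).1) ξ = S.dens G H fun i a => (ξ i a).1 := by
  simp only [Shape.dens, incr, vAt, vRec_fst]

omit [Nonempty A] [Nonempty B] in
theorem sum_consistent_prod (S : Shape L n) (f : (Fin n → Fin L → A) → (Fin n → Fin L → B) → ℝ) :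
    ∑ ξ ∈ S.consistent (Z := A × B), f (fun i a => (ξ i a).1) (fun i a => (ξ i a).2) =
      ∑ u ∈ S.consistent, ∑ v ∈ S.consistent, f u v := by
  rw [← Finset.sum_product']
  refine Finset.sum_bij' (fun ξ _ => (fun i a => (ξ i a).1, fun i a => (ξ i a).2))
    (fun p _ => fun i a => (p.1 i a, p.2 i a)) (fun ξ hξ => ?_) (fun p hp => ?_)
    (fun ξ _ => rfl) (fun p _ => rfl) (fun ξ _ => rfl)
  · simp only [Shape.consistent, mem_filter, mem_univ, true_and, mem_product] at hξ ⊢
    exact ⟨fun i j a h => by rw [hξ i j a h], fun i j a h => by rw [hξ i j a h]⟩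
  · simp only [Shape.consistent, mem_filter, mem_univ, true_and, mem_product] at hp ⊢
    exact fun i j a h => Prod.ext (hp.1 i j a h) (hp.2 i j a h)

/-- The mean over consistent arrays. -/
noncomputable def cmean (S : Shape L n) (ψ : (Fin n → Fin L → B) → ℝ) : ℝ :=
  (∑ v ∈ S.consistent, ψ v) / (S.consistent (Z := B)).card

omit [DecidableEq A] in
theorem consistent_card_pos [DecidableEq A] (S : Shape L n) :
    0 < ((S.consistent (Z := A)).card : ℝ) := by
  refine Nat.cast_pos.2 (card_pos.2 ⟨fun _ _ => Classical.arbitrary A, ?_⟩)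
  simp [Shape.consistent]

theorem cmean_one (S : Shape L n) : cmean S (fun _ : Fin n → Fin L → B => 1) = 1 := by
  simp [cmean, (consistent_card_pos S).ne']

theorem cmean_abs (S : Shape L n) {ψ : (Fin n → Fin L → B) → ℝ} {C : ℝ} (h : ∀ v, |ψ v| ≤ C) :
    |cmean S ψ| ≤ C := by
  rw [cmean, abs_div, Nat.abs_cast, div_le_iff₀ (consistent_card_pos S)]
  refine (abs_sum_le_sum_abs _ _).trans ((sum_le_sum fun v _ => h v).trans_eq ?_)
  simp [mul_comm]

theorem E_fst_snd (S : Shape L n) (G : Grid L) (H : (Fin L → A) → ℝ)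
    (φ : (Fin n → Fin L → A) → ℝ) (ψ : (Fin n → Fin L → B) → ℝ) :
    S.E G (fun ζ : Fin L → A × B => H fun a => (ζ a).1)
      (fun ξ : Fin n → Fin L → A × B => φ (fun i a => (ξ i a).1) * ψ fun i a => (ξ i a).2) = S.E G H φ * cmean S ψ := by
  have h1 := sum_consistent_prod (A := A) (B := B) S fun u v => S.dens G H u * φ u * ψ v
  have h2 := sum_consistent_prod (A := A) (B := B) S fun _ _ => (1 : ℝ)
  simp only [sum_const, nsmul_eq_mul, mul_one] at h2
  simp only [Shape.E, cmean, dens_fst, ← mul_assoc, h1, h2, ← mul_sum, ← sum_mul,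
    div_mul_div_comm]

end Product

/-- Independent components of the labels give a product of means. -/
theorem cmean_pi {ι C : Type} [Fintype ι] [DecidableEq ι] [Fintype C] [DecidableEq C] (S : Shape L n)
    (g : ι → (Fin n → Fin L → C) → ℝ) :
    cmean S (fun v : Fin n → Fin L → ι → C => ∏ j, g j fun i a => v i a j) = ∏ j, cmean S (g j) := by
  have h : ∀ G : ι → (Fin n → Fin L → C) → ℝ,
      ∑ v ∈ S.consistent (Z := ι → C), ∏ j, G j (fun i a => v i a j) =
        ∏ j, ∑ v ∈ S.consistent, G j v := fun G => by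
    rw [Finset.prod_univ_sum]
    refine Finset.sum_bij' (fun v _ => fun j i a => v i a j) (fun p _ => fun i a j => p j i a)
      (fun v hv => ?_) (fun p hp => ?_) (fun v _ => rfl) (fun p _ => rfl) (fun v _ => rfl)
    · simp only [Fintype.mem_piFinset, Shape.consistent, mem_filter, mem_univ, true_and] at hv ⊢
      exact fun j i l a h => congrFun (hv i l a h) j
    · simp only [Fintype.mem_piFinset, Shape.consistent, mem_filter, mem_univ, true_and] at hp ⊢
      exact fun i l a h => funext fun j => hp j i l a h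
  have hc := h fun _ _ => 1
  simp only [prod_const_one, sum_const, nsmul_eq_mul, mul_one] at hc
  simp only [cmean, h, hc, prod_div_distrib]

end Vale.Agent.P168
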