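import Vale.Agent.P168.Bounds
import Vale.Agent.P168.Lower.Continuity

/-!
# P168: the trial values are bounded below
-/

open MeasureTheory Real Finset

namespace Vale.Agent.P168

theorem pois_tsum_abs {c α β : ℝ} (hc : 0 ≤ c) {a : ℕ → ℝ} (ha : ∀ n, |a n| ≤ α * n + β) :
    |∑' n, pois c n * a n| ≤ α * c + β := by
  have := tsum_pois_diff (a := fun _ => 0) (a' := a) (α := 0) (β := 0) (δ := α) (η := β) hc
    (fun n => by simp) (fun n => by simpa using ha n)
  simpa using this

theorem belowStmt : BelowStmt := by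
  intro K hK lam hlam M hM
  have := hM.clause_prob
  have := hM.field_prob
  refine ⟨-(hM.reading.tabSize * ((K : ℝ) * lam) + (hM.reading.fldSize + log 2)
    + (hM.reading.tabSize * (((K : ℝ) - 1) * lam) + 0)), ?_⟩
  rintro v ⟨r, m, x, hm, _, hx, hxb, rfl⟩
  rw [trialValue_eq hM, Reading.trial]
  have hm' : ∀ p, 0 < m p := fun p => (hm p).1
  have hK1 : (1 : ℝ) ≤ K := by exact_mod_cast le_trans one_le_two hK
  have hu := pois_tsum_abs (c := (K : ℝ) * lam) (by positivity) (hM.reading.uTerm_abs hm' hx hxb)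
  have hv := pois_tsum_abs (c := ((K : ℝ) - 1) * lam) (mul_nonneg (by linarith) hlam.le)
    (hM.reading.vTerm_abs hm' hx hxb)
  linarith [(abs_le.1 hu).1, (abs_le.1 hv).2]

end Vale.Agent.P168
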