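import Vale.Agent.P168.Tree.Pins
import Vale.Agent.P168.Analysis

/-!
# P168, upper bound: the series of the root value in a new factor

Adding `log (1 + X)` to the potential changes the root value by a series whose coefficients are
nonnegative combinations, the same for every potential, of the products of `X` over replicas.
-/

open Real Finset Set
open scoped Topology

namespace Vale.Agent.P168

variable {L n : ℕ} {Z : Type} [Fintype Z] [DecidableEq Z] [Nonempty Z]

/-- `d` new replicas, each with the weight of its place. -/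
noncomputable def coefW (G : Grid L) : ℕ → ∀ n, Shape L n → (∀ k, Shape L k → ℝ) → ℝ
  | 0, n, S, Φ => Φ n S
  | d + 1, n, S, Φ => ∑ i, ∑ t : Fin L, S.attW G i t * coefW G d (n + 1) (S.ext i t t.2) Φ

theorem coefW_nonneg (G : Grid L) {Φ : ∀ k, Shape L k → ℝ} (h : ∀ k, 0 < k → ∀ S, 0 ≤ Φ k S) :
    ∀ (d n : ℕ) (S : Shape L n), 0 < n → 0 ≤ coefW G d n S Φ
  | 0, n, S, hn => h n hn S
  | d + 1, n, S, _ => sum_nonneg fun i _ => sum_nonneg fun t _ =>
      mul_nonneg (attW_nonneg S G t.2 i) (coefW_nonneg G h d (n + 1) _ n.succ_pos)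

theorem coefW_lin (G : Grid L) (Φ Ψ : ∀ k, Shape L k → ℝ) (a b : ℝ) :
    ∀ (d n : ℕ) (S : Shape L n),
      coefW G d n S (fun k T => a * Φ k T + b * Ψ k T) = a * coefW G d n S Φ + b * coefW G d n S Ψ
  | 0, _, _ => rfl
  | d + 1, n, S => by
    simp only [coefW, coefW_lin G Φ Ψ a b d, mul_sum, ← sum_add_distrib]
    exact sum_congr rfl fun i _ => sum_congr rfl fun t _ => by ring

theorem attW_sum (S : Shape L n) (G : Grid L) :
    ∑ i, ∑ t : Fin L, S.attW G i t = n := by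
  have h : ∀ i, ∑ t : Fin L, S.attW G i t = 1 := fun i => by
    rw [Fin.sum_univ_eq_sum_range fun t => S.attW G i t, range_eq_Ico, sum_attW S G L.zero_le i,
      G.m_zero, zero_div, sub_zero]
  simp [h]

theorem coefW_abs (G : Grid L) {Φ : ∀ k, Shape L k → ℝ} {A : ℝ} :
    ∀ (d n : ℕ) (S : Shape L n), (∀ k, k = n + d → ∀ T, |Φ k T| ≤ A) →
      |coefW G d n S Φ| ≤ (∏ j ∈ range d, ((n : ℝ) + j)) * A
  | 0, n, S, h => by simpa [coefW] using h n rfl S
  | d + 1, n, S, h => by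
    have ih : ∀ i : Fin n, ∀ t : Fin L, |coefW G d (n + 1) (S.ext i t t.2) Φ| ≤
        (∏ j ∈ range d, (((n + 1 : ℕ) : ℝ) + j)) * A :=
      fun i t => coefW_abs G d (n + 1) _ fun k hk => h k (by omega)
    calc |coefW G (d + 1) n S Φ| ≤ ∑ i, ∑ t : Fin L, |S.attW G i t * coefW G d (n + 1) (S.ext i t t.2) Φ| := by
          rw [coefW]
          exact (abs_sum_le_sum_abs _ _).trans (sum_le_sum fun i _ => abs_sum_le_sum_abs _ _)
      _ ≤ ∑ i, ∑ t : Fin L, S.attW G i t * ((∏ j ∈ range d, (((n + 1 : ℕ) : ℝ) + j)) * A) :=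
          sum_le_sum fun i _ => sum_le_sum fun t _ => by
            rw [abs_mul, abs_of_nonneg (attW_nonneg S G t.2 i)]
            exact mul_le_mul_of_nonneg_left (ih i t) (attW_nonneg S G t.2 i)
      _ = (∏ j ∈ range (d + 1), ((n : ℝ) + j)) * A := by
          simp only [← sum_mul, attW_sum]
          rw [prod_range_succ', Nat.cast_zero, add_zero, ← mul_assoc, mul_comm (n : ℝ)]
          congr 2
          exact prod_congr rfl fun j _ => by push_cast; ring

theorem prod_one_add_range (d : ℕ) : ∏ j ∈ range d, ((1 : ℝ) + j) = d.factorial := by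
  induction d with
  | zero => simp
  | succ d ih => rw [prod_range_succ, ih, Nat.factorial_succ]; push_cast; ring

omit [Nonempty Z] in
theorem E_add (S : Shape L n) (G : Grid L) (H : (Fin L → Z) → ℝ) (φ ψ : (Fin n → Fin L → Z) → ℝ) :
    S.E G H (fun ξ => φ ξ + ψ ξ) = S.E G H φ + S.E G H ψ := by
  simp [Shape.E, mul_add, sum_add_distrib, add_div]

omit [Nonempty Z] in
theorem E_mul_left (S : Shape L n) (G : Grid L) (H : (Fin L → Z) → ℝ) (c : ℝ)
    (φ : (Fin n → Fin L → Z) → ℝ) : S.E G H (fun ξ => c * φ ξ) = c * S.E G H φ := by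
  simp only [Shape.E, mul_left_comm _ c, ← mul_sum, mul_div_assoc]

omit [Nonempty Z] in
theorem E_sum {α : Type*} (s : Finset α) (S : Shape L n) (G : Grid L) (H : (Fin L → Z) → ℝ)
    (φ : α → (Fin n → Fin L → Z) → ℝ) :
    S.E G H (fun ξ => ∑ a ∈ s, φ a ξ) = ∑ a ∈ s, S.E G H (φ a) := by
  simp only [Shape.E, mul_sum, ← sum_div]
  rw [sum_comm]

omit [Nonempty Z] in
theorem E_mono (S : Shape L n) (G : Grid L) (H : (Fin L → Z) → ℝ) {φ ψ : (Fin n → Fin L → Z) → ℝ}
    (h : ∀ ξ, φ ξ ≤ ψ ξ) : S.E G H φ ≤ S.E G H ψ :=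
  div_le_div_of_nonneg_right (sum_le_sum fun ξ _ => mul_le_mul_of_nonneg_left (h ξ) (exp_pos _).le)
    (Nat.cast_nonneg _)

theorem E_abs (hmass : MassStmt) (S : Shape L n) (G : Grid L) (H : (Fin L → Z) → ℝ)
    {φ : (Fin n → Fin L → Z) → ℝ} {A : ℝ} (h : ∀ ξ, |φ ξ| ≤ A) : |S.E G H φ| ≤ A := by
  have h1 : S.E G H (fun _ => A) = A := by
    simpa [(hmass L n Z G H S).1] using E_mul_left S G H A fun _ => 1
  have h2 : S.E G H (fun _ => -A) = -A := by
    simpa [(hmass L n Z G H S).1] using E_mul_left S G H (-A) fun _ => 1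
  exact abs_le.2 ⟨h2.symm.trans_le (E_mono S G H fun ξ => (abs_le.1 (h ξ)).1),
    (E_mono S G H fun ξ => (abs_le.1 (h ξ)).2).trans_eq h1⟩

theorem one_add_mul_pos {x t q : ℝ} (hx : |x| ≤ q) (hq : q < 1) (ht : t ∈ Set.Icc (0 : ℝ) 1) :
    0 < 1 + t * x := by
  have : |t * x| ≤ 1 * q := by
    rw [abs_mul, abs_of_nonneg ht.1]
    exact mul_le_mul ht.2 hx (abs_nonneg _) zero_le_one
  linarith [(abs_le.1 this).1]

/-- The change of the root value under a new factor. -/
theorem root_series (hd : DerivStmt) (hr : RootStmt) (hmass : MassStmt) (G : Grid L)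
    (H X : (Fin L → Z) → ℝ) {q : ℝ} (hq : q < 1) (hX : ∀ ξ, |X ξ| ≤ q) (ξ₀ : Fin L → Z) :
    HasSum (fun d => (-1) ^ d *
        coefW G d 1 (Shape.one L) (fun _ S => S.E G H fun ξ => ∏ l, X (ξ l)) / (d + 1).factorial)
      (vAt G (fun ξ => H ξ + log (1 + X ξ)) 0 ξ₀ - vAt G H 0 ξ₀) := by
  have hq0 : 0 ≤ q := (abs_nonneg _).trans (hX ξ₀)
  let Hu : ℝ → (Fin L → Z) → ℝ := fun u ξ => H ξ + log (1 + u * X ξ)
  let Φ : ℝ → ∀ k, Shape L k → ℝ := fun u _ S =>
    S.E G (Hu u) fun ξ => ∏ l, X (ξ l) / (1 + u * X (ξ l))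
  let D : ℕ → ℝ → ℝ := fun d u => match d with
    | 0 => vAt G (Hu u) 0 ξ₀
    | d + 1 => (-1) ^ d * coefW G d 1 (Shape.one L) (Φ u)
  have hY : ∀ u ∈ Set.Icc (0 : ℝ) 1, ∀ ξ, HasDerivAt (fun v => Hu v ξ) (X ξ / (1 + u * X ξ)) u :=
    fun u hu ξ => by
      simpa [Hu] using ((((hasDerivAt_id u).mul_const (X ξ)).const_add 1).log
        (one_add_mul_pos (hX ξ) hq hu).ne').const_add (H ξ)
  have hiter : ∀ u ∈ Set.Icc (0 : ℝ) 1, ∀ (d n : ℕ) (S : Shape L n),
      HasDerivAt (fun v => coefW G d n S (Φ v)) (-coefW G (d + 1) n S (Φ u)) u := by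
    intro u hu d
    induction d with
    | zero =>
      intro n S
      have hφ : ∀ ξ : Fin n → Fin L → Z,
          HasDerivAt (fun v => ∏ l, X (ξ l) / (1 + v * X (ξ l)))
            (-∑ i, (∏ l, X (ξ l) / (1 + u * X (ξ l))) * (X (ξ i) / (1 + u * X (ξ i)))) u := fun ξ => by
        refine (HasDerivAt.fun_finsetProd fun i _ => (hasDerivAt_const u (X (ξ i))).div
          (((hasDerivAt_id u).mul_const (X (ξ i))).const_add 1)
          (one_add_mul_pos (hX (ξ i)) hq hu).ne').congr_deriv ?_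
        rw [← sum_neg_distrib]
        refine sum_congr rfl fun i _ => ?_
        have := one_add_mul_pos (hX (ξ i)) hq hu
        rw [← mul_prod_erase _ (fun l => X (ξ l) / (1 + u * X (ξ l))) (Finset.mem_univ i), smul_eq_mul]
        simp only [id, one_mul, Pi.div_apply]
        generalize ∏ x ∈ Finset.univ.erase i, X (ξ x) / (1 + u * X (ξ x)) = P
        field_simp
        ring
      refine ((hd L n Z G Hu (fun ξ => X ξ / (1 + u * X ξ)) S _ _ u (hY u hu) hφ)).congr_deriv ?_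
      simp only [coefW, Φ, Fin.prod_univ_castSucc, sum_sub_distrib]
      have e : (-∑ i, S.E G (Hu u) fun ξ =>
          (∏ l, X (ξ l) / (1 + u * X (ξ l))) * (X (ξ i) / (1 + u * X (ξ i)))) =
          S.E G (Hu u) fun ξ => -∑ i, (∏ l, X (ξ l) / (1 + u * X (ξ l))) * (X (ξ i) / (1 + u * X (ξ i))) := by
        rw [← E_sum]
        simpa using (E_mul_left S G (Hu u) (-1) _).symm
      linarith
    | succ d ih =>
      intro n S
      have h : HasDerivAt (fun v => ∑ i, ∑ t : Fin L, S.attW G i t * coefW G d (n + 1) (S.ext i t t.2) (Φ v))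
          (∑ i, ∑ t : Fin L, S.attW G i t * -coefW G (d + 1) (n + 1) (S.ext i t t.2) (Φ u)) u :=
        HasDerivAt.fun_sum fun i _ => HasDerivAt.fun_sum fun t _ => (ih (n + 1) _).const_mul _
      refine h.congr_deriv ?_
      rw [show coefW G (d + 1 + 1) n S (Φ u) =
        ∑ i, ∑ t : Fin L, S.attW G i t * coefW G (d + 1) (n + 1) (S.ext i t t.2) (Φ u) from rfl]
      simp [sum_neg_distrib]
  have hD : ∀ d, ∀ u ∈ Set.Icc (0 : ℝ) 1, HasDerivAt (D d) (D (d + 1) u) u := by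
    intro d u hu
    cases d with
    | zero =>
      refine (hr L Z G Hu (fun ξ => X ξ / (1 + u * X ξ)) ξ₀ u (hY u hu)).congr_deriv ?_
      simp [D, coefW, Φ]
    | succ d =>
      refine ((hiter u hu d 1 (Shape.one L)).const_mul ((-1 : ℝ) ^ d)).congr_deriv ?_
      simp only [D, pow_succ]
      ring
  have hB : ∀ d, ∀ u ∈ Set.Icc (0 : ℝ) 1,
      |D (d + 1) u| * (1 - u) ^ d ≤ d.factorial * (q / (1 - q)) * q ^ d := by
    intro d u hu
    have hpos : 0 < 1 - u * q := by nlinarith [hu.1, hu.2]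
    have hs : ∀ ξ, |X ξ / (1 + u * X ξ)| ≤ q / (1 - u * q) := fun ξ => by
      rw [abs_div, abs_of_pos (one_add_mul_pos (hX ξ) hq hu)]
      exact div_le_div₀ hq0 (hX ξ) hpos (by nlinarith [(abs_le.1 (hX ξ)).1, hu.1])
    have h1 := coefW_abs G (Φ := Φ u) (A := (q / (1 - u * q)) ^ (d + 1)) d 1 (Shape.one L)
      fun k hk T => E_abs hmass T G (Hu u) fun ξ => by
        rw [abs_prod]
        refine (prod_le_prod (fun l _ => abs_nonneg _) fun l _ => hs (ξ l)).trans_eq ?_
        simp [hk, Nat.add_comm 1 d, div_pow]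
    rw [Nat.cast_one, prod_one_add_range] at h1
    have h2 : |D (d + 1) u| ≤ d.factorial * (q / (1 - u * q)) ^ (d + 1) := by
      simpa [D, abs_mul] using h1
    refine (mul_le_mul_of_nonneg_right h2 (pow_nonneg (by linarith [hu.2]) _)).trans ?_
    rw [mul_assoc, mul_assoc]
    refine mul_le_mul_of_nonneg_left ?_ (Nat.cast_nonneg _)
    rw [pow_succ, mul_right_comm, ← mul_pow]
    have h3 : q / (1 - u * q) * (1 - u) ≤ q := by
      rw [div_mul_eq_mul_div, div_le_iff₀ hpos]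
      nlinarith [mul_nonneg (mul_nonneg hq0 hu.1) (by linarith : (0 : ℝ) ≤ 1 - q)]
    refine (mul_le_mul (pow_le_pow_left₀ (mul_nonneg (div_nonneg hq0 hpos.le) (by linarith [hu.2])) h3 d)
      (div_le_div_of_nonneg_left hq0 (sub_pos.2 hq) (sub_le_sub_left (mul_le_of_le_one_left hq0 hu.2) 1)) (div_nonneg hq0 hpos.le)
      (pow_nonneg hq0 d)).trans_eq ?_
    ring
  have h := hasSum_taylor hD hq0 hq hB
  rw [← hasSum_nat_add_iff' 1] at h
  simpa [D, Φ, Hu] using h

end Vale.Agent.P168
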