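import Vale.Agent.P168.Upper.StepReal

/-!
# P168, upper bound: measurable order parameters are limits of step functions
-/

open MeasureTheory Real Filter Topology

namespace Vale.Agent.P168

variable {r : ℕ}

theorem measurePreserving_finCons {Z : Type} [MeasurableSpace Z] (μ : Measure Z) [IsProbabilityMeasure μ]
    (r : ℕ) : MeasurePreserving (fun q : Z × (Fin r → Z) => (Fin.cons q.1 q.2 : Fin (r + 1) → Z))
      (μ.prod (Measure.pi fun _ : Fin r => μ)) (Measure.pi fun _ : Fin (r + 1) => μ) := by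
  have h := (measurePreserving_piFinSuccAbove (fun _ : Fin (r + 1) => μ) 0).symm
  refine ⟨measurable_cons_pair, ?_⟩
  convert h.map_eq using 2
  funext q
  simp [MeasurableEquiv.piFinSuccAbove, Fin.insertNthEquiv]

theorem cell_cellPt (M : ℕ) (j : Fin (M + 1)) : cell M (cellPt M j) = j := by
  refine Fin.ext ?_
  have h : ((M : ℝ) + 1) * cellPt M j = ((j : ℕ) : ℝ) := by
    rw [cellPt]
    field_simp
  show min ⌊((M : ℝ) + 1) * cellPt M j⌋₊ M = j
  rw [h, Nat.floor_natCast]
  exact min_eq_left (Nat.le_of_lt_succ j.2)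

theorem abs_cellPt_sub_le (M : ℕ) {t : ℝ} (ht : t ∈ Set.Icc (0 : ℝ) 1) :
    |cellPt M (cell M t) - t| ≤ 1 / ((M : ℝ) + 1) := by
  obtain ⟨h1, h2⟩ := cell_mem M ht
  rw [abs_le]
  constructor <;> linarith

theorem cellPt_mem (M : ℕ) (j : Fin (M + 1)) : cellPt M j ∈ Set.Icc (0 : ℝ) 1 := by
  have h : ((j : ℕ) : ℝ) ≤ M := by exact_mod_cast Nat.le_of_lt_succ j.2
  refine ⟨by rw [cellPt]; positivity, ?_⟩
  rw [cellPt, div_le_one (by positivity)]
  linarith

theorem measurable_cellPt_cell (M : ℕ) : Measurable fun t => cellPt M (cell M t) :=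
  (measurable_of_countable (cellPt M)).comp (measurable_cell M)

theorem ae_mem_cube (ι : Type) [Fintype ι] :
    ∀ᵐ v ∂Measure.pi (fun _ : ι => unif), ∀ i, v i ∈ Set.Icc (0 : ℝ) 1 :=
  eventually_all.2 fun i => (measurePreserving_eval (fun _ : ι => unif) i).quasiMeasurePreserving.ae
    (ae_restrict_mem measurableSet_Icc)

/-- A bounded measurable function is an almost sure limit of step functions. -/
theorem exists_step_approx {x : (Fin (r + 1) → ℝ) → ℝ} (hx : Measurable x)
    (hxb : ∀ w, x w ∈ Set.Icc (-1 : ℝ) 1) :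
    ∃ (M : ℕ → ℕ) (xs : ℕ → (Fin (r + 1) → ℝ) → ℝ), (∀ k, Measurable (xs k)) ∧
      (∀ k w, xs k w ∈ Set.Icc (-1 : ℝ) 1) ∧ (∀ k, IsStep (M k) (xs k)) ∧
      ∀ᵐ w ∂Measure.pi (fun _ : Fin (r + 1) => unif), Tendsto (fun k => xs k w) atTop (𝓝 (x w)) := by
  set μ := Measure.pi fun _ : Fin (r + 1) => unif
  have hxi : Integrable x μ := Integrable.of_bound hx.aestronglyMeasurable 1
    (ae_of_all _ fun w => abs_le.2 (hxb w))
  choose g hg hgi using fun k : ℕ =>
    hxi.exists_boundedContinuous_integral_sub_le (show (0 : ℝ) < (1 / 2) ^ k by positivity)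
  let c : ℕ → (Fin (r + 1) → ℝ) → ℝ := fun k v => max (-1) (min 1 (g k v))
  have hcc : ∀ k, Continuous (c k) := fun k => continuous_const.max (continuous_const.min (g k).continuous)
  have hcb : ∀ k v, c k v ∈ Set.Icc (-1 : ℝ) 1 := fun k v =>
    ⟨le_max_left _ _, max_le (by norm_num) (min_le_left _ _)⟩
  have hclose : ∀ k v, |c k v - x v| ≤ |x v - g k v| := fun k v => by
    obtain ⟨h1, h2⟩ := hxb v
    simp only [c]
    rcases le_total (g k v) (-1) with h | h
    · rw [min_eq_right (by linarith), max_eq_left h, abs_le]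
      constructor <;> linarith [le_abs_self (x v - g k v)]
    · rcases le_total 1 (g k v) with h' | h'
      · rw [min_eq_left h', max_eq_right (by norm_num), abs_le]
        constructor <;> linarith [neg_abs_le (x v - g k v), le_abs_self (x v - g k v)]
      · rw [min_eq_right h', max_eq_right h, abs_sub_comm]
  -- almost sure convergence of the continuous functions
  have hcx : ∀ᵐ v ∂μ, Tendsto (fun k => c k v) atTop (𝓝 (x v)) := by
    have hm : ∀ k, Measurable fun v => ENNReal.ofReal |c k v - x v| := fun k =>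
      (((hcc k).measurable.sub hx).abs).ennreal_ofReal
    have hl : ∀ k, ∫⁻ v, ENNReal.ofReal |c k v - x v| ∂μ ≤ ENNReal.ofReal ((1 / 2) ^ k) := fun k => by
      have hi : Integrable (fun v => |c k v - x v|) μ :=
        Integrable.of_bound ((hcc k).measurable.sub hx).abs.aestronglyMeasurable 2
          (ae_of_all _ fun v => by
            rw [Real.norm_eq_abs, abs_abs, abs_le]
            obtain ⟨h1, h2⟩ := hxb v
            obtain ⟨h3, h4⟩ := hcb k v
            constructor <;> linarith)
      rw [← ofReal_integral_eq_lintegral_ofReal hi (ae_of_all _ fun v => abs_nonneg _)]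
      refine ENNReal.ofReal_le_ofReal (le_trans ?_ (hg k))
      exact integral_mono hi (hxi.sub (hgi k)).norm fun v => hclose k v
    have hfin : ∫⁻ v, ∑' k, ENNReal.ofReal |c k v - x v| ∂μ ≠ ⊤ := by
      rw [lintegral_tsum fun k => (hm k).aemeasurable]
      refine ne_top_of_le_ne_top ?_ (ENNReal.tsum_le_tsum hl)
      rw [← ENNReal.ofReal_tsum_of_nonneg (fun k => by positivity)
        (summable_geometric_of_lt_one (by norm_num) (by norm_num))]
      exact ENNReal.ofReal_ne_top
    filter_upwards [ae_lt_top (Measurable.tsum hm) hfin] with v hv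
    have h0 := (ENNReal.tendsto_toReal ENNReal.zero_ne_top).comp
      (ENNReal.tendsto_atTop_zero_of_tsum_ne_top hv.ne)
    rw [tendsto_iff_norm_sub_tendsto_zero]
    simpa [Function.comp_def, ENNReal.toReal_ofReal, abs_nonneg] using h0
  -- discretisation
  have hcube : IsCompact (Set.pi Set.univ fun _ : Fin (r + 1) => Set.Icc (0 : ℝ) 1) :=
    isCompact_univ_pi fun _ => isCompact_Icc
  have hM : ∀ k : ℕ, ∃ M : ℕ, ∀ v : Fin (r + 1) → ℝ, (∀ i, v i ∈ Set.Icc (0 : ℝ) 1) →
      |c k (Fin.cons (v 0) fun p => cellPt M (cell M (v p.succ))) - c k v| ≤ (1 / 2) ^ k := by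
    intro k
    obtain ⟨δ, hδ, hδ'⟩ := Metric.uniformContinuousOn_iff.1
      (hcube.uniformContinuousOn_of_continuous (hcc k).continuousOn) ((1 / 2) ^ k) (by positivity)
    obtain ⟨M, hM⟩ := exists_nat_one_div_lt hδ
    refine ⟨M, fun v hv => ?_⟩
    have hd : dist (Fin.cons (v 0) fun p => cellPt M (cell M (v p.succ)) : Fin (r + 1) → ℝ) v < δ := by
      refine lt_of_le_of_lt ((dist_pi_le_iff (by positivity)).2 fun i => ?_) hM
      induction i using Fin.cases with
      | zero => simp only [Fin.cons_zero, dist_self]; positivity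
      | succ p => simp only [Fin.cons_succ, Real.dist_eq]; exact abs_cellPt_sub_le M (hv p.succ)
    have := hδ' _ (fun i _ => by
      induction i using Fin.cases with
      | zero => simpa using hv 0
      | succ p => simpa using cellPt_mem M _) v (fun i _ => hv i) hd
    rw [Real.dist_eq] at this
    exact this.le
  choose M hM using hM
  refine ⟨M, fun k v => c k (Fin.cons (v 0) fun p => cellPt (M k) (cell (M k) (v p.succ))),
    fun k => ?_, fun k w => hcb k _, fun k ω w => ?_, ?_⟩
  · refine (hcc k).measurable.comp (measurable_pi_lambda _ fun i => ?_)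
    induction i using Fin.cases with
    | zero => simpa using measurable_pi_apply 0
    | succ p =>
      simp only [Fin.cons_succ]
      exact (measurable_cellPt_cell (M k)).comp (measurable_pi_apply p.succ)
  · simp [cell_cellPt]
  · filter_upwards [hcx, ae_mem_cube (Fin (r + 1))] with v hv hv'
    have h1 : Tendsto (fun k => c k (Fin.cons (v 0) fun p => cellPt (M k) (cell (M k) (v p.succ))) - c k v)
        atTop (𝓝 0) :=
      squeeze_zero_norm (fun k => (Real.norm_eq_abs _).trans_le (hM k v hv'))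
        (tendsto_pow_atTop_nhds_zero_of_lt_one (by norm_num) (by norm_num))
    simpa using h1.add hv

/-- The recursion is continuous along bounded almost sure convergence. -/
theorem recLog_tendsto {Z : Type} [MeasurableSpace Z] (μ : Measure Z) [IsProbabilityMeasure μ] :
    ∀ (r : ℕ) (m : Fin r → ℝ), (∀ p, 0 < m p) → ∀ {P : Type} [MeasurableSpace P] (ρ : Measure P)
      [SFinite ρ] (Ls : ℕ → P → (Fin r → Z) → ℝ) (L : P → (Fin r → Z) → ℝ) (B : ℝ),
      (∀ k, Measurable fun q : P × (Fin r → Z) => Ls k q.1 q.2) →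
      (∀ k p w, |Ls k p w| ≤ B) → (∀ p w, |L p w| ≤ B) →
      (Measurable fun q : P × (Fin r → Z) => L q.1 q.2) →
      (∀ᵐ q ∂ρ.prod (Measure.pi fun _ : Fin r => μ), Tendsto (fun k => Ls k q.1 q.2) atTop (𝓝 (L q.1 q.2))) →
      ∀ᵐ p ∂ρ, Tendsto (fun k => recLog μ r m (Ls k p)) atTop (𝓝 (recLog μ r m (L p)))
  | 0, m, _, P, _, ρ, _, Ls, L, B, _, _, _, _, hlim => by
    filter_upwards [Measure.ae_ae_of_ae_prod hlim] with p hp
    obtain ⟨w, hw⟩ := hp.exists
    simp only [recLog]
    rwa [Subsingleton.elim Fin.elim0 w]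
  | r + 1, m, hm, P, _, ρ, _, Ls, L, B, hLs, hBs, hB, hL, hlim => by
    have hT : MeasurePreserving (fun q : (P × Z) × (Fin r → Z) => (q.1.1, (Fin.cons q.1.2 q.2 : Fin (r + 1) → Z)))
        ((ρ.prod μ).prod (Measure.pi fun _ : Fin r => μ)) (ρ.prod (Measure.pi fun _ : Fin (r + 1) => μ)) :=
      ((MeasurePreserving.id ρ).prod (measurePreserving_finCons μ r)).comp (measurePreserving_prodAssoc ρ μ _)
    have hmeas : ∀ {F : P → (Fin (r + 1) → Z) → ℝ}, (Measurable fun q : P × (Fin (r + 1) → Z) => F q.1 q.2) →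
        Measurable fun q : (P × Z) × (Fin r → Z) => F q.1.1 (Fin.cons q.1.2 q.2) := fun hF =>
      hF.comp hT.measurable
    have hin := recLog_tendsto μ r (fun p => m p.succ) (fun p => hm p.succ) (ρ.prod μ)
      (fun k q w => Ls k q.1 (Fin.cons q.2 w)) (fun q w => L q.1 (Fin.cons q.2 w)) B
      (fun k => hmeas (hLs k)) (fun k _ _ => hBs k _ _) (fun _ _ => hB _ _) (hmeas hL)
      (hT.quasiMeasurePreserving.ae hlim)
    filter_upwards [Measure.ae_ae_of_ae_prod hin] with p hp
    set R : (P → (Fin (r + 1) → Z) → ℝ) → Z → ℝ := fun F z =>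
      exp (m 0 * recLog μ r (fun i => m i.succ) fun w => F p (Fin.cons z w)) with hR
    have hsec : ∀ {F : P → (Fin (r + 1) → Z) → ℝ}, (Measurable fun q : P × (Fin (r + 1) → Z) => F q.1 q.2) →
        Measurable (F p) := fun hF => hF.comp (measurable_const.prodMk measurable_id)
    have hRm : ∀ {F : P → (Fin (r + 1) → Z) → ℝ}, (Measurable fun q : P × (Fin (r + 1) → Z) => F q.1 q.2) →
        Measurable (R F) := fun hF => ((measurable_recLog_inner _ (hsec hF)).const_mul _).exp
    have hRb : ∀ {F : P → (Fin (r + 1) → Z) → ℝ}, (Measurable fun q : P × (Fin (r + 1) → Z) => F q.1 q.2) →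
        (∀ p w, |F p w| ≤ B) → ∀ z, exp (-(m 0 * B)) ≤ R F z ∧ R F z ≤ exp (m 0 * B) := fun {F} hF hFb z => by
      have := abs_le.1 (recLog_abs_le (μ := μ) r (fun i => m i.succ) (fun w => F p (Fin.cons z w)) B
        (fun i => hm i.succ) ((hsec hF).comp (measurable_cons_pair.comp
          (measurable_const.prodMk measurable_id))) fun w => hFb _ _)
      constructor <;> exact exp_le_exp.2 (by nlinarith [hm 0])
    have hint : Tendsto (fun k => ∫ z, R (Ls k) z ∂μ) atTop (𝓝 (∫ z, R L z ∂μ)) :=
      tendsto_integral_of_dominated_convergence (fun _ => exp (m 0 * B))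
        (fun k => (hRm (hLs k)).aestronglyMeasurable) (integrable_const _)
        (fun k => ae_of_all _ fun z => by
          rw [Real.norm_eq_abs, abs_of_pos (exp_pos _)]; exact (hRb (hLs k) (hBs k) z).2)
        (hp.mono fun z hz => (continuous_exp.tendsto _).comp (hz.const_mul (m 0)))
    have hpos : 0 < ∫ z, R L z ∂μ := by
      refine (exp_pos (-(m 0 * B))).trans_le ?_
      simpa using integral_mono (μ := μ) (integrable_const (μ := μ) (exp (-(m 0 * B))))
        (Integrable.of_bound (hRm hL).aestronglyMeasurable (exp (m 0 * B)) (ae_of_all _ fun z => by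
          rw [Real.norm_eq_abs, abs_of_pos (exp_pos _)]; exact (hRb hL hB z).2))
        fun z => (hRb hL hB z).1
    simp only [recLog]
    exact ((continuousAt_log hpos.ne').tendsto.comp hint).div_const _

/-- The functional `T` is continuous along almost sure convergence of the order parameter. -/
theorem tendsto_trialT {ι : Type} [Fintype ι] {m : Fin r → ℝ} (hm : ∀ p, 0 < m p)
    {x : (Fin (r + 1) → ℝ) → ℝ} {xs : ℕ → (Fin (r + 1) → ℝ) → ℝ} (hx : Measurable x)
    (hxs : ∀ k, Measurable (xs k)) (hxb : ∀ w, x w ∈ Set.Icc (-1 : ℝ) 1)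
    (hxsb : ∀ k w, xs k w ∈ Set.Icc (-1 : ℝ) 1)
    (hlim : ∀ᵐ w ∂Measure.pi (fun _ : Fin (r + 1) => unif), Tendsto (fun k => xs k w) atTop (𝓝 (x w)))
    {g : (ι → ℝ) → ℝ} (hg : Measurable g) {B : ℝ}
    (hB : ∀ a : ι → ℝ, (∀ i, a i ∈ Set.Icc (-1 : ℝ) 1) → |g a| ≤ B)
    (hc : ∀ a : ι → ℝ, (∀ i, a i ∈ Set.Icc (-1 : ℝ) 1) → ContinuousAt g a) :
    Tendsto (fun k => trialT ι r m (xs k) g) atTop (𝓝 (trialT ι r m x g)) := by
  set μ := Measure.pi fun _ : ι => unif
  have hev : ∀ a : ι, MeasurePreserving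
      (fun q : (ι → ℝ) × (Fin r → ι → ℝ) => (Fin.cons (q.1 a) fun p => q.2 p a : Fin (r + 1) → ℝ))
      (μ.prod (Measure.pi fun _ : Fin r => μ)) (Measure.pi fun _ : Fin (r + 1) => unif) := fun a =>
    (measurePreserving_finCons unif r).comp
      ((measurePreserving_eval (fun _ : ι => unif) a).prod
        (measurePreserving_pi (fun _ : Fin r => μ) (fun _ : Fin r => unif)
          fun _ => measurePreserving_eval (fun _ : ι => unif) a))
  have hae : ∀ᵐ q ∂μ.prod (Measure.pi fun _ : Fin r => μ), Tendsto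
      (fun k => g fun a => xs k (Fin.cons (q.1 a) fun p => q.2 p a)) atTop
      (𝓝 (g fun a => x (Fin.cons (q.1 a) fun p => q.2 p a))) := by
    filter_upwards [eventually_all.2 fun a => (hev a).quasiMeasurePreserving.ae hlim] with q hq
    exact (hc _ fun a => hxb _).tendsto.comp (tendsto_pi_nhds.2 hq)
  have hrec := recLog_tendsto μ r m hm μ
    (fun k w₀ w => g fun a => xs k (Fin.cons (w₀ a) fun p => w p a))
    (fun w₀ w => g fun a => x (Fin.cons (w₀ a) fun p => w p a)) B
    (fun k => measurable_trial_fun (hxs k) hg) (fun k _ _ => hB _ fun a => hxsb k _)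
    (fun _ _ => hB _ fun a => hxb _) (measurable_trial_fun hx hg) hae
  exact tendsto_integral_of_dominated_convergence (fun _ => B)
    (fun k => (measurable_recLog r m _ (measurable_trial_fun (hxs k) hg)).aestronglyMeasurable)
    (integrable_const (μ := μ) B)
    (fun k => ae_of_all _ fun w₀ => recLog_abs_le r m _ B hm
      ((measurable_trial_fun (hxs k) hg).comp (measurable_const.prodMk measurable_id))
      fun w => hB _ fun a => hxsb k _)
    hrec

end Vale.Agent.P168
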