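import Vale.Agent.P168.Lower.Continuity

/-!
# P168, upper bound: binomial means in place of the interpolation

A one-sided inequality between the increments in two counts passes to binomial means, and binomial
means converge to Poisson means.
-/

open Filter Finset
open scoped Topology

namespace Vale.Agent.P168

/-- The mean of `g` at a binomial number. -/
noncomputable def binE (p : ℝ) : ℕ → (ℕ → ℝ) → ℝ
  | 0, g => g 0
  | n + 1, g => (1 - p) * binE p n g + p * binE p n fun k => g (k + 1)

theorem binE_add (p : ℝ) : ∀ (n : ℕ) (g h : ℕ → ℝ),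
    binE p n (fun k => g k + h k) = binE p n g + binE p n h
  | 0, _, _ => rfl
  | n + 1, g, h => by simp only [binE, binE_add p n]; ring

theorem binE_mul (p c : ℝ) : ∀ (n : ℕ) (g : ℕ → ℝ), binE p n (fun k => c * g k) = c * binE p n g
  | 0, _ => rfl
  | n + 1, g => by simp only [binE, binE_mul p c n]; ring

theorem binE_const (p c : ℝ) : ∀ n : ℕ, binE p n (fun _ => c) = c
  | 0 => rfl
  | n + 1 => by simp only [binE, binE_const p c n]; ring

theorem binE_mono {p : ℝ} (h0 : 0 ≤ p) (h1 : p ≤ 1) : ∀ (n : ℕ) (g h : ℕ → ℝ),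
    (∀ k, g k ≤ h k) → binE p n g ≤ binE p n h
  | 0, _, _, hgh => hgh 0
  | n + 1, g, h, hgh => by
    exact add_le_add (mul_le_mul_of_nonneg_left (binE_mono h0 h1 n g h hgh) (by linarith))
      (mul_le_mul_of_nonneg_left (binE_mono h0 h1 n _ _ fun k => hgh (k + 1)) h0)

theorem binE_id (p : ℝ) : ∀ n : ℕ, binE p n (fun k => (k : ℝ)) = n * p
  | 0 => by simp [binE]
  | n + 1 => by simp only [binE, Nat.cast_succ, binE_add, binE_const, binE_id p n]; ring

/-- Thinning a binomial number. -/
theorem binE_thin (a p : ℝ) : ∀ (n : ℕ) (g : ℕ → ℝ),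
    binE a n (fun q => binE p q g) = binE (a * p) n g
  | 0, _ => rfl
  | n + 1, g => by
    simp only [binE, binE_add, binE_mul, binE_thin a p n]
    ring

/-- The telescoping form of the interpolation. -/
theorem binE_compare {α β δ : ℝ} (hβ0 : 0 ≤ β) (hα0 : 0 ≤ α) (hα1 : α ≤ 1) :
    ∀ (n : ℕ) (A : ℕ → ℕ → ℝ), β ≤ 1 →
      (∀ p q, α * (A (p + 1) q - A p q) ≤ β * (A p (q + 1) - A p q) - δ) →
      binE α n (fun p => A p 0) ≤ binE β n (A 0) - n * δ
  | 0, A, _, _ => by simp [binE]
  | n + 1, A, hβ1, h => by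
    have h' : ∀ p q, α * (((1 - α) * A (p + 1) q + α * A (p + 1 + 1) q) - ((1 - α) * A p q + α * A (p + 1) q)) ≤
        β * (((1 - α) * A p (q + 1) + α * A (p + 1) (q + 1)) - ((1 - α) * A p q + α * A (p + 1) q)) - δ :=
      fun p q => by nlinarith [h p q, h (p + 1) q]
    have ih := binE_compare hβ0 hα0 hα1 n (fun p q => (1 - α) * A p q + α * A (p + 1) q) hβ1 h'
    have top := binE_mono hβ0 hβ1 n (fun q => (1 - α) * A 0 q + α * A 1 q)
      (fun q => ((1 - β) * A 0 q + β * A 0 (q + 1)) + (-δ)) fun q => by linarith [h 0 q]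
    simp only [binE_add, binE_mul, binE_const, zero_add] at ih top
    simp only [binE, Nat.cast_succ]
    linarith

theorem binE_eq_sum (p : ℝ) : ∀ (n : ℕ) (g : ℕ → ℝ),
    binE p n g = ∑ k ∈ range (n + 1), (n.choose k : ℝ) * p ^ k * (1 - p) ^ (n - k) * g k
  | 0, g => by simp [binE]
  | n + 1, g => by
    simp only [binE, binE_eq_sum p n, mul_sum]
    rw [sum_range_succ' (fun k => ((n + 1).choose k : ℝ) * p ^ k * (1 - p) ^ (n + 1 - k) * g k) (n + 1),
      sum_range_succ' (fun k => (1 - p) * ((n.choose k : ℝ) * p ^ k * (1 - p) ^ (n - k) * g k)) n]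
    have hx : ∑ k ∈ range n, (1 - p) * (((n.choose (k + 1) : ℕ) : ℝ) * p ^ (k + 1) * (1 - p) ^ (n - (k + 1)) * g (k + 1))
        = ∑ k ∈ range (n + 1), ((n.choose (k + 1) : ℕ) : ℝ) * p ^ (k + 1) * (1 - p) ^ (n - k) * g (k + 1) := by
      rw [sum_range_succ _ n, Nat.choose_succ_self, Nat.cast_zero, zero_mul, zero_mul, zero_mul, add_zero]
      refine sum_congr rfl fun k hk => ?_
      rw [mem_range] at hk
      rw [show n - k = (n - (k + 1)) + 1 by omega]
      ring
    rw [hx, add_right_comm, ← sum_add_distrib]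
    congr 1
    · refine sum_congr rfl fun k _ => ?_
      rw [Nat.choose_succ_succ, Nat.cast_add, Nat.succ_sub_succ]
      ring
    · simp only [Nat.choose_zero_right, Nat.cast_one, pow_zero, Nat.sub_zero]
      ring

/-- Binomial means tend to Poisson means. -/
theorem tendsto_binE {c C : ℝ} (hc : 0 ≤ c) {g : ℕ → ℝ} (hg : ∀ k, |g k| ≤ C * ((k : ℝ) + 1)) :
    Tendsto (fun n : ℕ => binE (c / n) n g) atTop (𝓝 (∑' k, pois c k * g k)) := by
  let f : ℕ → ℕ → ℝ := fun n k => (n.choose k : ℝ) * (c / n) ^ k * (1 - c / n) ^ (n - k) * g k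
  have h1 : ∀ n : ℕ, binE (c / n) n g = ∑' k, f n k := fun n => by
    rw [binE_eq_sum]
    exact (tsum_eq_sum fun k hk => by
      rw [mem_range, not_lt] at hk
      simp [f, Nat.choose_eq_zero_of_lt (show n < k by omega)]).symm
  simp only [h1]
  refine tendsto_tsum_of_dominated_convergence (bound := fun k => |C| * ((2 * c) ^ k / k.factorial))
    ((Real.summable_pow_div_factorial (2 * c)).mul_left |C|) (fun k => ?_) ?_
  · have h := ProbabilityTheory.tendsto_choose_mul_pow_of_tendsto_mul_atTop (p := fun n : ℕ => c / n) (r := c) k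
      (tendsto_const_nhds.congr' (by
        filter_upwards [eventually_ge_atTop 1] with n hn
        rw [mul_div_cancel₀ _ (Nat.cast_ne_zero.2 (by omega))]))
    exact h.mul_const (g k)
  · filter_upwards [eventually_ge_atTop (max 1 ⌈c⌉₊)] with n hn k
    have hn1 : 1 ≤ n := le_trans (le_max_left _ _) hn
    have hcn : c ≤ n := (Nat.le_ceil c).trans (Nat.cast_le.2 ((le_max_right _ _).trans hn))
    have hn0 : (0 : ℝ) < n := Nat.cast_pos.2 hn1
    have hp : c / n ≤ 1 := (div_le_one hn0).2 hcn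
    have h2 : (k : ℝ) + 1 ≤ 2 ^ k := by exact_mod_cast Nat.lt_two_pow_self
    have h3 : (n.choose k : ℝ) * (c / n) ^ k ≤ c ^ k / k.factorial := by
      refine (mul_le_mul_of_nonneg_right (Nat.choose_le_pow_div k n) (by positivity)).trans_eq ?_
      rw [div_mul_eq_mul_div, ← mul_pow, mul_div_cancel₀ _ hn0.ne']
    simp only [f, Real.norm_eq_abs, abs_mul, abs_pow, abs_of_nonneg (sub_nonneg.2 hp),
      abs_of_nonneg (div_nonneg hc hn0.le), Nat.abs_cast]
    calc (n.choose k : ℝ) * (c / n) ^ k * (1 - c / n) ^ (n - k) * |g k|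
        ≤ c ^ k / k.factorial * 1 * (|C| * 2 ^ k) :=
          mul_le_mul (mul_le_mul h3 (pow_le_one₀ (sub_nonneg.2 hp) (by linarith [div_nonneg hc hn0.le]))
            (pow_nonneg (sub_nonneg.2 hp) _) (by positivity))
            ((hg k).trans ((mul_le_mul_of_nonneg_right (le_abs_self C) (by positivity)).trans
              (mul_le_mul_of_nonneg_left h2 (abs_nonneg C)))) (abs_nonneg _) (by positivity)
      _ = _ := by rw [mul_pow]; ring

end Vale.Agent.P168
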