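import Vale.Agent.P168.RecLog

/-!
# P168, upper bound: messages of separate blocks in the functional `T`
-/

open MeasureTheory Real

namespace Vale.Agent.P168

variable {ι ι' : Type} [Fintype ι] [Fintype ι'] {r : ℕ}

/-- Forgetting coordinates preserves a product of copies of one probability measure. -/
theorem measurePreserving_restrict {Ω : Type} [MeasurableSpace Ω] (ν : Measure Ω) [IsProbabilityMeasure ν]
    (e : ι' ↪ ι) :
    MeasurePreserving (fun z : ι → Ω => z ∘ e) (Measure.pi fun _ : ι => ν) (Measure.pi fun _ : ι' => ν) := by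
  classical
  have hm : Measurable fun z : ι → Ω => z ∘ e := measurable_pi_lambda _ fun a => measurable_pi_apply _
  refine ⟨hm, (Measure.pi_eq fun s hs => ?_).symm⟩
  let t : ι → Set Ω := fun b => if h : ∃ a, e a = b then s h.choose else Set.univ
  have ht : ∀ a, t (e a) = s a := fun a => by
    have h : ∃ a', e a' = e a := ⟨a, rfl⟩
    simp only [t, dif_pos h]
    rw [e.injective h.choose_spec]
  have ht' : ∀ b, (¬∃ a, e a = b) → t b = Set.univ := fun b h => by simp only [t, dif_neg h]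
  rw [Measure.map_apply hm (MeasurableSet.univ_pi hs)]
  have hpre : (fun z : ι → Ω => z ∘ e) ⁻¹' Set.univ.pi s = Set.univ.pi t := by
    ext z
    simp only [Set.mem_preimage, Set.mem_univ_pi, Function.comp]
    refine ⟨fun hz b => ?_, fun hz a => ht a ▸ hz (e a)⟩
    by_cases h : ∃ a, e a = b
    · obtain ⟨a, rfl⟩ := h
      exact (ht a).symm ▸ hz a
    · rw [ht' b h]; trivial
  rw [hpre, Measure.pi_pi, ← Finset.prod_subset (Finset.subset_univ (Finset.univ.map e)) fun b _ hb => by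
    rw [ht' b (by simpa using hb), measure_univ], Finset.prod_map]
  exact Finset.prod_congr rfl fun a _ => by rw [ht a]

theorem integral_restrict (e : ι' ↪ ι) {f : (ι' → ℝ) → ℝ} (hf : Measurable f) :
    ∫ z : ι → ℝ, f (z ∘ e) ∂Measure.pi (fun _ : ι => unif) = ∫ z, f z ∂Measure.pi fun _ : ι' => unif := by
  have h := measurePreserving_restrict (Ω := ℝ) unif e
  rw [← h.map_eq, integral_map h.measurable.aemeasurable hf.aestronglyMeasurable]

theorem recLog_const {Z : Type} [MeasurableSpace Z] (μ : Measure Z) [IsProbabilityMeasure μ] (c : ℝ) :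
    ∀ (r : ℕ) (m : Fin r → ℝ), (∀ p, 0 < m p) → recLog μ r m (fun _ => c) = c
  | 0, _, _ => rfl
  | r + 1, m, hm => by
    simp only [recLog, recLog_const μ c r (fun p => m p.succ) fun p => hm p.succ]
    rw [integral_const, probReal_univ, one_smul, log_exp, mul_div_cancel_left₀ _ (hm 0).ne']

theorem recLog_restrict (e : ι' ↪ ι) :
    ∀ (r : ℕ) (m : Fin r → ℝ) (L : (Fin r → ι' → ℝ) → ℝ), Measurable L →
      recLog (Measure.pi fun _ : ι => unif) r m (fun w => L fun p => w p ∘ e) =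
        recLog (Measure.pi fun _ : ι' => unif) r m L
  | 0, _, L, _ => congrArg L (funext fun p => p.elim0)
  | r + 1, m, L, hL => by
    have h1 : ∀ z : ι → ℝ, (fun w : Fin r → ι → ℝ =>
        L fun p => (Fin.cons z w : Fin (r + 1) → ι → ℝ) p ∘ e) =
        fun w => (fun w' => L (Fin.cons (z ∘ e) w')) fun p => w p ∘ e := fun z => by
      funext w
      refine congrArg L (funext fun p => ?_)
      induction p using Fin.cases with
      | zero => simp
      | succ q => simp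
    have hc : ∀ z, Measurable fun w : Fin r → ι' → ℝ => L (Fin.cons z w) := fun z =>
      hL.comp (measurable_cons_pair.comp (measurable_const.prodMk measurable_id))
    simp only [recLog, h1, fun z : ι → ℝ => recLog_restrict e r (fun p => m p.succ)
      (fun w' => L (Fin.cons (z ∘ e) w')) (hc _)]
    rw [integral_restrict e ((((measurable_recLog_inner (μ := Measure.pi fun _ : ι' => unif)
      (fun p => m p.succ) hL).const_mul (m 0))).exp)]

theorem trialT_restrict (e : ι' ↪ ι) (m : Fin r → ℝ) {x : (Fin (r + 1) → ℝ) → ℝ} (hx : Measurable x)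
    {g : (ι' → ℝ) → ℝ} (hg : Measurable g) :
    trialT ι r m x (fun y => g (y ∘ e)) = trialT ι' r m x g := by
  unfold trialT
  have h : ∀ w₀ : ι → ℝ, recLog (Measure.pi fun _ : ι => unif) r m
      (fun w => g ((fun a => x (Fin.cons (w₀ a) fun p => w p a)) ∘ e)) =
      recLog (Measure.pi fun _ : ι' => unif) r m
        fun w => g fun a => x (Fin.cons ((w₀ ∘ e) a) fun p => w p a) := fun w₀ => by
    have hL : Measurable fun w : Fin r → ι' → ℝ => g fun a => x (Fin.cons ((w₀ ∘ e) a) fun p => w p a) :=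
      (measurable_trial_fun hx hg).comp ((measurable_const (a := w₀ ∘ e)).prodMk measurable_id)
    rw [← recLog_restrict e r m _ hL]
    rfl
  simp only [h]
  exact integral_restrict e (measurable_recLog r m
    (fun (v : ι' → ℝ) (w : Fin r → ι' → ℝ) => g fun a => x (Fin.cons (v a) fun p => w p a))
    (measurable_trial_fun hx hg))

theorem trialT_const (m : Fin r → ℝ) (hm : ∀ p, 0 < m p) (x : (Fin (r + 1) → ℝ) → ℝ) (c : ℝ) :
    trialT ι r m x (fun _ => c) = c := by
  simp [trialT, recLog_const _ c r m hm]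

variable {ι₁ ι₂ : Type} [Fintype ι₁] [Fintype ι₂]

theorem recLog_add :
    ∀ (r : ℕ) (m : Fin r → ℝ), (∀ p, 0 < m p) → ∀ (L₁ : (Fin r → ι₁ → ℝ) → ℝ) (L₂ : (Fin r → ι₂ → ℝ) → ℝ)
      (B₁ B₂ : ℝ), Measurable L₁ → Measurable L₂ → (∀ w, |L₁ w| ≤ B₁) → (∀ w, |L₂ w| ≤ B₂) →
      recLog (Measure.pi fun _ : ι₁ ⊕ ι₂ => unif) r m
          (fun w => L₁ (fun p => w p ∘ Sum.inl) + L₂ fun p => w p ∘ Sum.inr) =
        recLog (Measure.pi fun _ : ι₁ => unif) r m L₁ + recLog (Measure.pi fun _ : ι₂ => unif) r m L₂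
  | 0, _, _, L₁, L₂, _, _, _, _, _, _ => by
    simp only [recLog]
    congr 1 <;> exact congrArg _ (funext fun p => p.elim0)
  | r + 1, m, hm, L₁, L₂, B₁, B₂, h₁, h₂, hB₁, hB₂ => by
    have hc₁ : ∀ z, Measurable fun w : Fin r → ι₁ → ℝ => L₁ (Fin.cons z w) := fun z =>
      h₁.comp (measurable_cons_pair.comp (measurable_const.prodMk measurable_id))
    have hc₂ : ∀ z, Measurable fun w : Fin r → ι₂ → ℝ => L₂ (Fin.cons z w) := fun z =>
      h₂.comp (measurable_cons_pair.comp (measurable_const.prodMk measurable_id))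
    set f₁ := fun z : ι₁ → ℝ => exp (m 0 * recLog (Measure.pi fun _ : ι₁ => unif) r (fun p => m p.succ)
      fun w => L₁ (Fin.cons z w)) with hf₁
    set f₂ := fun z : ι₂ → ℝ => exp (m 0 * recLog (Measure.pi fun _ : ι₂ => unif) r (fun p => m p.succ)
      fun w => L₂ (Fin.cons z w)) with hf₂
    have i₁ : Integrable f₁ (Measure.pi fun _ : ι₁ => unif) :=
      Integrable.of_bound (((measurable_recLog_inner _ h₁).const_mul _).exp).aestronglyMeasurable
        (exp (m 0 * B₁)) (ae_of_all _ fun z => by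
          rw [norm_of_nonneg (exp_pos _).le]
          exact exp_le_exp.2 (mul_le_mul_of_nonneg_left
            (abs_le.1 (recLog_abs_le r _ _ B₁ (fun p => hm p.succ) (hc₁ z) fun w => hB₁ _)).2 (hm 0).le))
    have i₂ : Integrable f₂ (Measure.pi fun _ : ι₂ => unif) :=
      Integrable.of_bound (((measurable_recLog_inner _ h₂).const_mul _).exp).aestronglyMeasurable
        (exp (m 0 * B₂)) (ae_of_all _ fun z => by
          rw [norm_of_nonneg (exp_pos _).le]
          exact exp_le_exp.2 (mul_le_mul_of_nonneg_left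
            (abs_le.1 (recLog_abs_le r _ _ B₂ (fun p => hm p.succ) (hc₂ z) fun w => hB₂ _)).2 (hm 0).le))
    have step : ∀ z : ι₁ ⊕ ι₂ → ℝ,
        exp (m 0 * recLog (Measure.pi fun _ : ι₁ ⊕ ι₂ => unif) r (fun p => m p.succ) fun w =>
          L₁ (fun p => (Fin.cons z w : Fin (r + 1) → ι₁ ⊕ ι₂ → ℝ) p ∘ Sum.inl) +
          L₂ fun p => (Fin.cons z w : Fin (r + 1) → ι₁ ⊕ ι₂ → ℝ) p ∘ Sum.inr) =
        f₁ (z ∘ Sum.inl) * f₂ (z ∘ Sum.inr) := fun z => by
      have e : (fun w : Fin r → ι₁ ⊕ ι₂ → ℝ =>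
          L₁ (fun p => (Fin.cons z w : Fin (r + 1) → ι₁ ⊕ ι₂ → ℝ) p ∘ Sum.inl) +
          L₂ fun p => (Fin.cons z w : Fin (r + 1) → ι₁ ⊕ ι₂ → ℝ) p ∘ Sum.inr) =
          fun w => (fun w' => L₁ (Fin.cons (z ∘ Sum.inl) w')) (fun p => w p ∘ Sum.inl) +
            (fun w' => L₂ (Fin.cons (z ∘ Sum.inr) w')) fun p => w p ∘ Sum.inr := by
        funext w
        congr 1 <;> refine congrArg _ (funext fun p => ?_) <;> induction p using Fin.cases <;> simp
      rw [e, recLog_add r _ (fun p => hm p.succ) _ _ B₁ B₂ (hc₁ _) (hc₂ _) (fun w => hB₁ _)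
        fun w => hB₂ _, mul_add, exp_add]
    simp only [recLog, step]
    have hmp := measurePreserving_sumPiEquivProdPi fun _ : ι₁ ⊕ ι₂ => unif
    have hprod : ∫ z, f₁ (z ∘ Sum.inl) * f₂ (z ∘ Sum.inr) ∂Measure.pi (fun _ : ι₁ ⊕ ι₂ => unif) =
        (∫ z, f₁ z ∂Measure.pi fun _ : ι₁ => unif) * ∫ z, f₂ z ∂Measure.pi fun _ : ι₂ => unif := by
      rw [← integral_prod_mul f₁ f₂, ← hmp.integral_comp' fun q : (ι₁ → ℝ) × (ι₂ → ℝ) => f₁ q.1 * f₂ q.2]
      rfl
    rw [hprod, log_mul (integral_exp_pos i₁).ne' (integral_exp_pos i₂).ne', add_div]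

theorem trialT_add (m : Fin r → ℝ) (hm : ∀ p, 0 < m p) {x : (Fin (r + 1) → ℝ) → ℝ} (hx : Measurable x)
    (hxb : ∀ w, x w ∈ Set.Icc (-1 : ℝ) 1) {g₁ : (ι₁ → ℝ) → ℝ} {g₂ : (ι₂ → ℝ) → ℝ} {B₁ B₂ : ℝ}
    (h₁ : Measurable g₁) (h₂ : Measurable g₂)
    (hB₁ : ∀ a : ι₁ → ℝ, (∀ i, a i ∈ Set.Icc (-1 : ℝ) 1) → |g₁ a| ≤ B₁)
    (hB₂ : ∀ a : ι₂ → ℝ, (∀ i, a i ∈ Set.Icc (-1 : ℝ) 1) → |g₂ a| ≤ B₂) :
    trialT (ι₁ ⊕ ι₂) r m x (fun y => g₁ (y ∘ Sum.inl) + g₂ (y ∘ Sum.inr)) =
      trialT ι₁ r m x g₁ + trialT ι₂ r m x g₂ := by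
  rw [← trialT_restrict (⟨Sum.inl, Sum.inl_injective⟩ : ι₁ ↪ ι₁ ⊕ ι₂) m hx h₁,
    ← trialT_restrict (⟨Sum.inr, Sum.inr_injective⟩ : ι₂ ↪ ι₁ ⊕ ι₂) m hx h₂]
  unfold trialT
  have i₁ := integrable_trial (ι := ι₁ ⊕ ι₂) (g := fun y => g₁ (y ∘ Sum.inl)) hm hx hxb (B := B₁)
    (h₁.comp (measurable_pi_lambda _ fun a => measurable_pi_apply _)) fun a ha => hB₁ _ fun i => ha _
  have i₂ := integrable_trial (ι := ι₁ ⊕ ι₂) (g := fun y => g₂ (y ∘ Sum.inr)) hm hx hxb (B := B₂)
    (h₂.comp (measurable_pi_lambda _ fun a => measurable_pi_apply _)) fun a ha => hB₂ _ fun i => ha _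
  simp only [Function.Embedding.coeFn_mk]
  rw [← integral_add i₁ i₂]
  refine integral_congr_ae (ae_of_all _ fun w₀ => ?_)
  let L₁ : (Fin r → ι₁ → ℝ) → ℝ := fun w => g₁ fun a => x (Fin.cons (w₀ (Sum.inl a)) fun p => w p a)
  let L₂ : (Fin r → ι₂ → ℝ) → ℝ := fun w => g₂ fun a => x (Fin.cons (w₀ (Sum.inr a)) fun p => w p a)
  have m₁ : Measurable L₁ :=
    (measurable_trial_fun hx h₁).comp ((measurable_const (a := w₀ ∘ Sum.inl)).prodMk measurable_id)
  have m₂ : Measurable L₂ :=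
    (measurable_trial_fun hx h₂).comp ((measurable_const (a := w₀ ∘ Sum.inr)).prodMk measurable_id)
  have h := recLog_add r m hm L₁ L₂ B₁ B₂ m₁ m₂ (fun w => hB₁ _ fun i => hxb _) (fun w => hB₂ _ fun i => hxb _)
  rw [← recLog_restrict (⟨Sum.inl, Sum.inl_injective⟩ : ι₁ ↪ ι₁ ⊕ ι₂) r m L₁ m₁,
    ← recLog_restrict (⟨Sum.inr, Sum.inr_injective⟩ : ι₂ ↪ ι₁ ⊕ ι₂) r m L₂ m₂] at h
  exact h

/-- Functions of separate blocks add up under `T`. -/
theorem trialT_sum {α : Type*} (m : Fin r → ℝ) (hm : ∀ p, 0 < m p) {x : (Fin (r + 1) → ℝ) → ℝ}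
    (hx : Measurable x) (hxb : ∀ w, x w ∈ Set.Icc (-1 : ℝ) 1) (κ : ι → α) (s : Finset α)
    (g : α → (ι → ℝ) → ℝ) (B : α → ℝ) (hg : ∀ v, Measurable (g v))
    (hB : ∀ v a, (∀ i, a i ∈ Set.Icc (-1 : ℝ) 1) → |g v a| ≤ B v)
    (hdep : ∀ v y y', (∀ a, κ a = v → y a = y' a) → g v y = g v y') :
    trialT ι r m x (fun y => ∑ v ∈ s, g v y) = ∑ v ∈ s, trialT ι r m x (g v) := by
  classical
  induction s using Finset.induction_on with
  | empty => simpa using trialT_const (ι := ι) m hm x 0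
  | insert v s hv ih =>
    simp only [Finset.sum_insert hv]
    rw [← ih]
    let e : {a // κ a = v} ⊕ {a // ¬κ a = v} ≃ ι := Equiv.sumCompl fun a => κ a = v
    let g₁ : ({a // κ a = v} → ℝ) → ℝ := fun z => g v fun a => if h : κ a = v then z ⟨a, h⟩ else 0
    let g₂ : ({a // ¬κ a = v} → ℝ) → ℝ := fun z => ∑ u ∈ s, g u fun a => if h : κ a = v then 0 else z ⟨a, h⟩
    have hg₁ : Measurable g₁ := (hg v).comp (measurable_pi_lambda _ fun a => by
      split_ifs with h
      · exact measurable_pi_apply _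
      · exact measurable_const)
    have hg₂ : Measurable g₂ := Finset.measurable_sum _ fun u _ => (hg u).comp (measurable_pi_lambda _ fun a => by
      split_ifs with h
      · exact measurable_const
      · exact measurable_pi_apply _)
    have e₁ : g v = fun y => g₁ fun a => y a.1 := funext fun y => hdep v _ _ fun a ha => by simp [ha]
    have e₂ : (fun y => ∑ u ∈ s, g u y) = fun y => g₂ fun a => y a.1 :=
      funext fun y => Finset.sum_congr rfl fun u hu => hdep u _ _ fun a ha => by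
        have : ¬κ a = v := fun h => hv (h ▸ ha ▸ hu)
        simp [this]
    have b₁ : ∀ a : {a // κ a = v} → ℝ, (∀ i, a i ∈ Set.Icc (-1 : ℝ) 1) → |g₁ a| ≤ B v :=
      fun a ha => hB v _ fun i => by
        split_ifs with h
        · exact ha _
        · norm_num
    have b₂ : ∀ a : {a // ¬κ a = v} → ℝ, (∀ i, a i ∈ Set.Icc (-1 : ℝ) 1) → |g₂ a| ≤ ∑ u ∈ s, B u :=
      fun a ha => (Finset.abs_sum_le_sum_abs _ _).trans (Finset.sum_le_sum fun u _ => hB u _ fun i => by
        split_ifs with h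
        · norm_num
        · exact ha _)
    rw [e₁, e₂]
    calc trialT ι r m x (fun y => g₁ (fun a => y a.1) + ∑ u ∈ s, g u y)
        = trialT ι r m x (fun y => (fun z => g₁ (z ∘ Sum.inl) + g₂ (z ∘ Sum.inr)) (y ∘ e.toEmbedding)) := by
          congr 1
          funext y
          rw [congrFun e₂ y]
          rfl
      _ = trialT ({a // κ a = v} ⊕ {a // ¬κ a = v}) r m x
            (fun z => g₁ (z ∘ Sum.inl) + g₂ (z ∘ Sum.inr)) :=
          trialT_restrict e.toEmbedding m hx (g := fun z => g₁ (z ∘ Sum.inl) + g₂ (z ∘ Sum.inr))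
            ((hg₁.comp (measurable_pi_lambda (fun z : {a // κ a = v} ⊕ {a // ¬κ a = v} → ℝ => z ∘ Sum.inl)
              fun a => measurable_pi_apply _)).add
            (hg₂.comp (measurable_pi_lambda (fun z : {a // κ a = v} ⊕ {a // ¬κ a = v} → ℝ => z ∘ Sum.inr)
              fun a => measurable_pi_apply _)))
      _ = _ := trialT_add m hm hx hxb hg₁ hg₂ b₁ b₂
      _ = _ := by
          rw [← trialT_restrict (⟨Subtype.val, Subtype.val_injective⟩ : {a // κ a = v} ↪ ι) m hx hg₁,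
            ← trialT_restrict (⟨Subtype.val, Subtype.val_injective⟩ : {a // ¬κ a = v} ↪ ι) m hx hg₂]
          rfl

end Vale.Agent.P168
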