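import Vale.Agent.P168.Upper.Interp
import Vale.Agent.P168.Upper.Binom

/-!
# P168, upper bound: the two ends of the interpolation and the bound for step functions
-/

open MeasureTheory Real Filter
open scoped Topology

namespace Vale.Agent.P168

variable {K N r q : ℕ}

/-- Restricting a uniform function to some of its arguments. -/
theorem mean_comp_embedding {α β γ : Type*} [Fintype α] [DecidableEq α] [Fintype β] [DecidableEq β]
    [Fintype γ] [Nonempty γ] (e : α ↪ β) (F : (α → γ) → ℝ) :
    mean (fun f : β → γ => F (f ∘ e)) = mean F := by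
  classical
  let P : β → Prop := fun b => ∃ a, e a = b
  let eqv : (β → γ) ≃ (α → γ) × ({b // ¬P b} → γ) :=
    { toFun := fun f => (f ∘ e, fun b => f b.1)
      invFun := fun g b => if hb : P b then g.1 hb.choose else g.2 ⟨b, hb⟩
      left_inv := fun f => funext fun b => by
        by_cases hb : P b
        · simp only [dif_pos hb, Function.comp_apply, hb.choose_spec]
        · simp only [dif_neg hb]
      right_inv := fun g => by
        refine Prod.ext (funext fun a => ?_) (funext fun b => ?_)
        · have h : P (e a) := ⟨a, rfl⟩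
          simp only [Function.comp_apply, dif_pos h, e.injective h.choose_spec]
        · simp only [dif_neg b.2] }
  exact (mean_comp_equiv eqv fun g => F g.1).trans (mean_fst F)

/-- The occupation number of a fixed site is binomial. -/
theorem mean_card_filter [NeZero N] (v : Fin N) :
    ∀ (q : ℕ) (g : ℕ → ℝ), mean (fun s : Fin q → Fin N => g (Finset.univ.filter fun k => s k = v).card) =
      binE (1 / (N : ℝ)) q g
  | 0, g => by simp [binE, mean]
  | q + 1, g => by
    have h : ∀ a : Fin N, (mean fun s : Fin q → Fin N =>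
        g (Finset.univ.filter fun k => (Fin.cons a s : Fin (q + 1) → Fin N) k = v).card) =
        if a = v then binE (1 / (N : ℝ)) q (fun k => g (k + 1)) else binE (1 / (N : ℝ)) q g := fun a => by
      split_ifs with ha
      · rw [← mean_card_filter v q]
        refine congrArg mean (funext fun s => ?_)
        rw [Fin.card_filter_univ_succ]
        simp [ha]
      · rw [← mean_card_filter v q]
        refine congrArg mean (funext fun s => ?_)
        rw [Fin.card_filter_univ_succ]
        simp [ha]
    rw [mean_cons, show (fun a : Fin N => mean fun s : Fin q → Fin N =>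
        g (Finset.univ.filter fun k => (Fin.cons a s : Fin (q + 1) → Fin N) k = v).card) =
      fun a => binE (1 / (N : ℝ)) q g + if a = v then
        binE (1 / (N : ℝ)) q (fun k => g (k + 1)) - binE (1 / (N : ℝ)) q g else 0 from funext fun a => by
      rw [h a]; split_ifs <;> ring]
    rw [mean_add, mean_const]
    simp only [binE, mean, Finset.sum_ite_eq', Finset.mem_univ, if_true, Fintype.card_fin]
    ring

/-- The integrand of `T U` at fixed positions. -/
noncomputable def uPt (M : Model K) (m : Fin r → ℝ) (x : (Fin (r + 1) → ℝ) → ℝ) (n : ℕ) (ℓ : Fin n → Fin K) : ℝ :=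
  ∫ θ, (∫ h, trialT (Fin n × Fin K) r m x (logU θ ℓ h) ∂M.field) ∂Measure.pi fun _ : Fin n => M.clause

/-- The integrand of `T U`. -/
noncomputable def uAvg (M : Model K) (m : Fin r → ℝ) (x : (Fin (r + 1) → ℝ) → ℝ) (n : ℕ) : ℝ :=
  ∫ θ, (∫ h, mean (fun ℓ : Fin n → Fin K => trialT (Fin n × Fin K) r m x (logU θ ℓ h)) ∂M.field)
    ∂Measure.pi fun _ : Fin n => M.clause

variable {M : Model K} {m : Fin r → ℝ} {x : (Fin (r + 1) → ℝ) → ℝ}
variable (hM : M.Admissible) (hm : ∀ l, 0 < m l) (hx : Measurable x) (hxb : ∀ w, x w ∈ Set.Icc (-1 : ℝ) 1)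

include hM hm hx hxb

theorem integrable_uPt {n : ℕ} (ℓ : Fin n → Fin K) :
    Integrable (fun z : (Fin n → Clause K) × ℝ => trialT (Fin n × Fin K) r m x (logU z.1 ℓ z.2))
      ((Measure.pi fun _ : Fin n => M.clause).prod M.field) := by
  have := hM.clause_prob
  have := hM.field_prob
  have hθ : ∀ k : Fin n, Measurable fun z : (Fin n → Clause K) × ℝ => z.1 k := fun k =>
    (measurable_pi_apply k).comp measurable_fst
  have hp : Measurable fun z : (Fin n → Clause K) × ℝ =>
      ((fun k => theta (z.1 k), z.2) : (Fin n → (Fin K → Bool) → ℝ) × ℝ) :=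
    (measurable_pi_lambda _ fun k => measurable_theta.fun_comp (hθ k)).prodMk measurable_snd
  exact ((((integrable_clauses hM n).1.comp_fst M.field).fun_add
    (hM.field_int.abs.comp_snd (Measure.pi fun _ : Fin n => M.clause))).fun_add (integrable_const (log 2))).mono'
    ((lip_trialU hm hx hxb ℓ).continuous.measurable.comp hp).aestronglyMeasurable
    (ae_of_all _ fun z => trialU_abs hm hx hxb (fun k => theta (z.1 k)) ℓ z.2)

theorem uAvg_eq (n : ℕ) : uAvg M m x n = mean fun ℓ => uPt M m x n ℓ := by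
  have := hM.clause_prob
  have := hM.field_prob
  have hi := fun ℓ : Fin n → Fin K => integrable_uPt hM hm hx hxb ℓ
  have hp : ∀ ℓ : Fin n → Fin K, uPt M m x n ℓ = ∫ z, trialT (Fin n × Fin K) r m x (logU z.1 ℓ z.2)
      ∂(Measure.pi fun _ : Fin n => M.clause).prod M.field := fun ℓ => (integral_prod _ (hi ℓ)).symm
  simp only [hp]
  have him : Integrable (fun z : (Fin n → Clause K) × ℝ => mean fun ℓ : Fin n → Fin K =>
      trialT (Fin n × Fin K) r m x (logU z.1 ℓ z.2)) ((Measure.pi fun _ : Fin n => M.clause).prod M.field) :=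
    (integrable_finsetSum _ fun ℓ _ => hi ℓ).div_const _
  rw [← integral_mean hi, integral_prod _ him]
  rfl

theorem uAvg_abs [NeZero K] (n : ℕ) : |uAvg M m x n| ≤ (M.tE + M.hE + log 2) * ((n : ℝ) + 1) := by
  have := hM.clause_prob
  have := hM.field_prob
  have h := hM.reading.uTerm_abs hm hx hxb n
  change |uAvg M m x n| ≤ M.tE * n + (M.hE + log 2) at h
  have h1 : 0 ≤ M.tE := integral_nonneg fun c => tnorm_nonneg _
  have h2 : 0 ≤ M.hE := integral_nonneg fun c => abs_nonneg _
  nlinarith [log_nonneg (one_le_two (α := ℝ)), (Nat.cast_nonneg n : (0 : ℝ) ≤ n)]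

theorem mixA_left_zero [NeZero N] [NeZero K] (q : ℕ) :
    mixA M N m x 0 q = N * binE (1 / (N : ℝ)) q (uAvg M m x) := by
  have := hM.clause_prob
  have := hM.field_prob
  let S : (Fin q → Fin N) → Fin N → Finset (Fin q) := fun s v => Finset.univ.filter fun k => s k = v
  let e : ∀ s v, Fin (S s v).card ↪ Fin q := fun s v => ((S s v).orderEmbOfFin rfl).toEmbedding
  -- the value at given positions
  have hval : ∀ (d : Disorder K N 0 q) (i : Fin 0 → Fin K → Fin N) (ℓ : Fin q → Fin K) (s : Fin q → Fin N),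
      mixVal m x d i (fun k => (ℓ k, s k)) = ∑ v, trialT (Fin (S s v).card × Fin K) r m x
        (logU (d.2.1 ∘ e s v) (ℓ ∘ e s v) (d.2.2 v)) := by
    intro d i ℓ s
    let site : Fin N → (Fin q × Fin K → ℝ) → ℝ := fun v y => log (∑ b : Bool, exp
      ((∑ k ∈ S s v, lmf (theta (d.2.1 k)) (fun j => y (k, j)) (ℓ k) b) + d.2.2 v * spin b))
    have hdec : ∀ y, logSum (mixPsi d i (fun k => (ℓ k, s k)) y) = ∑ v, site v y := fun y => by
      have h : ∀ σ : Fin N → Bool, mixPsi d i (fun k => (ℓ k, s k)) y σ =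
          ∑ v, ((∑ k ∈ S s v, lmf (theta (d.2.1 k)) (fun j => y (k, j)) (ℓ k) (σ v)) + d.2.2 v * spin (σ v)) := by
        intro σ
        simp only [mixPsi, Finset.univ_eq_empty, Finset.sum_empty, zero_add, Finset.sum_add_distrib]
        congr 1
        rw [← Finset.sum_fiberwise Finset.univ s]
        refine Finset.sum_congr rfl fun v _ => Finset.sum_congr rfl fun k hk => ?_
        rw [(Finset.mem_filter.1 hk).2]
      simp only [logSum, h, exp_sum, site]
      rw [← Fintype.prod_sum fun v b => exp
        ((∑ k ∈ S s v, lmf (theta (d.2.1 k)) (fun j => y (k, j)) (ℓ k) b) + d.2.2 v * spin b),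
        log_prod fun v _ => (Finset.sum_pos (fun b _ => exp_pos _) Finset.univ_nonempty).ne']
    have hsite : ∀ v (y : Fin q × Fin K → ℝ), (∀ a, y a ∈ Set.Icc (-1 : ℝ) 1) → site v y =
        logU (d.2.1 ∘ e s v) (ℓ ∘ e s v) (d.2.2 v) (fun a => y (e s v a.1, a.2)) := fun v y hy => by
      change log _ = log (∑ b : Bool, exp (d.2.2 v * spin b) * ∏ k, facU (theta (d.2.1 (e s v k)))
        (fun j => y (e s v k, j)) (ℓ (e s v k)) b)
      refine congrArg log (Finset.sum_congr rfl fun b _ => ?_)
      rw [exp_add, mul_comm]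
      congr 1
      conv_lhs => rw [← Finset.map_orderEmbOfFin_univ (S s v) rfl, Finset.sum_map, exp_sum]
      exact Finset.prod_congr rfl fun k _ => exp_log (facU_pos _ _ fun j => hy _)
    have hm1 : ∀ v, Measurable (site v) := fun v => measurable_log.comp (Finset.measurable_sum _ fun b _ =>
      ((Finset.measurable_sum _ fun k _ => measurable_lmf (T := fun _ => theta (d.2.1 k))
        (A := fun (y : Fin q × Fin K → ℝ) j => y (k, j)) measurable_const
          (measurable_pi_lambda _ fun j => measurable_pi_apply _) _ _).add_const _).exp)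
    have hbnd : ∀ v (y : Fin q × Fin K → ℝ), (∀ a, y a ∈ Set.Icc (-1 : ℝ) 1) →
        |site v y| ≤ ∑ k, tnorm (theta (d.2.1 (e s v k))) + |d.2.2 v| + log 2 := fun v y hy => by
      have hb := rawU_abs (fun k => theta ((d.2.1 ∘ e s v) k)) (ℓ ∘ e s v) (fun a => y (e s v a.1, a.2))
        (d.2.2 v) fun a => hy _
      rw [hsite v y hy, logU_eq_raw]
      exact hb
    simp only [mixVal, hdec]
    rw [trialT_sum m hm hx hxb (fun a : Fin q × Fin K => s a.1) Finset.univ site
      (fun v => ∑ k, tnorm (theta (d.2.1 (e s v k))) + |d.2.2 v| + log 2) hm1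
      hbnd
      (fun v y y' h => by
        refine congrArg log (Finset.sum_congr rfl fun b _ => ?_)
        rw [Finset.sum_congr rfl fun k hk => show lmf (theta (d.2.1 k)) (fun j => y (k, j)) (ℓ k) b =
          lmf (theta (d.2.1 k)) (fun j => y' (k, j)) (ℓ k) b by
            rw [show (fun j => y (k, j)) = fun j => y' (k, j) from
              funext fun j => h (k, j) (Finset.mem_filter.1 hk).2]])]
    refine Finset.sum_congr rfl fun v _ => ?_
    rw [trialT_congr hxb (hsite v)]
    exact trialT_restrict ((e s v).prodMap (Function.Embedding.refl (Fin K))) m hx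
      (g := logU (d.2.1 ∘ e s v) (ℓ ∘ e s v) (d.2.2 v)) (measurable_rawU _ _ _)
  -- averaging
  let Q := Measure.pi fun _ : Fin q => M.clause
  let H := Measure.pi fun _ : Fin N => M.field
  have hone : ∀ (ℓ : Fin q → Fin K) (s : Fin q → Fin N) (v : Fin N),
      Integrable (fun z : (Fin q → Clause K) × (Fin N → ℝ) => trialT (Fin (S s v).card × Fin K) r m x
        (logU (z.1 ∘ e s v) (ℓ ∘ e s v) (z.2 v))) (Q.prod H) ∧
      ∫ z, trialT (Fin (S s v).card × Fin K) r m x (logU (z.1 ∘ e s v) (ℓ ∘ e s v) (z.2 v)) ∂Q.prod H =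
        uPt M m x (S s v).card (ℓ ∘ e s v) := fun ℓ s v => by
    have hg := (measurePreserving_restrict M.clause (e s v)).prod
      (measurePreserving_eval (fun _ : Fin N => M.field) v)
    have hi := integrable_uPt hM hm hx hxb (ℓ ∘ e s v)
    refine ⟨(hg.integrable_comp hi.aestronglyMeasurable).2 hi, ?_⟩
    have h := integral_map hg.measurable.aemeasurable (f := fun z : (Fin (S s v).card → Clause K) × ℝ =>
      trialT (Fin (S s v).card × Fin K) r m x (logU z.1 (ℓ ∘ e s v) z.2))
      (hg.map_eq.symm ▸ hi.aestronglyMeasurable)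
    rw [hg.map_eq] at h
    rw [uPt, ← integral_prod _ hi, h]
    rfl
  have havg : ∀ d : Disorder K N 0 q, mixAvg m x d = mean fun s : Fin q → Fin N => mean fun ℓ : Fin q → Fin K =>
      ∑ v, trialT (Fin (S s v).card × Fin K) r m x (logU (d.2.1 ∘ e s v) (ℓ ∘ e s v) (d.2.2 v)) := fun d => by
    have h1 : ∀ i : Fin 0 → Fin K → Fin N, (mean fun ls : Fin q → Fin K × Fin N => mixVal m x d i ls) =
        mean fun s : Fin q → Fin N => mean fun ℓ : Fin q → Fin K =>
          ∑ v, trialT (Fin (S s v).card × Fin K) r m x (logU (d.2.1 ∘ e s v) (ℓ ∘ e s v) (d.2.2 v)) := fun i => by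
      simp only [← hval d i]
      rw [mean_comm, ← mean_prod (fun (ℓ : Fin q → Fin K) (s : Fin q → Fin N) =>
          mixVal m x d i fun k => (ℓ k, s k)),
        ← mean_comp_equiv (Equiv.arrowProdEquivProdArrow (Fin q) (fun _ => Fin K) fun _ => Fin N)]
      rfl
    simp only [mixAvg, h1, mean_const]
  have hmi : ∀ s : Fin q → Fin N, Integrable (fun z : (Fin q → Clause K) × (Fin N → ℝ) =>
      mean fun ℓ : Fin q → Fin K => ∑ v, trialT (Fin (S s v).card × Fin K) r m x
        (logU (z.1 ∘ e s v) (ℓ ∘ e s v) (z.2 v))) (Q.prod H) := fun s =>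
    (integrable_finsetSum _ fun ℓ _ => integrable_finsetSum _ fun v _ => (hone ℓ s v).1).div_const _
  rw [mixA, mixLaw, integral_congr_ae (ae_of_all _ havg),
    integral_fun_snd (fun z : (Fin q → Clause K) × (Fin N → ℝ) => mean fun s : Fin q → Fin N =>
      mean fun ℓ : Fin q → Fin K => ∑ v, trialT (Fin (S s v).card × Fin K) r m x
        (logU (z.1 ∘ e s v) (ℓ ∘ e s v) (z.2 v))), probReal_univ, one_smul,
    integral_mean hmi]
  have hs : ∀ s : Fin q → Fin N, (∫ z, mean (fun ℓ : Fin q → Fin K => ∑ v, trialT (Fin (S s v).card × Fin K) r m x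
      (logU (z.1 ∘ e s v) (ℓ ∘ e s v) (z.2 v))) ∂Q.prod H) = ∑ v, uAvg M m x (S s v).card := fun s => by
    rw [integral_mean fun ℓ => integrable_finsetSum _ fun v _ => (hone ℓ s v).1]
    simp only [integral_finsetSum _ fun v _ => (hone _ s v).1, (hone _ s _).2]
    rw [mean, Finset.sum_comm, Finset.sum_div]
    refine Finset.sum_congr rfl fun v _ => ?_
    rw [uAvg_eq hM hm hx hxb]
    exact mean_comp_embedding (e s v) fun ℓ' => uPt M m x (S s v).card ℓ'
  simp only [hs]
  rw [mean, Finset.sum_comm, Finset.sum_div]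
  simp only [← show ∀ f : (Fin q → Fin N) → ℝ, mean f = (∑ s, f s) / _ from fun f => rfl]
  simp only [S, mean_card_filter, Finset.sum_const, Finset.card_univ, Fintype.card_fin, nsmul_eq_mul]

theorem mixA_right_zero [NeZero N] [NeZero K] (p : ℕ) :
    mixA M N m x p 0 = ∫ θ, (∫ h, mean (fun i : Fin p → Fin K → Fin N => log (∑ σ, exp (ham θ i h σ)))
      ∂Measure.pi fun _ : Fin N => M.field) ∂Measure.pi fun _ : Fin p => M.clause := by
  have := hM.clause_prob
  have := hM.field_prob
  have hval : ∀ d : Disorder K N p 0, mixAvg m x d =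
      mean fun i : Fin p → Fin K → Fin N => log (∑ σ, exp (ham d.1 i d.2.2 σ)) := fun d => by
    unfold mixAvg
    refine congrArg mean (funext fun i => ?_)
    refine (congrArg mean (funext fun ls => ?_)).trans (mean_const (α := Fin 0 → Fin K × Fin N) _)
    have h : ∀ y, logSum (mixPsi d i ls y) = log (∑ σ, exp (ham d.1 i d.2.2 σ)) := fun y => by
      simp [logSum, mixPsi, ham, Function.comp_def]
    simp only [mixVal, h]
    exact trialT_const m hm x _
  have hi := integrable_mixAvg (N := N) (p := p) (q := 0) hM hm hx hxb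
  unfold mixA mixLaw
  rw [integral_prod _ hi]
  simp only [hval]
  refine integral_congr_ae (ae_of_all _ fun θ => ?_)
  change (∫ z : (Fin 0 → Clause K) × (Fin N → ℝ), mean (fun i : Fin p → Fin K → Fin N =>
    log (∑ σ, exp (ham θ i z.2 σ))) ∂_) = _
  rw [integral_fun_snd (fun h : Fin N → ℝ => mean fun i : Fin p → Fin K → Fin N =>
    log (∑ σ, exp (ham θ i h σ))), probReal_univ, one_smul]

theorem trialT_logV (n : ℕ) :
    ∫ θ, trialT (Fin n × Fin K) r m x (logV θ) ∂Measure.pi (fun _ : Fin n => M.clause) = n * vOne M m x := by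
  have := hM.clause_prob
  have hk : ∀ θ : Fin n → Clause K,
      trialT (Fin n × Fin K) r m x (logV θ) = ∑ k, trialT (Fin K) r m x (lvf (theta (θ k))) := fun θ => by
    have he : ∀ y : Fin n × Fin K → ℝ, (∀ a, y a ∈ Set.Icc (-1 : ℝ) 1) →
        logV θ y = ∑ k, lvf (theta (θ k)) fun j => y (k, j) := fun y hy => by
      change log (∏ k, facV (theta (θ k)) fun j => y (k, j)) = _
      rw [log_prod fun k _ => (facV_pos fun j => hy _).ne']
      rfl
    rw [trialT_congr hxb he, trialT_sum m hm hx hxb Prod.fst Finset.univ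
      (fun k (y : Fin n × Fin K → ℝ) => lvf (theta (θ k)) fun j => y (k, j)) (fun k => tnorm (theta (θ k)))
      (fun k => measurable_lvf (T := fun _ => theta (θ k)) (A := fun (y : Fin n × Fin K → ℝ) j => y (k, j))
        measurable_const (measurable_pi_lambda _ fun j => measurable_pi_apply _))
      (fun k y hy => lvf_abs fun j => hy _)
      (fun k y y' h => by rw [show (fun j => y (k, j)) = fun j => y' (k, j) from funext fun j => h (k, j) rfl])]
    refine Finset.sum_congr rfl fun k _ => ?_
    exact trialT_restrict ⟨fun j => (k, j), fun a b h => (Prod.ext_iff.1 h).2⟩ m hx (g := lvf (theta (θ k)))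
      (measurable_lvf (T := fun _ => theta (θ k)) (A := fun y => y) measurable_const measurable_id)
  simp only [hk]
  have hi := integrable_vOne hM hm hx hxb
  rw [integral_sum_pi (B := fun c => trialT (Fin K) r m x (lvf (theta c))) hi]
  rfl

omit hm in
/-- The bound for step functions. -/
theorem pressure_le_of_step {L : ℕ} [NeZero N] (hK : Even K) (h2 : 2 ≤ K) {lam : ℝ} (hlam : 0 ≤ lam)
    (hm' : ∀ l, m l ∈ Set.Ioo (0 : ℝ) 1) (hms : StrictMono m) (hs : IsStep L x) :
    pressure M lam N ≤ trialValue M lam r m x := by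
  have : NeZero K := ⟨by omega⟩
  have hm : ∀ l, 0 < m l := fun l => (hm' l).1
  have hN : (0 : ℝ) < N := Nat.cast_pos.2 (Nat.pos_of_ne_zero (NeZero.ne N))
  have hK1 : (1 : ℝ) ≤ K := by exact_mod_cast le_trans one_le_two h2
  set A := mixA M N m x with hA
  set c := lam * N with hc
  have hc0 : 0 ≤ c := mul_nonneg hlam hN.le
  have hE : 0 ≤ M.tE := integral_nonneg fun c => tnorm_nonneg _
  have hg : ∀ p, |A p 0| ≤ (M.tE + N * M.hE + N * log 2) * ((p : ℝ) + 1) := fun p => by
    have h := mixA_abs (p := p) (q := 0) (N := N) hM hm hx hxb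
    have h1 : 0 ≤ M.hE := integral_nonneg fun c => abs_nonneg _
    have h3 := log_nonneg (one_le_two (α := ℝ))
    simp only [Nat.cast_zero, zero_mul, add_zero] at h
    nlinarith [mul_nonneg hN.le h1, mul_nonneg hN.le h3, (Nat.cast_nonneg p : (0 : ℝ) ≤ p)]
  have lim1 := tendsto_binE hc0 hg
  have lim2 := tendsto_binE (c := (K : ℝ) * lam) (mul_nonneg (by linarith) hlam) (uAvg_abs hM hm hx hxb)
  have hcmp : ∀ᶠ n : ℕ in atTop, binE (c / n) n (fun p => A p 0) ≤
      N * binE (K * lam / n) n (uAvg M m x) - c * (((K : ℝ) - 1) * vOne M m x) := by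
    filter_upwards [eventually_ge_atTop (max 1 ⌈(K : ℝ) * c⌉₊)] with n hn
    have hn0 : (0 : ℝ) < n := Nat.cast_pos.2 ((le_max_left _ _).trans hn)
    have hKc : (K : ℝ) * c ≤ n := (Nat.le_ceil _).trans (Nat.cast_le.2 ((le_max_right _ _).trans hn))
    have hα1 : c / n ≤ 1 := (div_le_one hn0).2 ((le_mul_of_one_le_left hc0 hK1).trans hKc)
    have hβ1 : (K : ℝ) * c / n ≤ 1 := (div_le_one hn0).2 hKc
    have h := binE_compare (α := c / n) (β := K * c / n) (δ := c / n * (((K : ℝ) - 1) * vOne M m x))
      (by positivity) (by positivity) hα1 n A hβ1 fun p q => by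
        have := mul_le_mul_of_nonneg_left (mixA_step (N := N) hM hx hxb hK (by omega) hm' hms hs p q)
          (div_nonneg hc0 hn0.le)
        rw [mul_zero, mul_add, mul_sub, ← hA] at this
        rw [show (K : ℝ) * c / n = K * (c / n) from mul_div_assoc _ _ _]
        linarith
    have e : binE ((K : ℝ) * c / n) n (A 0) = N * binE (K * lam / n) n (uAvg M m x) := by
      rw [show A 0 = fun q => (N : ℝ) * binE (1 / (N : ℝ)) q (uAvg M m x) from
        funext fun q => mixA_left_zero hM hm hx hxb q, binE_mul, binE_thin]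
      congr 2
      rw [hc]
      field_simp
    rw [e, ← mul_assoc (n : ℝ), mul_div_cancel₀ _ hn0.ne'] at h
    exact h
  have h := le_of_tendsto_of_tendsto lim1 ((lim2.const_mul (N : ℝ)).sub_const _) hcmp
  have hv : (∑' n, pois (((K : ℝ) - 1) * lam) n * ∫ θ, trialT (Fin n × Fin K) r m x (logV θ)
      ∂Measure.pi fun _ : Fin n => M.clause) = ((K : ℝ) - 1) * lam * vOne M m x := by
    simp only [trialT_logV hM hm hx hxb, ← mul_assoc]
    rw [tsum_mul_right, (hasSum_pois_mul _).tsum_eq]
  rw [pressure, trialValue, hv, div_le_iff₀ hN]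
  simp only [← mixA_right_zero (N := N) hM hm hx hxb]
  rw [← hA, ← hc]
  refine h.trans_eq ?_
  rw [hc]
  simp only [uAvg]
  ring

end Vale.Agent.P168
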