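import Vale.Agent.P168.Upper.Factor
import Vale.Agent.P168.RecLog

/-!
# P168, upper bound: the recursion of a step function is the root value of a finite tree
-/

open MeasureTheory Real

namespace Vale.Agent.P168

section Tree

variable {L : ℕ} {Z : Type} [Fintype Z]

/-- The grid of a depth `r`: the parameters `m`, then `1`. -/
noncomputable def treeGrid {r : ℕ} {m : Fin r → ℝ} (hm : ∀ p, m p ∈ Set.Ioo (0 : ℝ) 1) (hs : StrictMono m) :
    Grid (r + 1) where
  m := fun t => if t = 0 then 0 else if h : t - 1 < r then m ⟨t - 1, h⟩ else 1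
  m_zero := if_pos rfl
  m_last := by simp
  m_pos := fun t h1 _ => by
    rw [if_neg (by omega)]
    split_ifs with h
    · exact (hm _).1
    · exact one_pos
  m_mono := fun t ht => by
    simp only [Nat.add_sub_cancel, Nat.succ_ne_zero, if_false]
    rcases Nat.eq_zero_or_pos t with h0 | h0
    · rw [if_pos h0]
      split_ifs with h
      · exact (hm _).1.le
      · exact zero_le_one
    · rw [if_neg (by omega)]
      split_ifs with h h'
      · exact hs.monotone (by simp [Fin.le_def])
      · exact (hm _).2.le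
      · omega
      · exact le_rfl

theorem treeGrid_m {r : ℕ} {m : Fin r → ℝ} (hm : ∀ p, m p ∈ Set.Ioo (0 : ℝ) 1) (hs : StrictMono m)
    (p : Fin r) : (treeGrid hm hs).m (p + 1) = m p := by
  simp [treeGrid]

/-- The grid without its first level. -/
noncomputable def shiftGrid (G : Grid (L + 2)) : Grid (L + 1) where
  m := fun t => if t = 0 then 0 else G.m (t + 1)
  m_zero := if_pos rfl
  m_last := by simpa using G.m_last
  m_pos := fun t h1 h2 => by rw [if_neg (by omega)]; exact G.m_pos _ (by omega) (by omega)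
  m_mono := fun t ht => by
    simp only [Nat.succ_ne_zero, if_false]
    rcases Nat.eq_zero_or_pos t with h0 | h0
    · rw [if_pos h0]; exact (G.m_pos _ (by omega) (by omega)).le
    · rw [if_neg (by omega)]; exact G.m_mono _ (by omega)

omit [Fintype Z] in
theorem putZ_zero (ξ : Fin (L + 1) → Z) (z : Z) : putZ ξ 0 z = Fin.cons z (Fin.tail ξ) := by
  funext a
  induction a using Fin.cases with
  | zero => simp [putZ]
  | succ b => simp [putZ, Fin.tail]

omit [Fintype Z] in
theorem putZ_cons (ξ : Fin L → Z) (z z' : Z) (s : ℕ) :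
    putZ (Fin.cons z ξ : Fin (L + 1) → Z) (s + 1) z' = Fin.cons z (putZ ξ s z') := by
  funext a
  induction a using Fin.cases with
  | zero => simp [putZ]
  | succ b => simp [putZ]

theorem vRec_cons (G : Grid (L + 1)) (G' : Grid L) (hG : ∀ t, 1 ≤ t → t ≤ L → G'.m t = G.m (t + 1))
    (H : (Fin (L + 1) → Z) → ℝ) (z : Z) :
    ∀ (d : ℕ), d ≤ L → ∀ ξ : Fin L → Z,
      vRec G H d (Fin.cons z ξ) = vRec G' (fun ζ => H (Fin.cons z ζ)) d ξ
  | 0, _, _ => rfl
  | d + 1, hd, ξ => by
    simp only [vRec]
    rw [show L + 1 - d - 1 = (L - d - 1) + 1 by omega, show L + 1 - d = L - d + 1 by omega,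
      ← hG (L - d) (by omega) (by omega)]
    simp only [putZ_cons, vRec_cons G G' hG H z d (by omega)]

theorem vAt_zero_succ (G : Grid (L + 1)) (G' : Grid L) (hG : ∀ t, 1 ≤ t → t ≤ L → G'.m t = G.m (t + 1))
    (H : (Fin (L + 1) → Z) → ℝ) (ξ : Fin (L + 1) → Z) :
    vAt G H 0 ξ =
      log (mean fun z => exp (G.m 1 * vAt G' (fun ζ => H (Fin.cons z ζ)) 0 (Fin.tail ξ))) / G.m 1 := by
  simp only [vAt, Nat.sub_zero, vRec]
  rw [show L + 1 - L - 1 = 0 by omega, show L + 1 - L = 1 by omega]
  simp only [putZ_zero, vRec_cons G G' hG H _ L le_rfl]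

/-- The recursion of a function of uniform labels is the root value of the tree. -/
theorem recLog_tree {W Z₀ : Type} [MeasurableSpace W] [Fintype Z₀] (μ : Measure W) (φ : W → Z₀)
    (hφ : ∀ f : Z₀ → ℝ, ∫ w, f (φ w) ∂μ = mean f) (pr : Z → Z₀)
    (hpr : ∀ f : Z₀ → ℝ, mean (fun z => f (pr z)) = mean f) :
    ∀ (r : ℕ) (m : Fin r → ℝ) (G : Grid (r + 1)), (∀ p : Fin r, G.m (p + 1) = m p) →
      ∀ (F : (Fin r → Z₀) → Z → ℝ) (ξ₀ : Fin (r + 1) → Z),
        recLog μ r m (fun w => log (mean fun z => exp (F (φ ∘ w) z))) =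
          vAt G (fun ξ => F (fun p => pr (ξ p.castSucc)) (ξ (Fin.last r))) 0 ξ₀
  | 0, m, G, _, F, ξ₀ => by
    have h1 : G.m 1 = 1 := G.m_last
    simp only [recLog, vAt, vRec, Nat.sub_zero, h1, one_mul, div_one]
    refine congrArg log (congrArg mean (funext fun z => congrArg exp ?_))
    exact congr (congrArg F (funext fun p => p.elim0)) (by simp [putZ])
  | r + 1, m, G, hG, F, ξ₀ => by
    have h0 : G.m 1 = m 0 := by simpa using hG 0
    have hG' : ∀ t, 1 ≤ t → t ≤ r + 1 → (shiftGrid G).m t = G.m (t + 1) := fun t ht _ =>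
      if_neg (by omega)
    let g : Z₀ → ℝ := fun z₀ => exp (m 0 * vAt (shiftGrid G)
      (fun ζ => F (Fin.cons z₀ fun p => pr (ζ p.castSucc)) (ζ (Fin.last r))) 0 (Fin.tail ξ₀))
    have ih : ∀ a : W, exp (m 0 * recLog μ r (fun p => m p.succ)
        fun w => log (mean fun z => exp (F (φ ∘ Fin.cons a w) z))) = g (φ a) := fun a => by
      simp only [Fin.comp_cons]
      exact congrArg exp (congrArg (m 0 * ·) (recLog_tree μ φ hφ pr hpr r (fun p => m p.succ)
        (shiftGrid G) (fun p => by simpa [shiftGrid] using hG p.succ) (fun v => F (Fin.cons (φ a) v)) _))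
    have key : ∀ z : Z, exp (m 0 * vAt (shiftGrid G) (fun ζ : Fin (r + 1) → Z =>
        F (fun p => pr ((Fin.cons z ζ : Fin (r + 2) → Z) p.castSucc))
          ((Fin.cons z ζ : Fin (r + 2) → Z) (Fin.last (r + 1)))) 0 (Fin.tail ξ₀)) = g (pr z) := fun z => by
      refine congrArg exp (congrArg (m 0 * ·) (congrArg (fun H => vAt _ H 0 _) (funext fun ζ => ?_)))
      refine congr (congrArg F (funext fun p => ?_)) ?_
      · induction p using Fin.cases with
        | zero => simp
        | succ q => simp [Fin.castSucc_succ]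
      · rw [← Fin.succ_last, Fin.cons_succ]
    rw [vAt_zero_succ G (shiftGrid G) hG']
    simp only [recLog, ih, hφ g, h0, key, hpr g]

/-- A finite tree value depends measurably on the potential. -/
theorem measurable_vRec {Ω : Type*} [MeasurableSpace Ω] (G : Grid L) {H : Ω → (Fin L → Z) → ℝ}
    (hH : ∀ ξ, Measurable fun w => H w ξ) :
    ∀ (d : ℕ) (ξ : Fin L → Z), Measurable fun w => vRec G (H w) d ξ
  | 0, ξ => hH ξ
  | d + 1, _ => (measurable_log.comp ((Finset.measurable_sum _ fun _ _ =>
      ((measurable_vRec G hH d _).const_mul _).exp).div_const _)).div_const _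

end Tree

section Cell

/-- The cell of a point of the unit interval. -/
noncomputable def cell (M : ℕ) (t : ℝ) : Fin (M + 1) :=
  ⟨min ⌊((M : ℝ) + 1) * t⌋₊ M, by omega⟩

/-- The left end of a cell. -/
noncomputable def cellPt (M : ℕ) (k : Fin (M + 1)) : ℝ := (k : ℕ) / ((M : ℝ) + 1)

theorem measurable_cell (M : ℕ) : Measurable (cell M) :=
  (measurable_of_countable fun j : ℕ => (⟨min j M, by omega⟩ : Fin (M + 1))).comp
    (Nat.measurable_floor.comp (measurable_id.const_mul _))

theorem cell_mem (M : ℕ) {t : ℝ} (ht : t ∈ Set.Icc (0 : ℝ) 1) :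
    t ∈ Set.Icc (cellPt M (cell M t)) (cellPt M (cell M t) + 1 / ((M : ℝ) + 1)) := by
  have hM : (0 : ℝ) < (M : ℝ) + 1 := by positivity
  have h0 : 0 ≤ ((M : ℝ) + 1) * t := mul_nonneg hM.le ht.1
  have h1 := Nat.floor_le h0
  have h2 := Nat.lt_floor_add_one (((M : ℝ) + 1) * t)
  simp only [cellPt, cell, ← add_div, Set.mem_Icc, div_le_iff₀ hM, le_div_iff₀ hM, Nat.cast_min]
  constructor
  · exact (min_le_left _ _).trans (by linarith)
  · rcases le_total ⌊((M : ℝ) + 1) * t⌋₊ M with h | h
    · rw [min_eq_left (Nat.cast_le.2 h)]; linarith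
    · rw [min_eq_right (Nat.cast_le.2 h)]; nlinarith [ht.2]

theorem integral_cell (M : ℕ) (f : Fin (M + 1) → ℝ) : ∫ t, f (cell M t) ∂unif = mean f := by
  classical
  let χ : Fin (M + 1) → ℝ → ℝ := fun k t => if cell M t = k then 1 else 0
  have hi : ∀ k, Integrable (χ k) unif := fun k =>
    Integrable.of_bound ((measurable_of_countable fun j : Fin (M + 1) =>
      if j = k then (1 : ℝ) else 0).comp (measurable_cell M)).aestronglyMeasurable 1
        (ae_of_all _ fun t => by simp only [χ]; split_ifs <;> norm_num)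
  have hsum : ∑ k, ∫ t, χ k t ∂unif = 1 := by
    rw [← integral_finsetSum _ fun k _ => hi k]
    simp [χ]
  have hle : ∀ k, ∫ t, χ k t ∂unif ≤ 1 / ((M : ℝ) + 1) := fun k => by
    set S := Set.Icc (cellPt M k) (cellPt M k + 1 / ((M : ℝ) + 1))
    calc ∫ t, χ k t ∂unif ≤ ∫ t, S.indicator (fun _ => (1 : ℝ)) t ∂unif := by
          refine integral_mono_ae (hi k) ((integrable_const 1).indicator measurableSet_Icc) ?_
          filter_upwards [ae_restrict_mem measurableSet_Icc] with t ht
          simp only [χ]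
          split_ifs with h
          · rw [Set.indicator_of_mem (show t ∈ S by subst h; exact cell_mem M ht)]
          · exact Set.indicator_nonneg (fun _ _ => zero_le_one) _
      _ = (unif S).toReal := by
          rw [integral_indicator_const _ measurableSet_Icc, smul_eq_mul, mul_one, measureReal_def]
      _ ≤ _ := by
          refine (ENNReal.toReal_mono (by simp [S, Real.volume_Icc])
            (Measure.restrict_apply_le _ _)).trans_eq ?_
          simp [S, Real.volume_Icc, (by positivity : (0 : ℝ) ≤ (M : ℝ) + 1)]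
  have heq : ∀ k, ∫ t, χ k t ∂unif = 1 / ((M : ℝ) + 1) := by
    have := (Finset.sum_eq_sum_iff_of_le fun k (_ : k ∈ Finset.univ) => hle k).1 (by
      rw [hsum, Finset.sum_const, Finset.card_univ, Fintype.card_fin, nsmul_eq_mul]
      push_cast
      field_simp)
    exact fun k => this k (Finset.mem_univ k)
  have he : (fun t => f (cell M t)) = fun t => ∑ k, f k * χ k t := by
    funext t; simp [χ]
  rw [he, integral_finsetSum _ fun k _ => (hi k).const_mul _]
  simp only [integral_const_mul, heq, mean, Fintype.card_fin, Finset.sum_div, Nat.cast_add, Nat.cast_one,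
    mul_one_div]

/-- Uniform labels in every coordinate are uniform. -/
theorem integral_pi_uniform {ι W C : Type} [Fintype ι] [DecidableEq ι] [Fintype C] [DecidableEq C]
    [MeasurableSpace W] [MeasurableSpace C] [DiscreteMeasurableSpace C] (μ : Measure W) [IsProbabilityMeasure μ]
    {φ : W → C} (hm : Measurable φ) (hφ : ∀ f : C → ℝ, ∫ w, f (φ w) ∂μ = mean f) (f : (ι → C) → ℝ) :
    ∫ z : ι → W, f (φ ∘ z) ∂Measure.pi (fun _ : ι => μ) = mean f := by
  have hb : ∀ b : ι → C, Integrable (fun z : ι → W => ∏ i, if φ (z i) = b i then (1 : ℝ) else 0)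
      (Measure.pi fun _ : ι => μ) := fun b =>
    Integrable.of_bound (Finset.measurable_prod _ fun i _ => (measurable_of_countable fun c : C =>
      if c = b i then (1 : ℝ) else 0).comp (hm.comp (measurable_pi_apply i))).aestronglyMeasurable 1
      (ae_of_all _ fun z => by
        rw [Real.norm_eq_abs, Finset.abs_prod]
        exact Finset.prod_le_one (fun i _ => abs_nonneg _) fun i _ => by split_ifs <;> norm_num)
  have he : (fun z : ι → W => f (φ ∘ z)) =
      fun z => ∑ b : ι → C, f b * ∏ i, if φ (z i) = b i then (1 : ℝ) else 0 := by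
    funext z
    rw [Finset.sum_eq_single (φ ∘ z)]
    · simp
    · intro b _ hb
      obtain ⟨i, hi⟩ := Function.ne_iff.1 hb
      rw [Finset.prod_eq_zero (Finset.mem_univ i) (if_neg (Ne.symm hi)), mul_zero]
    · simp
  have hv : ∀ b : ι → C, ∫ z : ι → W, (∏ i, if φ (z i) = b i then (1 : ℝ) else 0)
      ∂Measure.pi (fun _ : ι => μ) = 1 / (Fintype.card (ι → C) : ℝ) := fun b => by
    rw [integral_fintype_prod_eq_prod (μ := fun _ : ι => μ) fun i w => if φ w = b i then (1 : ℝ) else 0]
    have h1 : ∀ c' : C, ∫ w, (if φ w = c' then (1 : ℝ) else 0) ∂μ = (Fintype.card C : ℝ)⁻¹ := fun c' => by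
      rw [hφ fun c => if c = c' then (1 : ℝ) else 0]
      simp [mean]
    simp [h1]
  rw [he, integral_finsetSum _ fun b _ => (hb b).const_mul _]
  simp only [integral_const_mul, hv, mean, mul_one_div, Finset.sum_div]

theorem mean_comp_equiv {α β : Type*} [Fintype α] [Fintype β] (e : α ≃ β) (f : β → ℝ) :
    mean (fun a => f (e a)) = mean f := by
  rw [mean, mean, e.sum_comp f, Fintype.card_congr e]

end Cell

end Vale.Agent.P168
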