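import Vale.Agent.P168.Upper.StepVal
import Vale.Agent.P168.Upper.Grid
import Vale.Agent.P168.Tree.Deriv
import Vale.Agent.P168.Tree.Marginal

/-!
# P168, upper bound: the step inequality for step functions
-/

open MeasureTheory Real

namespace Vale.Agent.P168

variable {ι0 : Type} [Fintype ι0] [DecidableEq ι0] {K N r M : ℕ}

/-- The order parameter depends on the levels `1, ..., r` through cells only. -/
def IsStep (M : ℕ) (x : (Fin (r + 1) → ℝ) → ℝ) : Prop :=
  ∀ ω w, x (Fin.cons ω w) = x (Fin.cons ω (cellPt M ∘ cell M ∘ w))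

/-- The message of a step function from the cells of its levels. -/
noncomputable def stepMsg (M : ℕ) (x : (Fin (r + 1) → ℝ) → ℝ) (ω : ℝ) (z : Fin (r + 1) → Fin (M + 1)) : ℝ :=
  x (Fin.cons ω fun p => cellPt M (z p.castSucc))

/-- The labels of the base. -/
abbrev BaseLab (ι0 : Type) (M N : ℕ) : Type := (ι0 → Fin (M + 1)) × (Fin N → Bool)

/-- The spins are the labels of the last level. -/
def baseSpins (u : Fin (r + 1) → BaseLab ι0 M N) : Fin N → Bool := (u (Fin.last r)).2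

/-- The potential of the base for fixed variables of level zero. -/
noncomputable def baseH (x : (Fin (r + 1) → ℝ) → ℝ) (Ψ : (ι0 → ℝ) → (Fin N → Bool) → ℝ) (wb : ι0 → ℝ)
    (u : Fin (r + 1) → BaseLab ι0 M N) : ℝ :=
  Ψ (fun a => stepMsg M x (wb a) fun l => (u l).1 a) (baseSpins u) + N * log 2

/-- The messages read from the extended labels. -/
noncomputable def labMsg (x : (Fin (r + 1) → ℝ) → ℝ) (w₀ : ι0 ⊕ Fin K → ℝ)
    (ξ : Fin (r + 1) → BaseLab ι0 M N × (Fin K → Fin (M + 1))) (a : ι0 ⊕ Fin K) : ℝ :=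
  stepMsg M x (w₀ a) fun l => Sum.elim (ξ l).1.1 (ξ l).2 a

theorem abs_log_one_add {β P : ℝ} (hβ : |β| < 1) (hP : |P| ≤ 1) :
    |log (1 + β * P)| ≤ -log (1 - |β|) := by
  have h1 : |β * P| ≤ |β| := by rw [abs_mul]; exact mul_le_of_le_one_right (abs_nonneg β) hP
  obtain ⟨a, b⟩ := abs_le.1 h1
  rw [abs_le, neg_neg]
  refine ⟨log_le_log (by linarith) (by linarith), ?_⟩
  rw [← log_inv]
  refine log_le_log (by linarith) ?_
  rw [inv_eq_one_div, le_div_iff₀ (by linarith)]
  nlinarith [abs_nonneg β]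

section Convert

variable {m : Fin r → ℝ} {x : (Fin (r + 1) → ℝ) → ℝ}
variable (hm : ∀ p, 0 < m p) (hx : Measurable x) (hxb : ∀ w, x w ∈ Set.Icc (-1 : ℝ) 1) (hs : IsStep M x)
variable (G : Grid (r + 1)) (hG : ∀ p : Fin r, G.m (p + 1) = m p)

include hs hG

theorem tree_val (Φ : (ι0 ⊕ Fin K → ℝ) → (Fin N → Bool) → ℝ) (w₀ : ι0 ⊕ Fin K → ℝ) :
    recLog (Measure.pi fun _ : ι0 ⊕ Fin K => unif) r m
        (fun w => logSum (Φ fun a => x (Fin.cons (w₀ a) fun p => w p a))) =
      vAt G (fun ξ => Φ (labMsg (M := M) x w₀ ξ) (baseSpins fun l => (ξ l).1) + N * log 2) 0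
        (fun _ => Classical.arbitrary (BaseLab ι0 M N × (Fin K → Fin (M + 1)))) := by
  let e : BaseLab ι0 M N × (Fin K → Fin (M + 1)) ≃ (ι0 ⊕ Fin K → Fin (M + 1)) × (Fin N → Bool) :=
    { toFun := fun z => (Sum.elim z.1.1 z.2, z.1.2)
      invFun := fun q => ((q.1 ∘ Sum.inl, q.2), q.1 ∘ Sum.inr)
      left_inv := fun z => by simp
      right_inv := fun q => by simp }
  have hsnd : ∀ f : (Fin N → Bool) → ℝ,
      mean (fun z : BaseLab ι0 M N × (Fin K → Fin (M + 1)) => f z.1.2) = mean f := fun f => by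
    rw [mean_fst (fun a : BaseLab ι0 M N => f a.2)]
    exact (mean_comp_equiv (Equiv.prodComm _ _) fun q : (Fin N → Bool) × (ι0 → Fin (M + 1)) => f q.1).trans
      (mean_fst f)
  have h := recLog_tree (Measure.pi fun _ : ι0 ⊕ Fin K => unif) (fun z => cell M ∘ z)
    (fun f => integral_pi_uniform unif (measurable_cell M) (integral_cell M) f)
    (fun z : BaseLab ι0 M N × (Fin K → Fin (M + 1)) => Sum.elim z.1.1 z.2)
    (fun f => (mean_comp_equiv e fun q => f q.1).trans (mean_fst f)) r m G hG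
    (fun v z => Φ (fun a => x (Fin.cons (w₀ a) fun p => cellPt M (v p a))) z.1.2 + N * log 2)
    (fun _ => Classical.arbitrary _)
  refine Eq.trans (congrArg _ (funext fun w => ?_)) h
  rw [hsnd fun σ => exp (Φ (fun a => x (Fin.cons (w₀ a) fun p => cellPt M (((fun z => cell M ∘ z) ∘ w) p a)))
    σ + N * log 2)]
  have e1 : (fun a => x (Fin.cons (w₀ a) fun p => w p a)) =
      fun a => x (Fin.cons (w₀ a) fun p => cellPt M (((fun z => cell M ∘ z) ∘ w) p a)) :=
    funext fun a => hs _ _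
  rw [e1, logSum]
  have e2 : exp ((N : ℝ) * log 2) = 2 ^ N := by rw [← log_pow, exp_log (by positivity)]
  simp only [mean, exp_add, e2, ← Finset.sum_mul, Fintype.card_fun, Fintype.card_fin, Fintype.card_bool]
  congr 1
  push_cast
  field_simp

include hm hx hxb

theorem gT_eq (Φ δ : (ι0 ⊕ Fin K → ℝ) → (Fin N → Bool) → ℝ) (H₀ P : (ι0 ⊕ Fin K → ℝ) →
      (Fin (r + 1) → BaseLab ι0 M N × (Fin K → Fin (M + 1))) → ℝ) (β : ℝ) {B d : ℝ}
    (hΦ : ∀ σ, Measurable fun y => Φ y σ) (hδ : ∀ σ, Measurable fun y => δ y σ)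
    (hB : ∀ y : ι0 ⊕ Fin K → ℝ, (∀ i, y i ∈ Set.Icc (-1 : ℝ) 1) → ∀ σ, |Φ y σ| ≤ B)
    (hd : ∀ y : ι0 ⊕ Fin K → ℝ, (∀ i, y i ∈ Set.Icc (-1 : ℝ) 1) → ∀ σ, |δ y σ| ≤ d)
    (hH : ∀ w₀ ξ, Φ (labMsg x w₀ ξ) (baseSpins fun l => (ξ l).1) + N * log 2 = H₀ w₀ ξ)
    (hP : ∀ w₀ ξ, δ (labMsg x w₀ ξ) (baseSpins fun l => (ξ l).1) = log (1 + β * P w₀ ξ)) :
    gT r m x Φ δ = ∫ w₀, gain G (H₀ w₀) (P w₀) β ∂Measure.pi (fun _ : ι0 ⊕ Fin K => unif) ∧
      Integrable (fun w₀ => gain G (H₀ w₀) (P w₀) β) (Measure.pi fun _ : ι0 ⊕ Fin K => unif) ∧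
      ∀ w₀, |gain G (H₀ w₀) (P w₀) β| ≤ d := by
  have g₁ : Measurable fun y => logSum fun σ => Φ y σ + δ y σ := measurable_logSum fun σ => (hΦ σ).add (hδ σ)
  have g₂ : Measurable fun y => logSum (Φ y) := measurable_logSum hΦ
  have b₁ : ∀ y : ι0 ⊕ Fin K → ℝ, (∀ i, y i ∈ Set.Icc (-1 : ℝ) 1) →
      |logSum fun σ => Φ y σ + δ y σ| ≤ B + d + N * log 2 := fun y hy =>
    logSum_abs fun σ => (abs_add_le _ _).trans (add_le_add (hB y hy σ) (hd y hy σ))
  have b₂ : ∀ y : ι0 ⊕ Fin K → ℝ, (∀ i, y i ∈ Set.Icc (-1 : ℝ) 1) → |logSum (Φ y)| ≤ B + N * log 2 :=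
    fun y hy => logSum_abs (hB y hy)
  have i₁ := integrable_trial hm hx hxb g₁ b₁
  have i₂ := integrable_trial hm hx hxb g₂ b₂
  have hw : ∀ w₀, gain G (H₀ w₀) (P w₀) β =
      recLog (Measure.pi fun _ : ι0 ⊕ Fin K => unif) r m
          (fun w => logSum fun σ => Φ (fun a => x (Fin.cons (w₀ a) fun p => w p a)) σ +
            δ (fun a => x (Fin.cons (w₀ a) fun p => w p a)) σ) -
        recLog (Measure.pi fun _ : ι0 ⊕ Fin K => unif) r m
          (fun w => logSum (Φ fun a => x (Fin.cons (w₀ a) fun p => w p a))) := fun w₀ => by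
    rw [tree_val hs G hG (fun y σ => Φ y σ + δ y σ) w₀, tree_val hs G hG Φ w₀, gain]
    congr 2
    · funext ξ; rw [← hH, ← hP]; ring
    · funext ξ; rw [← hH]
  refine ⟨?_, ?_, fun w₀ => ?_⟩
  · rw [gT, trialT, trialT, ← integral_sub i₁ i₂]
    exact integral_congr_ae (ae_of_all _ fun w₀ => (hw w₀).symm)
  · exact (i₁.sub i₂).congr (ae_of_all _ fun w₀ => (hw w₀).symm)
  · rw [hw]
    have mw : ∀ {g : (ι0 ⊕ Fin K → ℝ) → ℝ}, Measurable g →
        Measurable fun w : Fin r → ι0 ⊕ Fin K → ℝ => g fun a => x (Fin.cons (w₀ a) fun p => w p a) := fun hg =>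
      (measurable_trial_fun hx hg).comp ((measurable_const (a := w₀)).prodMk measurable_id)
    exact recLog_lip hm (mw g₁) (mw g₂) (fun w => b₁ _ fun i => hxb _) (fun w => b₂ _ fun i => hxb _) fun w =>
      logSum_lip fun σ => by simpa using hd _ (fun i => hxb _) σ

/-- For coupling strengths below one the step value is an average of steps of finite trees. -/
theorem stepVal_tree [NeZero N] [NeZero K] {Ψ : (ι0 → ℝ) → (Fin N → Bool) → ℝ} {B : ℝ}
    (hΨ : ∀ σ, Measurable fun y => Ψ y σ)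
    (hB : ∀ y : ι0 → ℝ, (∀ i, y i ∈ Set.Icc (-1 : ℝ) 1) → ∀ σ, |Ψ y σ| ≤ B)
    {β : ℝ} {f : Fin K → Bool → ℝ} (hβ : |β| < 1) (hf : ∀ j b, |f j b| ≤ 1) :
    stepVal r m x Ψ (tbl β f) = ∫ w₀, stepGain G (baseH (M := M) x Ψ (w₀ ∘ Sum.inl)) baseSpins (stepMsg M x)
        (β, fun j => (f j, w₀ (Sum.inr j))) ∂Measure.pi (fun _ : ι0 ⊕ Fin K => unif) ∧
      ∀ w₀ : ι0 ⊕ Fin K → ℝ, |stepGain G (baseH (M := M) x Ψ (w₀ ∘ Sum.inl)) baseSpins (stepMsg M x)
        (β, fun j => (f j, w₀ (Sum.inr j)))| ≤ 2 * K * -log (1 - |β|) := by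
  have hi : Measurable fun y : ι0 ⊕ Fin K → ℝ => y ∘ Sum.inl :=
    measurable_pi_lambda _ fun a => measurable_pi_apply _
  have ho : Measurable fun y : ι0 ⊕ Fin K → ℝ => y ∘ Sum.inr :=
    measurable_pi_lambda _ fun a => measurable_pi_apply _
  have hd : ∀ (P : ℝ), |P| ≤ 1 → |log (1 + β * P)| ≤ -log (1 - |β|) := fun P hP => abs_log_one_add hβ hP
  have hΨi : ∀ σ, Measurable fun y : ι0 ⊕ Fin K → ℝ => Ψ (y ∘ Sum.inl) σ := fun σ => (hΨ σ).comp hi
  have hBi : ∀ y : ι0 ⊕ Fin K → ℝ, (∀ i, y i ∈ Set.Icc (-1 : ℝ) 1) → ∀ σ, |Ψ (y ∘ Sum.inl) σ| ≤ B :=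
    fun y hy σ => hB _ (fun i => hy _) σ
  have hq : ∀ (s : Finset (Fin K)) (y : Fin K → ℝ), (∀ j, y j ∈ Set.Icc (-1 : ℝ) 1) →
      |∏ j ∈ s, qf (f j) (y j)| ≤ 1 := fun s y hy => by
    rw [Finset.abs_prod]
    exact Finset.prod_le_one (fun j _ => abs_nonneg _) fun j _ => qf_abs (hf j) (abs_le.2 (hy j))
  let p : (ι0 ⊕ Fin K → ℝ) → NewPt K := fun w₀ j => (f j, w₀ (Sum.inr j))
  have h1 : ∀ i : Fin K → Fin N, _ := fun i => gT_eq hm hx hxb hs G hG
    (fun y : ι0 ⊕ Fin K → ℝ => Ψ (y ∘ Sum.inl)) (fun _ σ => tbl β f (σ ∘ i))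
    (fun w₀ ζ => baseH (M := M) x Ψ (w₀ ∘ Sum.inl) fun a => (ζ a).1)
    (fun w₀ => clauseP baseSpins i (p w₀)) β hΨi (fun σ => measurable_const) hBi
    (fun y _ σ => hd _ (abs_prod_le_one hf _)) (fun w₀ ξ => rfl) (fun w₀ ξ => rfl)
  have h2 : ∀ jv : Fin K × Fin N, _ := fun jv => gT_eq hm hx hxb hs G hG
    (fun y : ι0 ⊕ Fin K → ℝ => Ψ (y ∘ Sum.inl)) (fun y σ => lmf (tbl β f) (y ∘ Sum.inr) jv.1 (σ jv.2))
    (fun w₀ ζ => baseH (M := M) x Ψ (w₀ ∘ Sum.inl) fun a => (ζ a).1)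
    (fun w₀ => messageP baseSpins (stepMsg M x) jv (p w₀)) β hΨi
    (fun σ => measurable_lmf measurable_const ho _ _) hBi
    (fun y hy σ => by
      rw [lmf, facU_tbl hβ hf]
      refine hd _ ?_
      rw [abs_mul]
      exact mul_le_one₀ (hf _ _) (abs_nonneg _) (hq _ _ fun j => hy _))
    (fun w₀ ξ => rfl) (fun w₀ ξ => by rw [lmf, facU_tbl hβ hf]; rfl)
  have h3 := gT_eq (B := |(N : ℝ) * log 2|) (d := -log (1 - |β|)) hm hx hxb hs G hG
    (fun (_ : ι0 ⊕ Fin K → ℝ) (_ : Fin N → Bool) => -((N : ℝ) * log 2))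
    (fun y _ => lvf (tbl β f) (y ∘ Sum.inr)) (fun _ _ => 0) (fun w₀ => freeP (stepMsg M x) (p w₀)) β
    (fun _ => measurable_const) (fun σ => measurable_lvf measurable_const ho)
    (fun y _ σ => (abs_neg _).le)
    (fun y hy σ => by
      rw [lvf, facV_tbl hβ hf]
      exact hd _ (hq _ _ fun j => hy _))
    (fun w₀ ξ => by ring) (fun w₀ ξ => by rw [lvf, facV_tbl hβ hf]; rfl)
  refine ⟨?_, fun w₀ => ?_⟩
  · simp only [stepVal, stepGain, fun i => (h1 i).1, fun jv => (h2 jv).1, h3.1]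
    rw [← integral_mean fun i => (h1 i).2.1, ← integral_mean fun jv => (h2 jv).2.1, ← integral_const_mul,
      ← integral_const_mul]
    have i1 : Integrable (fun w => mean fun i : Fin K → Fin N =>
        gain G (fun ζ => baseH (M := M) x Ψ (w ∘ Sum.inl) fun a => (ζ a).1) (clauseP baseSpins i (p w)) β)
        (Measure.pi fun _ : ι0 ⊕ Fin K => unif) :=
      (integrable_finsetSum Finset.univ fun i _ => (h1 i).2.1).div_const _
    have i2 : Integrable (fun w => mean fun jv : Fin K × Fin N =>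
        gain G (fun ζ => baseH (M := M) x Ψ (w ∘ Sum.inl) fun a => (ζ a).1)
          (messageP baseSpins (stepMsg M x) jv (p w)) β)
        (Measure.pi fun _ : ι0 ⊕ Fin K => unif) :=
      (integrable_finsetSum Finset.univ fun jv _ => (h2 jv).2.1).div_const _
    rw [← integral_sub i1 (i2.const_mul _), ← integral_add (i1.sub' (i2.const_mul _)) (h3.2.1.const_mul _)]
  · obtain ⟨a, a'⟩ := abs_le.1 (mean_abs fun i => (h1 i).2.2 w₀)
    obtain ⟨b, b'⟩ := abs_le.1 (mean_abs fun jv => (h2 jv).2.2 w₀)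
    obtain ⟨c, c'⟩ := abs_le.1 (h3.2.2 w₀)
    have hK : (1 : ℝ) ≤ K := Nat.one_le_cast.2 (Nat.one_le_iff_ne_zero.2 (NeZero.ne K))
    simp only [stepGain, p] at *
    rw [abs_le]
    constructor <;> nlinarith

end Convert

theorem measurable_stepMsg {x : (Fin (r + 1) → ℝ) → ℝ} (hx : Measurable x) (z : Fin (r + 1) → Fin (M + 1)) :
    Measurable fun ω => stepMsg M x ω z :=
  hx.comp (measurable_pi_lambda _ fun i => by
    induction i using Fin.cases with
    | zero => simp only [Fin.cons_zero]; exact measurable_id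
    | succ j => simp [measurable_const])

theorem measurable_stepGain {Ω : Type*} [MeasurableSpace Ω] (G : Grid (r + 1)) {x : (Fin (r + 1) → ℝ) → ℝ}
    (hx : Measurable x) {Ψ : (ι0 → ℝ) → (Fin N → Bool) → ℝ} (hΨ : ∀ σ, Measurable fun y => Ψ y σ)
    {wb : Ω → ι0 → ℝ} {β : Ω → ℝ} {p : Ω → NewPt K} (hwb : Measurable wb) (hβ : Measurable β)
    (hp : Measurable p) :
    Measurable fun o => stepGain G (baseH (M := M) x Ψ (wb o)) baseSpins (stepMsg M x) (β o, p o) := by
  have hf : ∀ (j : Fin K) s, Measurable fun o => (p o j).1 s := fun j s =>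
    (measurable_pi_apply s).comp (measurable_fst.comp ((measurable_pi_apply j).comp hp))
  have hq : ∀ (j : Fin K) (z : Fin (r + 1) → Fin (M + 1)),
      Measurable fun o => qf (p o j).1 (stepMsg M x (p o j).2 z) := fun j z => by
    have h0 := measurable_qf (y := stepMsg M x) (fun z' => measurable_stepMsg (M := M) hx z') z
    exact h0.comp ((measurable_pi_apply j).comp hp)
  have hH : ∀ u : Fin (r + 1) → BaseLab ι0 M N, Measurable fun o => baseH (M := M) x Ψ (wb o) u := fun u => by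
    have h1 : Measurable fun o a => stepMsg M x (wb o a) fun l => (u l).1 a :=
      measurable_pi_lambda _ fun a => by
        have h0 := measurable_stepMsg (M := M) hx fun l => (u l).1 a
        exact h0.comp ((measurable_pi_apply a).comp hwb)
    have h2 : Measurable fun o => Ψ (fun a => stepMsg M x (wb o a) fun l => (u l).1 a) (baseSpins u) :=
      (hΨ (baseSpins u)).comp h1
    unfold baseH
    exact h2.add_const ((N : ℝ) * log 2)
  have hg : ∀ (H P : Ω → (Fin (r + 1) → BaseLab ι0 M N × (Fin K → Fin (M + 1))) → ℝ),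
      (∀ ξ, Measurable fun o => H o ξ) → (∀ ξ, Measurable fun o => P o ξ) →
      Measurable fun o => gain G (H o) (P o) (β o) := fun H P hH hP => by
    have h' : ∀ ξ, Measurable fun o => H o ξ + log (1 + β o * P o ξ) := fun ξ =>
      (hH ξ).fun_add ((hβ.fun_mul (hP ξ)).const_add 1).log
    exact (measurable_vRec (H := fun o ξ => H o ξ + log (1 + β o * P o ξ)) G h' _ _).fun_sub
      (measurable_vRec (H := H) G hH _ _)
  have m1 : ∀ i : Fin K → Fin N, Measurable fun o => gain G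
      (fun ζ : Fin (r + 1) → BaseLab ι0 M N × (Fin K → Fin (M + 1)) =>
        baseH (M := M) x Ψ (wb o) fun a => (ζ a).1) (clauseP baseSpins i (p o)) (β o) := fun i =>
    hg (fun o ζ => baseH (M := M) x Ψ (wb o) fun a => (ζ a).1) (fun o => clauseP baseSpins i (p o))
      (fun ξ => hH _) fun ξ => Finset.measurable_prod _ fun j _ => hf j _
  have m2 : ∀ jv : Fin K × Fin N, Measurable fun o => gain G
      (fun ζ : Fin (r + 1) → BaseLab ι0 M N × (Fin K → Fin (M + 1)) =>
        baseH (M := M) x Ψ (wb o) fun a => (ζ a).1) (messageP baseSpins (stepMsg M x) jv (p o)) (β o) := fun jv =>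
    hg (fun o ζ => baseH (M := M) x Ψ (wb o) fun a => (ζ a).1)
      (fun o => messageP baseSpins (stepMsg M x) jv (p o)) (fun ξ => hH _)
      fun ξ => (hf _ _).mul (Finset.measurable_prod _ fun j _ => hq j _)
  have m3 : Measurable fun o => gain G
      (fun _ : Fin (r + 1) → BaseLab ι0 M N × (Fin K → Fin (M + 1)) => (0 : ℝ))
      (freeP (stepMsg M x) (p o)) (β o) :=
    hg (fun _ _ => 0) (fun o => freeP (stepMsg M x) (p o)) (fun ξ => measurable_const)
      fun ξ => Finset.measurable_prod _ fun j _ => hq j _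
  unfold stepGain
  exact ((measurable_mean m1).sub ((measurable_mean m2).const_mul _)).add (m3.const_mul _)

theorem measurable_tbl {Ω : Type*} [MeasurableSpace Ω] {β : Ω → ℝ} {f : Ω → Fin K → Bool → ℝ}
    (hβ : Measurable β) (hf : Measurable f) : Measurable fun o => tbl (β o) (f o) :=
  measurable_pi_lambda _ fun _ => ((hβ.mul (Finset.measurable_prod _ fun j _ =>
    (measurable_pi_apply _).comp ((measurable_pi_apply j).comp hf))).const_add 1).log

/-- The distance of two values moves outwards with the coupling. -/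
theorem abs_log_diff_mono {u X Y : ℝ} (hu : u ∈ Set.Icc (0 : ℝ) 1) (hX : |X| < 1) (hY : |Y| < 1) :
    |log (1 + u * X) - log (1 + u * Y)| ≤ |log (1 + X) - log (1 + Y)| := by
  wlog h : Y ≤ X generalizing X Y
  · rw [abs_sub_comm, abs_sub_comm (log (1 + X))]
    exact this hY hX (le_of_not_ge h)
  obtain ⟨x1, x2⟩ := abs_lt.1 hX
  obtain ⟨y1, y2⟩ := abs_lt.1 hY
  have p1 : 0 < 1 + u * Y := by nlinarith [hu.1, hu.2]
  have p2 : 0 < 1 + u * X := by nlinarith [hu.1, hu.2]
  have l1 : log (1 + u * Y) ≤ log (1 + u * X) := log_le_log p1 (by nlinarith [hu.1])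
  rw [abs_of_nonneg (sub_nonneg.2 l1), abs_of_nonneg (sub_nonneg.2 (log_le_log (by linarith) (by linarith))),
    ← log_div p2.ne' p1.ne', ← log_div (by linarith) (by linarith)]
  refine log_le_log (div_pos p2 p1) ?_
  rw [div_le_div_iff₀ p1 (by linarith)]
  nlinarith [mul_nonneg (sub_nonneg.2 hu.2) (sub_nonneg.2 h)]

section Main

variable {x : (Fin (r + 1) → ℝ) → ℝ} {m : Fin r → ℝ}

theorem step_nonpos {M' : Model K} (hM : M'.Admissible) [NeZero N] (hK : Even K) (h1 : 1 ≤ K)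
    (hm : ∀ p, m p ∈ Set.Ioo (0 : ℝ) 1) (hms : StrictMono m) (hx : Measurable x)
    (hxb : ∀ w, x w ∈ Set.Icc (-1 : ℝ) 1) (hs : IsStep M x)
    {Ψ : (ι0 → ℝ) → (Fin N → Bool) → ℝ} {B : ℝ} (hΨ : ∀ σ, Measurable fun y => Ψ y σ)
    (hB : ∀ y : ι0 → ℝ, (∀ i, y i ∈ Set.Icc (-1 : ℝ) 1) → ∀ σ, |Ψ y σ| ≤ B) :
    ∫ c, stepVal r m x Ψ (theta c) ∂M'.clause ≤ 0 := by
  have : NeZero K := ⟨by omega⟩
  have := hM.clause_prob
  obtain ⟨func, hfunc, hind⟩ := hM.indep
  have hm0 : ∀ p, 0 < m p := fun p => (hm p).1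
  have mb : Measurable fun c : Clause K => c.1.2 := measurable_snd.comp measurable_fst
  have mbf : Measurable fun c : Clause K => (c.1.2, c.2) := mb.prodMk measurable_snd
  have : IsProbabilityMeasure (M'.clause.map fun c => c.1.2) := Measure.isProbabilityMeasure_map mb.aemeasurable
  set ν := M'.clause.map fun c : Clause K => c.1.2 with hν
  set piF := Measure.pi fun _ : Fin K => func
  have hq : ∀ᵐ q ∂ν.prod piF, |q.1| < 1 ∧ ∀ j s, |q.2 j s| ≤ 1 := by
    rw [← hind, ae_map_iff mbf.aemeasurable]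
    · exact hM.b_lt.and hM.f_le
    · have e : {q : ℝ × (Fin K → Bool → ℝ) | |q.1| < 1 ∧ ∀ j s, |q.2 j s| ≤ 1} =
          {q | |q.1| < 1} ∩ ⋂ j, ⋂ s, {q | |q.2 j s| ≤ 1} := by ext; simp
      rw [e]
      exact (measurableSet_lt measurable_fst.abs measurable_const).inter
        (MeasurableSet.iInter fun j => MeasurableSet.iInter fun s => measurableSet_le
          ((measurable_pi_apply s).comp ((measurable_pi_apply j).comp measurable_snd)).abs measurable_const)
  have hf : ∀ᵐ g ∂func, ∀ s, |g s| ≤ 1 := by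
    obtain ⟨b, hb⟩ := (Measure.ae_ae_of_ae_prod hq).exists
    have h := hb.mono fun g hg => hg.2 ⟨0, by omega⟩
    have e : {g : Bool → ℝ | ∀ s, |g s| ≤ 1} = ⋂ s, {g | |g s| ≤ 1} := by ext; simp
    have hev := measurePreserving_eval (fun _ : Fin K => func) ⟨0, by omega⟩
    have hset : MeasurableSet {g : Bool → ℝ | ∀ s, |g s| ≤ 1} :=
      e ▸ MeasurableSet.iInter fun s => measurableSet_le (measurable_pi_apply s).abs measurable_const
    rw [← hev.map_eq]
    exact (ae_map_iff hev.measurable.aemeasurable hset).2 h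
  have hν1 : ∀ᵐ b ∂ν, |b| ≤ 1 := by
    have hset : MeasurableSet {b : ℝ | |b| ≤ 1} := measurableSet_le measurable_id.abs measurable_const
    rw [hν, ae_map_iff mb.aemeasurable hset]
    exact hM.b_lt.mono fun c hc => hc.le
  have hpos : ∀ n : ℕ, 1 ≤ n → 0 ≤ ∫ b, (-b) ^ n ∂ν := fun n hn => by
    rw [hν, integral_map mb.aemeasurable (f := fun b : ℝ => (-b) ^ n) (measurable_id.neg.pow_const n).aestronglyMeasurable]
    exact hM.positivity n hn
  have hμf : ∀ᵐ q ∂func.prod unif, ∀ s, |q.1 s| ≤ 1 := Measure.quasiMeasurePreserving_fst.ae hf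
  set G := treeGrid hm hms
  have hG : ∀ p : Fin r, G.m (p + 1) = m p := treeGrid_m hm hms
  have hcont := stepVal_continuous (K := K) hm0 hx hxb hΨ hB
  have hy : ∀ z, Measurable fun ω => stepMsg M x ω z := measurable_stepMsg hx
  have hy1 : ∀ ω z, |stepMsg M x ω z| ≤ 1 := fun ω z => abs_le.2 (hxb _)
  -- below full coupling
  have below : ∀ u : ℝ, 0 ≤ u → u < 1 →
      ∫ c, stepVal r m x Ψ (tbl (u * c.1.2) c.2) ∂M'.clause ≤ 0 := by
    intro u hu0 hu1
    have mval : Measurable fun q : ℝ × (Fin K → Bool → ℝ) => stepVal r m x Ψ (tbl (u * q.1) q.2) :=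
      hcont.measurable.comp (measurable_tbl (measurable_fst.const_mul u) measurable_snd)
    have e0 : ∫ c, stepVal r m x Ψ (tbl (u * c.1.2) c.2) ∂M'.clause =
        ∫ q, stepVal r m x Ψ (tbl (u * q.1) q.2) ∂ν.prod piF := by
      rw [← hind, integral_map mbf.aemeasurable mval.aestronglyMeasurable]
    let F : ℝ × (Fin K → Bool → ℝ) → (ι0 ⊕ Fin K → ℝ) → ℝ := fun q w₀ =>
      stepGain G (baseH (M := M) x Ψ (w₀ ∘ Sum.inl)) baseSpins (stepMsg M x)
        (u * q.1, fun j => (q.2 j, w₀ (Sum.inr j)))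
    set Pw := Measure.pi fun _ : ι0 ⊕ Fin K => unif
    have hu' : ∀ b : ℝ, |b| < 1 → |u * b| ≤ u := fun b hb => by
      rw [abs_mul, abs_of_nonneg hu0]; exact mul_le_of_le_one_right hu0 hb.le
    have hF : ∀ᵐ q ∂ν.prod piF,
        stepVal r m x Ψ (tbl (u * q.1) q.2) = ∫ w₀, F q w₀ ∂Pw ∧ ∀ w₀, |F q w₀| ≤ 2 * K * -log (1 - u) :=
      hq.mono fun q h => by
        have ht := stepVal_tree hm0 hx hxb hs G hG hΨ hB ((hu' _ h.1).trans_lt hu1) h.2
        refine ⟨ht.1, fun w₀ => (ht.2 w₀).trans ?_⟩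
        have := hu' _ h.1
        exact mul_le_mul_of_nonneg_left (neg_le_neg (log_le_log (by linarith) (by linarith))) (by positivity)
    have mF : Measurable fun o : (ℝ × (Fin K → Bool → ℝ)) × (ι0 ⊕ Fin K → ℝ) => F o.1 o.2 :=
      measurable_stepGain G hx hΨ (measurable_pi_lambda _ fun a => (measurable_pi_apply _).comp measurable_snd)
        ((measurable_fst.comp measurable_fst).const_mul u)
        (measurable_pi_lambda _ fun j => ((measurable_pi_apply j).comp (measurable_snd.comp measurable_fst)).prodMk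
          ((measurable_pi_apply _).comp measurable_snd))
    have iF : Integrable (Function.uncurry F) ((ν.prod piF).prod Pw) :=
      Integrable.of_bound mF.aestronglyMeasurable (2 * K * -log (1 - u))
        ((Measure.quasiMeasurePreserving_fst.ae hF).mono fun o ho => ho.2 o.2)
    rw [e0, integral_congr_ae (hF.mono fun q h => h.1), integral_integral_swap iF]
    have hsum := measurePreserving_sumPiEquivProdPi fun _ : ι0 ⊕ Fin K => unif
    set e := MeasurableEquiv.sumPiEquivProdPi fun _ : ι0 ⊕ Fin K => ℝ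
    have he : ∫ w₀, (∫ q, F q w₀ ∂ν.prod piF) ∂Pw =
        ∫ o, (∫ q, F q (e.symm o) ∂ν.prod piF) ∂(Measure.pi fun _ : ι0 => unif).prod
          (Measure.pi fun _ : Fin K => unif) := ((hsum.symm e).integral_comp' fun w₀ => ∫ q, F q w₀ ∂ν.prod piF).symm
    have hi : Integrable (fun o => ∫ q, F q (e.symm o) ∂ν.prod piF)
        ((Measure.pi fun _ : ι0 => unif).prod (Measure.pi fun _ : Fin K => unif)) :=
      ((hsum.symm e).integrable_comp_emb e.symm.measurableEmbedding).2 iF.integral_prod_right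
    rw [he, integral_prod _ hi]
    refine integral_nonpos fun wb => ?_
    set piU := Measure.pi fun _ : Fin K => unif
    let Fb : ℝ × (Fin K → Bool → ℝ) → (Fin K → ℝ) → ℝ := fun q wn => F q (e.symm (wb, wn))
    have iFb : Integrable (Function.uncurry Fb) ((ν.prod piF).prod piU) :=
      Integrable.of_bound (mF.comp (measurable_fst.prodMk (e.symm.measurable.comp
          (measurable_const.prodMk measurable_snd)))).aestronglyMeasurable (2 * K * -log (1 - u))
        ((Measure.quasiMeasurePreserving_fst.ae hF).mono fun o ho => ho.2 _)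
    change ∫ wn, (∫ q, Fb q wn ∂ν.prod piF) ∂piU ≤ 0
    rw [← integral_integral_swap iFb, integral_integral iFb]
    let μ := func.prod unif
    let g : ℝ × NewPt K → ℝ := fun c => stepGain G (baseH (M := M) x Ψ wb) baseSpins (stepMsg M x) (u * c.1, c.2)
    let a := MeasurableEquiv.arrowProdEquivProdArrow (Bool → ℝ) ℝ (Fin K)
    have hmp : MeasurePreserving (((MeasurableEquiv.refl ℝ).prodCongr a.symm) ∘ MeasurableEquiv.prodAssoc)
        ((ν.prod piF).prod piU) (ν.prod (Measure.pi fun _ : Fin K => μ)) :=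
      ((MeasurePreserving.id ν).prod ((measurePreserving_arrowProdEquivProdArrow _ _ _ (fun _ => func)
        fun _ => unif).symm a)).comp ⟨MeasurableEquiv.prodAssoc.measurable, Measure.prodAssoc_prod⟩
    calc ∫ o, Fb o.1 o.2 ∂(ν.prod piF).prod piU
        = ∫ c, g c ∂ν.prod (Measure.pi fun _ : Fin K => μ) := by
          rw [← hmp.integral_comp ((MeasurableEquiv.measurableEmbedding _).comp
            (MeasurableEquiv.measurableEmbedding _)) g]
          rfl
      _ ≤ 0 := stepGain_nonpos hy hy1 derivStmt rootStmt massStmt hK h1 hμf ν hν1 hpos hu0 hu1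
  -- up to full coupling
  set s₀ : Fin K → Bool := fun _ => false
  have habs : ∀ (c : Clause K), |c.1.2| < 1 → (∀ j s, |c.2 j s| ≤ 1) → ∀ s : Fin K → Bool, |c.1.2 * ∏ j, c.2 j (s j)| < 1 :=
    fun c hb hf s => by
      rw [abs_mul]; exact (mul_le_of_le_one_right (abs_nonneg _) (abs_prod_le_one hf s)).trans_lt hb
  have htheta : ∀ᵐ c ∂M'.clause, theta c = fun s => tbl c.1.2 c.2 s + log c.1.1 := by
    filter_upwards [hM.a_pos, hM.b_lt, hM.f_le] with c ha hb hf
    funext s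
    have := (abs_lt.1 (habs c hb hf s)).1
    rw [theta, tbl, log_mul ha.ne' (by linarith), add_comm]
  let dom : Clause K → ℝ := fun c => 2 * K * ∑ s, |theta c s - theta c s₀|
  have hdom : Integrable dom M'.clause :=
    (integrable_finsetSum _ fun s _ => ((hM.theta_int s).sub (hM.theta_int s₀)).abs).const_mul _
  let u : ℕ → ℝ := fun n => 1 - 1 / ((n : ℝ) + 1)
  have hu : ∀ n, u n ∈ Set.Ico (0 : ℝ) 1 := fun n => by
    have h : (0 : ℝ) < 1 / ((n : ℝ) + 1) := by positivity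
    have h' : 1 / ((n : ℝ) + 1) ≤ 1 := (div_le_one (by positivity)).2 (by linarith [Nat.cast_nonneg (α := ℝ) n])
    exact ⟨by simp only [u]; linarith, by simp only [u]; linarith⟩
  have hlim : Filter.Tendsto (fun n => ∫ c, stepVal r m x Ψ (tbl (u n * c.1.2) c.2) ∂M'.clause) Filter.atTop
      (nhds (∫ c, stepVal r m x Ψ (theta c) ∂M'.clause)) := by
    refine tendsto_integral_of_dominated_convergence dom (fun n => ?_) hdom (fun n => ?_) ?_
    · exact (hcont.measurable.comp (measurable_tbl (mb.const_mul _) measurable_snd)).aestronglyMeasurable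
    · filter_upwards [htheta, hM.b_lt, hM.f_le] with c ht hb hf
      rw [Real.norm_eq_abs, ← stepVal_add_const hm0 hx hxb hΨ hB _ (-tbl (u n * c.1.2) c.2 s₀)]
      refine (stepVal_abs hm0 hx hxb hΨ hB _).trans (mul_le_mul_of_nonneg_left
        (Finset.sum_le_sum fun s _ => ?_) (by positivity))
      have h := abs_log_diff_mono ⟨(hu n).1, (hu n).2.le⟩ (habs c hb hf s) (habs c hb hf s₀)
      simp only [ht, tbl, mul_assoc, ← sub_eq_add_neg, add_sub_add_right_eq_sub] at h ⊢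
      exact h
    · filter_upwards [htheta, hM.b_lt, hM.f_le] with c ht hb hf
      rw [ht, stepVal_add_const hm0 hx hxb hΨ hB]
      refine (hcont.tendsto _).comp (tendsto_pi_nhds.2 fun s => ?_)
      have hu1 : Filter.Tendsto u Filter.atTop (nhds 1) := by
        simpa [u] using (tendsto_one_div_add_atTop_nhds_zero_nat (𝕜 := ℝ)).const_sub 1
      have h2 : Filter.Tendsto (fun n => 1 + u n * c.1.2 * ∏ j, c.2 j (s j)) Filter.atTop
          (nhds (1 + c.1.2 * ∏ j, c.2 j (s j))) := by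
        simpa using ((hu1.mul_const c.1.2).mul_const _).const_add 1
      exact h2.log (by linarith [(abs_lt.1 (habs c hb hf s)).1])
  exact le_of_tendsto' hlim fun n => below _ (hu n).1 (hu n).2

end Main

end Vale.Agent.P168
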