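import Vale.Agent.P168.Upper.Mix
import Vale.Agent.P168.Upper.StepReal

/-!
# P168, upper bound: the averaged interpolating functional and its steps
-/

open MeasureTheory Real

namespace Vale.Agent.P168

section Mean

variable {α β : Type*} [Fintype α] [Fintype β]

theorem mean_add (f g : α → ℝ) : (mean fun a => f a + g a) = mean f + mean g := by
  simp [mean, Finset.sum_add_distrib, add_div]

theorem mean_prod (f : α → β → ℝ) : (mean fun o : α × β => f o.1 o.2) = mean fun a => mean (f a) := by
  simp only [mean, Fintype.sum_prod_type, Fintype.card_prod, Nat.cast_mul, ← Finset.sum_div, div_div,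
    mul_comm (Fintype.card β : ℝ)]

theorem mean_comm (f : α → β → ℝ) : (mean fun a => mean (f a)) = mean fun b => mean fun a => f a b := by
  rw [← mean_prod, ← mean_prod, ← mean_comp_equiv (Equiv.prodComm β α)]
  rfl

theorem mean_cons {γ : Type*} [Fintype γ] [DecidableEq γ] {n : ℕ} (F : (Fin (n + 1) → γ) → ℝ) :
    mean F = mean fun a => mean fun v : Fin n → γ => F (Fin.cons a v) := by
  rw [← mean_prod (fun a (v : Fin n → γ) => F (Fin.cons a v)),
    ← mean_comp_equiv (Fin.consEquiv fun _ : Fin (n + 1) => γ) F]
  rfl

end Mean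

section Measures

variable {Ω : Type} [MeasurableSpace Ω] (μ : Measure Ω) [IsProbabilityMeasure μ]

theorem measurePreserving_cons (n : ℕ) :
    MeasurePreserving (fun o : Ω × (Fin n → Ω) => (Fin.cons o.1 o.2 : Fin (n + 1) → Ω))
      (μ.prod (Measure.pi fun _ : Fin n => μ)) (Measure.pi fun _ : Fin (n + 1) => μ) := by
  have h := (measurePreserving_piFinSuccAbove (fun _ : Fin (n + 1) => μ) 0).symm _
  convert h using 2
  funext o
  simp [MeasurableEquiv.piFinSuccAbove]

variable {A B C : Type} [MeasurableSpace A] [MeasurableSpace B] [MeasurableSpace C]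
  (α : Measure A) (β : Measure B) (γ : Measure C) [IsProbabilityMeasure α] [IsProbabilityMeasure β]
  [IsProbabilityMeasure γ]

theorem measurePreserving_assoc_symm :
    MeasurePreserving (fun o : A × B × C => (((o.1, o.2.1), o.2.2) : (A × B) × C))
      (α.prod (β.prod γ)) ((α.prod β).prod γ) :=
  (MeasurePreserving.mk (MeasurableEquiv.prodAssoc (α := A) (β := B) (γ := C)).measurable
    Measure.prodAssoc_prod).symm MeasurableEquiv.prodAssoc

theorem measurePreserving_swap_mid :
    MeasurePreserving (fun o : A × B × C => ((o.2.1, o.1, o.2.2) : B × A × C))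
      (α.prod (β.prod γ)) (β.prod (α.prod γ)) :=
  ((MeasurePreserving.mk (MeasurableEquiv.prodAssoc (α := B) (β := A) (γ := C)).measurable
    Measure.prodAssoc_prod).comp (Measure.measurePreserving_swap.prod (MeasurePreserving.id γ))).comp
    (measurePreserving_assoc_symm α β γ)

theorem integral_ins {D D' : Type} [MeasurableSpace D] [MeasurableSpace D'] {ν : Measure D} [SFinite ν]
    {ν' : Measure D'} {g : Ω × D → D'} (hg : MeasurePreserving g (μ.prod ν) ν') {F : D' → ℝ}
    (hF : Integrable F ν') :
    ∫ d, F d ∂ν' = ∫ d, (∫ c, F (g (c, d)) ∂μ) ∂ν ∧ Integrable (fun d => ∫ c, F (g (c, d)) ∂μ) ν := by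
  have hi : Integrable (fun o => F (g o)) (μ.prod ν) := (hg.integrable_comp hF.aestronglyMeasurable).2 hF
  refine ⟨?_, hi.integral_prod_right⟩
  have h := integral_map hg.measurable.aemeasurable (f := F) (hg.map_eq.symm ▸ hF.aestronglyMeasurable)
  rw [hg.map_eq] at h
  rw [h, integral_prod_symm _ hi]

end Measures

variable {K N r p q : ℕ}

/-- The law of the disorder. -/
noncomputable def mixLaw (M : Model K) (N p q : ℕ) : Measure (Disorder K N p q) :=
  (Measure.pi fun _ : Fin p => M.clause).prod
    ((Measure.pi fun _ : Fin q => M.clause).prod (Measure.pi fun _ : Fin N => M.field))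

/-- The interpolating functional. -/
noncomputable def mixA (M : Model K) (N : ℕ) (m : Fin r → ℝ) (x : (Fin (r + 1) → ℝ) → ℝ) (p q : ℕ) : ℝ :=
  ∫ d, mixAvg m x d ∂mixLaw M N p q

/-- The mean size of a clause. -/
noncomputable def Model.tE (M : Model K) : ℝ := ∫ c, tnorm (theta c) ∂M.clause

/-- The mean size of a field. -/
noncomputable def Model.hE (M : Model K) : ℝ := ∫ h, |h| ∂M.field

/-- The value of one factor of `V`. -/
noncomputable def vOne (M : Model K) (m : Fin r → ℝ) (x : (Fin (r + 1) → ℝ) → ℝ) : ℝ :=
  ∫ c, trialT (Fin K) r m x (lvf (theta c)) ∂M.clause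

section Bounds

variable {M : Model K} (hM : M.Admissible)

include hM

theorem mixLaw_prob : IsProbabilityMeasure (mixLaw M N p q) := by
  have := hM.clause_prob
  have := hM.field_prob
  unfold mixLaw
  infer_instance

theorem integrable_tnorm : Integrable (fun c => tnorm (theta c)) M.clause :=
  integrable_finsetSum _ fun s _ => (hM.theta_int s).abs

theorem integrable_clauses (n : ℕ) :
    Integrable (fun θ : Fin n → Clause K => ∑ k, tnorm (theta (θ k))) (Measure.pi fun _ : Fin n => M.clause) ∧
      ∫ θ : Fin n → Clause K, ∑ k, tnorm (theta (θ k)) ∂Measure.pi (fun _ : Fin n => M.clause) = n * M.tE := by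
  have := hM.clause_prob
  have hi : ∀ k, Integrable (fun θ : Fin n → Clause K => tnorm (theta (θ k)))
      (Measure.pi fun _ : Fin n => M.clause) := fun k =>
    integrable_comp_eval (μ := fun _ : Fin n => M.clause) (f := fun c => tnorm (theta c)) (integrable_tnorm hM)
  refine ⟨integrable_finsetSum _ fun k _ => hi k, ?_⟩
  rw [integral_finsetSum _ fun k _ => hi k]
  simp only [integral_comp_eval (μ := fun _ : Fin n => M.clause) (f := fun c => tnorm (theta c))
    (integrable_tnorm hM).aestronglyMeasurable]
  simp [Model.tE]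

theorem integrable_fields (N : ℕ) :
    Integrable (fun h : Fin N → ℝ => ∑ v, |h v|) (Measure.pi fun _ : Fin N => M.field) ∧
      ∫ h : Fin N → ℝ, ∑ v, |h v| ∂Measure.pi (fun _ : Fin N => M.field) = N * M.hE := by
  have := hM.field_prob
  have hi : ∀ v, Integrable (fun h : Fin N → ℝ => |h v|) (Measure.pi fun _ : Fin N => M.field) := fun v =>
    integrable_comp_eval (μ := fun _ : Fin N => M.field) (f := fun y => |y|) hM.field_int.abs
  refine ⟨integrable_finsetSum _ fun v _ => hi v, ?_⟩
  rw [integral_finsetSum _ fun v _ => hi v]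
  simp only [integral_comp_eval (μ := fun _ : Fin N => M.field) (f := fun y => |y|)
    hM.field_int.abs.aestronglyMeasurable]
  simp [Model.hE]

theorem integrable_mixBd :
    Integrable (fun d => mixBd d + N * log 2) (mixLaw M N p q) ∧
      ∫ d, (mixBd d + N * log 2) ∂mixLaw M N p q = p * M.tE + q * M.tE + N * M.hE + N * log 2 := by
  have := hM.clause_prob
  have := hM.field_prob
  obtain ⟨i1, e1⟩ := integrable_clauses hM p
  obtain ⟨i2, e2⟩ := integrable_clauses hM q
  obtain ⟨i3, e3⟩ := integrable_fields hM N
  let P := Measure.pi fun _ : Fin p => M.clause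
  let Q := Measure.pi fun _ : Fin q => M.clause
  let H := Measure.pi fun _ : Fin N => M.field
  have j1 : Integrable (fun d : Disorder K N p q => ∑ k, tnorm (theta (d.1 k))) (P.prod (Q.prod H)) :=
    i1.comp_fst _
  have j2 : Integrable (fun d : Disorder K N p q => ∑ k, tnorm (theta (d.2.1 k))) (P.prod (Q.prod H)) :=
    (i2.comp_fst H).comp_snd P
  have j3 : Integrable (fun d : Disorder K N p q => ∑ v, |d.2.2 v|) (P.prod (Q.prod H)) :=
    (i3.comp_snd Q).comp_snd P
  have f1 : ∫ d : Disorder K N p q, ∑ k, tnorm (theta (d.1 k)) ∂P.prod (Q.prod H) = p * M.tE := by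
    rw [integral_fun_fst (fun θ : Fin p → Clause K => ∑ k, tnorm (theta (θ k))), probReal_univ, one_smul, e1]
  have f2 : ∫ d : Disorder K N p q, ∑ k, tnorm (theta (d.2.1 k)) ∂P.prod (Q.prod H) = q * M.tE := by
    rw [integral_fun_snd (fun z : (Fin q → Clause K) × (Fin N → ℝ) => ∑ k, tnorm (theta (z.1 k))),
      probReal_univ, one_smul, integral_fun_fst (fun θ : Fin q → Clause K => ∑ k, tnorm (theta (θ k))),
      probReal_univ, one_smul, e2]
  have f3 : ∫ d : Disorder K N p q, ∑ v, |d.2.2 v| ∂P.prod (Q.prod H) = N * M.hE := by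
    rw [integral_fun_snd (fun z : (Fin q → Clause K) × (Fin N → ℝ) => ∑ v, |z.2 v|), probReal_univ, one_smul,
      integral_fun_snd (fun h : Fin N → ℝ => ∑ v, |h v|), probReal_univ, one_smul, e3]
  refine ⟨((j1.fun_add j2).fun_add j3).fun_add (integrable_const _), ?_⟩
  change ∫ d : Disorder K N p q, (∑ k, tnorm (theta (d.1 k)) + ∑ k, tnorm (theta (d.2.1 k)) +
    ∑ v, |d.2.2 v| + N * log 2) ∂P.prod (Q.prod H) = _
  rw [integral_add ((j1.fun_add j2).fun_add j3) (integrable_const _), integral_add (j1.fun_add j2) j3,
    integral_add j1 j2, f1, f2, f3]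
  simp

variable {m : Fin r → ℝ} {x : (Fin (r + 1) → ℝ) → ℝ}
variable (hm : ∀ l, 0 < m l) (hx : Measurable x) (hxb : ∀ w, x w ∈ Set.Icc (-1 : ℝ) 1)

include hm hx hxb

theorem integrable_mixAvg [NeZero N] [NeZero K] : Integrable (fun d => mixAvg m x d) (mixLaw M N p q) :=
  (integrable_mixBd hM).1.mono' (measurable_mixAvg hx).aestronglyMeasurable
    (ae_of_all _ fun d => mixAvg_abs hm hx hxb d)

theorem mixA_abs [NeZero N] [NeZero K] :
    |mixA M N m x p q| ≤ p * M.tE + q * M.tE + N * M.hE + N * log 2 := by
  rw [← (integrable_mixBd (p := p) (q := q) (N := N) hM).2]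
  exact abs_integral_le_integral_abs.trans (integral_mono (integrable_mixAvg hM hm hx hxb).abs
    (integrable_mixBd hM).1 fun d => mixAvg_abs hm hx hxb d)

theorem integrable_vOne :
    Integrable (fun c => trialT (Fin K) r m x (lvf (theta c))) M.clause :=
  (integrable_tnorm hM).mono'
    (measurable_trialT m hx (g := fun c y => lvf (theta c) y)
      (measurable_lvf (T := fun o : Clause K × (Fin K → ℝ) => theta o.1) (A := fun o => o.2)
        (measurable_theta.comp measurable_fst) measurable_snd)).aestronglyMeasurable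
    (ae_of_all _ fun c => trialT_abs_le hm hx hxb
      (measurable_lvf (T := fun _ => theta c) (A := fun y => y) measurable_const measurable_id)
      fun y hy => lvf_abs hy)

omit hm in
/-- Replace one clause by `K` fewer message factors and `K - 1` factors of `V`. -/
theorem mixA_step {L : ℕ} [NeZero N] (hK : Even K) (h1 : 1 ≤ K) (hm' : ∀ l, m l ∈ Set.Ioo (0 : ℝ) 1)
    (hms : StrictMono m) (hs : IsStep L x) (p q : ℕ) :
    mixA M N m x (p + 1) q - mixA M N m x p q - K * (mixA M N m x p (q + 1) - mixA M N m x p q)
      + ((K : ℝ) - 1) * vOne M m x ≤ 0 := by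
  have : NeZero K := ⟨by omega⟩
  have := hM.clause_prob
  have := hM.field_prob
  have hm : ∀ l, 0 < m l := fun l => (hm' l).1
  let P := fun n => Measure.pi fun _ : Fin n => M.clause
  let H := Measure.pi fun _ : Fin N => M.field
  let g1 : Clause K × Disorder K N p q → Disorder K N (p + 1) q := fun o => (Fin.cons o.1 o.2.1, o.2.2)
  let g2 : Clause K × Disorder K N p q → Disorder K N p (q + 1) := fun o =>
    (o.2.1, Fin.cons o.1 o.2.2.1, o.2.2.2)
  have hg1 : MeasurePreserving g1 (M.clause.prod (mixLaw M N p q)) (mixLaw M N (p + 1) q) :=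
    ((measurePreserving_cons M.clause p).prod (MeasurePreserving.id ((P q).prod H))).comp
      (measurePreserving_assoc_symm M.clause (P p) ((P q).prod H))
  have hg2 : MeasurePreserving g2 (M.clause.prod (mixLaw M N p q)) (mixLaw M N p (q + 1)) :=
    ((MeasurePreserving.id (P p)).prod (((measurePreserving_cons M.clause q).prod (MeasurePreserving.id H)).comp
      (measurePreserving_assoc_symm M.clause (P q) H))).comp
      (measurePreserving_swap_mid M.clause (P p) ((P q).prod H))
  have := mixLaw_prob (N := N) (p := p) (q := q) hM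
  obtain ⟨e1, j1⟩ := integral_ins M.clause hg1 (integrable_mixAvg (p := p + 1) (q := q) hM hm hx hxb)
  obtain ⟨e2, j2⟩ := integral_ins M.clause hg2 (integrable_mixAvg (p := p) (q := q + 1) hM hm hx hxb)
  have j0 := integrable_mixAvg (N := N) (p := p) (q := q) hM hm hx hxb
  have key : ∀ d : Disorder K N p q, (∫ c, mixAvg m x (g1 (c, d)) ∂M.clause) - mixAvg m x d
      - K * ((∫ c, mixAvg m x (g2 (c, d)) ∂M.clause) - mixAvg m x d) + ((K : ℝ) - 1) * vOne M m x ≤ 0 := by
    intro d
    have hbd : ∀ (c : Clause K), mixBd (g1 (c, d)) = tnorm (theta c) + mixBd d ∧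
        mixBd (g2 (c, d)) = tnorm (theta c) + mixBd d := fun c => by
      constructor <;> simp only [mixBd, g1, g2, Fin.sum_univ_succ, Fin.cons_zero, Fin.cons_succ] <;> ring
    have dom : Integrable (fun c => tnorm (theta c) + (mixBd d + N * log 2)) M.clause :=
      (integrable_tnorm hM).fun_add (integrable_const _)
    have c1 : Integrable (fun c => mixAvg m x (g1 (c, d))) M.clause :=
      dom.mono' ((measurable_mixAvg hx).comp
        (hg1.measurable.comp (measurable_id.prodMk measurable_const))).aestronglyMeasurable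
        (ae_of_all _ fun c => (mixAvg_abs hm hx hxb _).trans_eq (by rw [(hbd c).1]; ring))
    have c2 : Integrable (fun c => mixAvg m x (g2 (c, d))) M.clause :=
      dom.mono' ((measurable_mixAvg hx).comp
        (hg2.measurable.comp (measurable_id.prodMk measurable_const))).aestronglyMeasurable
        (ae_of_all _ fun c => (mixAvg_abs hm hx hxb _).trans_eq (by rw [(hbd c).2]; ring))
    have hcd : ∀ c, (mean fun i : Fin p → Fin K → Fin N => mean fun ls : Fin q → Fin K × Fin N =>
        stepVal r m x (mixPsi d i ls) (theta c)) =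
        mixAvg m x (g1 (c, d)) - mixAvg m x d - K * (mixAvg m x (g2 (c, d)) - mixAvg m x d)
          + ((K : ℝ) - 1) * trialT (Fin K) r m x (lvf (theta c)) := fun c => by
      simp only [stepVal_mix hm hx, mean_add, ← mean_sub, mean_mul_left, mean_const]
      have a1 : mixAvg m x (g1 (c, d)) = mean fun i : Fin p → Fin K → Fin N => mean fun ls : Fin q → Fin K × Fin N =>
          mean fun i₀ => mixVal m x (Fin.cons c d.1, d.2) (Fin.cons i₀ i) ls := by
        rw [mixAvg, mean_cons, mean_comm]
        exact congrArg mean (funext fun i => mean_comm _)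
      have a2 : mixAvg m x (g2 (c, d)) = mean fun i : Fin p → Fin K → Fin N => mean fun ls : Fin q → Fin K × Fin N =>
          mean fun jv => mixVal m x (d.1, Fin.cons c d.2.1, d.2.2) i (Fin.cons jv ls) := by
        rw [mixAvg]
        refine congrArg mean (funext fun i => ?_)
        rw [mean_cons, mean_comm]
      rw [a1, a2]
      rfl
    have si : ∀ (i : Fin p → Fin K → Fin N) (ls : Fin q → Fin K × Fin N),
        Integrable (fun c => stepVal r m x (mixPsi d i ls) (theta c)) M.clause := fun i ls =>
      ((integrable_tnorm hM).const_mul (2 * K)).mono'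
        ((stepVal_continuous hm hx hxb (fun σ => measurable_mixPsi' d i ls σ)
          (B := mixBd d) fun y hy σ => mixPsi_abs d i ls hy σ).measurable.comp measurable_theta).aestronglyMeasurable
        (ae_of_all _ fun c => stepVal_abs hm hx hxb (fun σ => measurable_mixPsi' d i ls σ)
          (B := mixBd d) (fun y hy σ => mixPsi_abs d i ls hy σ) _)
    have sle : ∫ c, (mean fun i : Fin p → Fin K → Fin N => mean fun ls : Fin q → Fin K × Fin N =>
        stepVal r m x (mixPsi d i ls) (theta c)) ∂M.clause ≤ 0 := by
      have si' : ∀ i : Fin p → Fin K → Fin N, Integrable (fun c => mean fun ls : Fin q → Fin K × Fin N =>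
          stepVal r m x (mixPsi d i ls) (theta c)) M.clause := fun i =>
        (integrable_finsetSum _ fun ls _ => si i ls).div_const _
      rw [integral_mean si']
      refine (mean_mono fun i => ?_).trans_eq (mean_const 0)
      rw [integral_mean (si i)]
      exact (mean_mono fun ls => step_nonpos hM hK h1 hm' hms hx hxb hs (fun σ => measurable_mixPsi' d i ls σ)
        (B := mixBd d) fun y hy σ => mixPsi_abs d i ls hy σ).trans_eq (mean_const 0)
    simp only [hcd] at sle
    rw [integral_add ((c1.sub' (integrable_const _)).sub' ((c2.sub' (integrable_const _)).const_mul _))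
        ((integrable_vOne hM hm hx hxb).const_mul _),
      integral_sub (c1.sub' (integrable_const _)) ((c2.sub' (integrable_const _)).const_mul _),
      integral_const_mul, integral_const_mul, integral_sub c1 (integrable_const _),
      integral_sub c2 (integrable_const _), integral_const, probReal_univ, one_smul] at sle
    exact sle
  calc _ = ∫ d, ((∫ c, mixAvg m x (g1 (c, d)) ∂M.clause) - mixAvg m x d
      - K * ((∫ c, mixAvg m x (g2 (c, d)) ∂M.clause) - mixAvg m x d) + ((K : ℝ) - 1) * vOne M m x)
        ∂mixLaw M N p q := by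
        rw [integral_add ((j1.sub' j0).sub' ((j2.sub' j0).const_mul _)) (integrable_const _),
          integral_sub (j1.sub' j0) ((j2.sub' j0).const_mul _), integral_const_mul, integral_sub j1 j0,
          integral_sub j2 j0, integral_const, probReal_univ, one_smul, ← e1, ← e2]
        rfl
    _ ≤ 0 := integral_nonpos key

end Bounds

end Vale.Agent.P168
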