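import Vale.Agent.P168.Upper.Ends
import Vale.Agent.P168.Upper.Approx
import Vale.Agent.P168.Bounds

/-!
# P168: every trial value is an upper bound
-/

open MeasureTheory Filter
open scoped Topology

namespace Vale.Agent.P168

open Real

variable {K r : ℕ} {M : Model K} {m : Fin r → ℝ} {x : (Fin (r + 1) → ℝ) → ℝ}

theorem continuous_msgW (b : Bool) : Continuous fun y : ℝ => msgW y b := by
  unfold msgW; fun_prop

theorem continuous_facU (t : (Fin K → Bool) → ℝ) (ℓ : Fin K) (e : Bool) :
    Continuous fun a : Fin K → ℝ => facU t a ℓ e := by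
  refine continuous_finsetSum _ fun s _ => ?_
  split_ifs
  · exact (continuous_finsetProd _ fun j _ => (continuous_msgW (s j)).comp (continuous_apply j)).const_mul _
  · exact continuous_const

theorem continuousAt_logU {n : ℕ} (θ : Fin n → Clause K) (ℓ : Fin n → Fin K) (h : ℝ)
    {a : Fin n × Fin K → ℝ} (ha : ∀ i, a i ∈ Set.Icc (-1 : ℝ) 1) : ContinuousAt (logU θ ℓ h) a := by
  change ContinuousAt (fun y : Fin n × Fin K → ℝ => log (∑ e : Bool, exp (h * spin e) *
    ∏ k, facU (theta (θ k)) (fun j => y (k, j)) (ℓ k) e)) a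
  refine ContinuousAt.log (Continuous.continuousAt ?_) (Finset.sum_pos (fun e _ => mul_pos (exp_pos _)
    (Finset.prod_pos fun k _ => facU_pos _ _ fun j => ha _)) Finset.univ_nonempty).ne'
  exact continuous_finsetSum _ fun e _ => (continuous_finsetProd _ fun k _ =>
    (continuous_facU (theta (θ k)) (ℓ k) e).comp (continuous_pi fun j => continuous_apply (k, j))).const_mul _

theorem continuousAt_lvf (t : (Fin K → Bool) → ℝ) {a : Fin K → ℝ} (ha : ∀ i, a i ∈ Set.Icc (-1 : ℝ) 1) :
    ContinuousAt (lvf t) a := by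
  change ContinuousAt (fun y : Fin K → ℝ => log (facV t y)) a
  refine ContinuousAt.log (Continuous.continuousAt ?_) (facV_pos ha).ne'
  exact continuous_finsetSum _ fun s _ =>
    (continuous_finsetProd _ fun j _ => (continuous_msgW (s j)).comp (continuous_apply j)).const_mul _

/-- The trial value as a series for `T U` and the value of one factor of `V`. -/
theorem trialValue_split (hM : M.Admissible) (hm : ∀ l, 0 < m l) (hx : Measurable x)
    (hxb : ∀ w, x w ∈ Set.Icc (-1 : ℝ) 1) (lam : ℝ) :
    trialValue M lam r m x =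
      (∑' n, pois ((K : ℝ) * lam) n * uAvg M m x n) - ((K : ℝ) - 1) * lam * vOne M m x := by
  rw [trialValue]
  congr 1
  simp only [trialT_logV hM hm hx hxb, ← mul_assoc]
  rw [tsum_mul_right, (hasSum_pois_mul _).tsum_eq]

section Limit

variable {xs : ℕ → (Fin (r + 1) → ℝ) → ℝ}
variable (hM : M.Admissible) (hm : ∀ l, 0 < m l) (hx : Measurable x) (hxs : ∀ k, Measurable (xs k))
  (hxb : ∀ w, x w ∈ Set.Icc (-1 : ℝ) 1) (hxsb : ∀ k w, xs k w ∈ Set.Icc (-1 : ℝ) 1)
  (hlim : ∀ᵐ w ∂Measure.pi (fun _ : Fin (r + 1) => unif), Tendsto (fun k => xs k w) atTop (𝓝 (x w)))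

include hM hm hx hxs hxb hxsb hlim

theorem tendsto_uAvg (n : ℕ) : Tendsto (fun k => uAvg M m (xs k) n) atTop (𝓝 (uAvg M m x n)) := by
  have := hM.clause_prob
  have := hM.field_prob
  rw [uAvg_eq hM hm hx hxb, funext fun k => uAvg_eq hM hm (hxs k) (hxsb k) n]
  refine Tendsto.div_const (tendsto_finsetSum _ fun ℓ _ => ?_) _
  set P := (Measure.pi fun _ : Fin n => M.clause).prod M.field
  have hp : ∀ (y : (Fin (r + 1) → ℝ) → ℝ), Measurable y → (∀ w, y w ∈ Set.Icc (-1 : ℝ) 1) →
      uPt M m y n ℓ = ∫ z, trialT (Fin n × Fin K) r m y (logU z.1 ℓ z.2) ∂P := fun y hy hyb =>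
    (integral_prod _ (integrable_uPt hM hm hy hyb ℓ)).symm
  rw [hp x hx hxb, funext fun k => hp (xs k) (hxs k) (hxsb k)]
  refine tendsto_integral_of_dominated_convergence
    (fun z => ∑ k, tnorm (theta (z.1 k)) + |z.2| + log 2)
    (fun k => (integrable_uPt hM hm (hxs k) (hxsb k) ℓ).aestronglyMeasurable)
    ((((integrable_clauses hM n).1.comp_fst M.field).fun_add
      (hM.field_int.abs.comp_snd (Measure.pi fun _ : Fin n => M.clause))).fun_add (integrable_const (log 2)))
    (fun k => ae_of_all _ fun z => trialU_abs hm (hxs k) (hxsb k) (fun i => theta (z.1 i)) ℓ z.2)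
    (ae_of_all _ fun z => ?_)
  exact tendsto_trialT hm hx hxs hxb hxsb hlim (g := logU z.1 ℓ z.2)
    (measurable_rawU (fun i => theta (z.1 i)) ℓ z.2)
    (fun a ha => rawU_abs (fun i => theta (z.1 i)) ℓ a z.2 ha) fun a ha => continuousAt_logU z.1 ℓ z.2 ha

theorem tendsto_vOne : Tendsto (fun k => vOne M m (xs k)) atTop (𝓝 (vOne M m x)) := by
  refine tendsto_integral_of_dominated_convergence (fun c => tnorm (theta c))
    (fun k => (integrable_vOne hM hm (hxs k) (hxsb k)).aestronglyMeasurable) (integrable_tnorm hM)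
    (fun k => ae_of_all _ fun c => ?_) (ae_of_all _ fun c => ?_)
  · exact trialT_abs_le hm (hxs k) (hxsb k)
      (measurable_lvf (T := fun _ => theta c) (A := fun y => y) measurable_const measurable_id)
      fun y hy => lvf_abs hy
  · exact tendsto_trialT hm hx hxs hxb hxsb hlim
      (measurable_lvf (T := fun _ => theta c) (A := fun y => y) measurable_const measurable_id)
      (fun y hy => lvf_abs hy) fun y hy => continuousAt_lvf (theta c) hy

theorem tendsto_trialValue [NeZero K] {lam : ℝ} (hlam : 0 ≤ lam) :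
    Tendsto (fun k => trialValue M lam r m (xs k)) atTop (𝓝 (trialValue M lam r m x)) := by
  rw [trialValue_split hM hm hx hxb, funext fun k => trialValue_split hM hm (hxs k) (hxsb k) lam]
  refine Tendsto.sub ?_ ((tendsto_vOne hM hm hx hxs hxb hxsb hlim).const_mul _)
  have hc : 0 ≤ (K : ℝ) * lam := mul_nonneg (Nat.cast_nonneg _) hlam
  refine tendsto_tsum_of_dominated_convergence
    (bound := fun n => pois ((K : ℝ) * lam) n * ((M.tE + M.hE + log 2) * ((n : ℝ) + 1))) ?_
    (fun n => (tendsto_uAvg hM hm hx hxs hxb hxsb hlim n).const_mul _) (Eventually.of_forall fun k n => ?_)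
  · refine summable_pois_mul hc (α := |M.tE + M.hE + log 2|) (β := |M.tE + M.hE + log 2|) fun n => ?_
    rw [abs_mul, abs_of_nonneg (by positivity : (0 : ℝ) ≤ (n : ℝ) + 1)]
    exact le_of_eq (by ring)
  · rw [Real.norm_eq_abs, abs_mul, abs_of_nonneg (pois_nonneg hc n)]
    exact mul_le_mul_of_nonneg_left (uAvg_abs hM hm (hxs k) (hxsb k) n) (pois_nonneg hc n)

end Limit

/-- Every trial value bounds the pressure of every size from above. -/
theorem upperStmt : UpperStmt := by
  rintro K hK h2 lam hlam M hM v ⟨r, m, x, hm, hms, hx, hxb, rfl⟩ ε hε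
  have : NeZero K := ⟨by omega⟩
  obtain ⟨L, xs, hxs, hxsb, hstep, hlim⟩ := exists_step_approx hx hxb
  filter_upwards [eventually_ge_atTop 1] with N hN
  have : NeZero N := ⟨by omega⟩
  exact (ge_of_tendsto' (tendsto_trialValue hM (fun l => (hm l).1) hx hxs hxb hxsb hlim hlam.le) fun k =>
    pressure_le_of_step hM (hxs k) (hxsb k) hK h2 hlam.le hm hms (hstep k)).trans (le_add_of_nonneg_right hε.le)

end Vale.Agent.P168
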