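import Vale.Agent.P168.Upper.StepVal
import Vale.Agent.P168.Upper.Blocks
import Vale.Agent.P168.Lower.Continuity

/-!
# P168, upper bound: the interpolating functional at fixed numbers of the two kinds of terms
-/

open MeasureTheory Real

namespace Vale.Agent.P168

variable {K N r p q : ℕ}

theorem trialT_congr {ι : Type} [Fintype ι] {m : Fin r → ℝ} {x : (Fin (r + 1) → ℝ) → ℝ}
    (hxb : ∀ w, x w ∈ Set.Icc (-1 : ℝ) 1) {g g' : (ι → ℝ) → ℝ}
    (h : ∀ a : ι → ℝ, (∀ i, a i ∈ Set.Icc (-1 : ℝ) 1) → g a = g' a) :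
    trialT ι r m x g = trialT ι r m x g' := by
  unfold trialT
  congr 1
  funext w₀
  exact congrArg _ (funext fun w => h _ fun i => hxb _)

theorem measurable_trialT {P ι : Type} [Fintype ι] [MeasurableSpace P] (m : Fin r → ℝ)
    {x : (Fin (r + 1) → ℝ) → ℝ} (hx : Measurable x) {g : P → (ι → ℝ) → ℝ}
    (hg : Measurable fun o : P × (ι → ℝ) => g o.1 o.2) :
    Measurable fun d => trialT ι r m x (g d) := by
  have h : Measurable fun o : (P × (ι → ℝ)) × (Fin r → ι → ℝ) =>
      g o.1.1 fun a => x (Fin.cons (o.1.2 a) fun l => o.2 l a) :=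
    hg.comp ((measurable_fst.comp measurable_fst).prodMk (measurable_pi_lambda _ fun a =>
      hx.comp (measurable_pi_lambda _ fun i => by
        induction i using Fin.cases with
        | zero => simp only [Fin.cons_zero]; exact (measurable_pi_apply a).comp (measurable_snd.comp measurable_fst)
        | succ j =>
          simp only [Fin.cons_succ]
          exact (measurable_pi_apply a).comp ((measurable_pi_apply j).comp measurable_snd))))
  exact (measurable_recLog r m (fun (o : P × (ι → ℝ)) (w : Fin r → ι → ℝ) =>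
    g o.1 fun a => x (Fin.cons (o.2 a) fun l => w l a)) h).stronglyMeasurable.integral_prod_right'.measurable

/-- The clauses and fields of the interpolating system. -/
abbrev Disorder (K N p q : ℕ) : Type :=
  (Fin p → Clause K) × (Fin q → Clause K) × (Fin N → ℝ)

/-- The potential of the interpolating system. -/
noncomputable def mixPsi (d : Disorder K N p q) (i : Fin p → Fin K → Fin N)
    (ls : Fin q → Fin K × Fin N) (y : Fin q × Fin K → ℝ) (σ : Fin N → Bool) : ℝ :=
  ∑ k, theta (d.1 k) (σ ∘ i k) + ∑ k, lmf (theta (d.2.1 k)) (fun j => y (k, j)) (ls k).1 (σ (ls k).2)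
    + ∑ v, d.2.2 v * spin (σ v)

/-- The functional of the interpolating system at given positions. -/
noncomputable def mixVal (m : Fin r → ℝ) (x : (Fin (r + 1) → ℝ) → ℝ) (d : Disorder K N p q)
    (i : Fin p → Fin K → Fin N) (ls : Fin q → Fin K × Fin N) : ℝ :=
  trialT (Fin q × Fin K) r m x fun y => logSum (mixPsi d i ls y)

/-- The average over the positions. -/
noncomputable def mixAvg (m : Fin r → ℝ) (x : (Fin (r + 1) → ℝ) → ℝ) (d : Disorder K N p q) : ℝ :=
  mean fun i : Fin p → Fin K → Fin N => mean fun ls : Fin q → Fin K × Fin N => mixVal m x d i ls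

/-- The size of the disorder. -/
noncomputable def mixBd (d : Disorder K N p q) : ℝ :=
  ∑ k, tnorm (theta (d.1 k)) + ∑ k, tnorm (theta (d.2.1 k)) + ∑ v, |d.2.2 v|

theorem measurable_mixPsi (i : Fin p → Fin K → Fin N) (ls : Fin q → Fin K × Fin N) (σ : Fin N → Bool) :
    Measurable fun o : Disorder K N p q × (Fin q × Fin K → ℝ) => mixPsi o.1 i ls o.2 σ := by
  have h1 : ∀ k, Measurable fun o : Disorder K N p q × (Fin q × Fin K → ℝ) =>
      theta (o.1.1 k) (σ ∘ i k) := fun k =>
    (measurable_pi_apply (σ ∘ i k)).comp (measurable_theta.comp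
      ((measurable_pi_apply k).comp (measurable_fst.comp measurable_fst)))
  have hT : ∀ k, Measurable fun o : Disorder K N p q × (Fin q × Fin K → ℝ) => theta (o.1.2.1 k) := fun k =>
    measurable_theta.comp ((measurable_pi_apply k).comp (measurable_fst.comp (measurable_snd.comp measurable_fst)))
  have hA : ∀ k, Measurable fun (o : Disorder K N p q × (Fin q × Fin K → ℝ)) (j : Fin K) => o.2 (k, j) := fun k =>
    measurable_pi_lambda _ fun j => (measurable_pi_apply (k, j)).comp measurable_snd
  have h2 : ∀ k, Measurable fun o : Disorder K N p q × (Fin q × Fin K → ℝ) =>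
      lmf (theta (o.1.2.1 k)) (fun j => o.2 (k, j)) (ls k).1 (σ (ls k).2) := fun k =>
    measurable_lmf (hT k) (hA k) _ _
  have h3 : ∀ v, Measurable fun o : Disorder K N p q × (Fin q × Fin K → ℝ) => o.1.2.2 v * spin (σ v) := fun v => by
    fun_prop
  unfold mixPsi
  exact ((Finset.measurable_sum _ fun k _ => h1 k).add (Finset.measurable_sum _ fun k _ => h2 k)).add
    (Finset.measurable_sum _ fun v _ => h3 v)

theorem mixPsi_abs (d : Disorder K N p q) (i : Fin p → Fin K → Fin N) (ls : Fin q → Fin K × Fin N)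
    {y : Fin q × Fin K → ℝ} (hy : ∀ a, y a ∈ Set.Icc (-1 : ℝ) 1) (σ : Fin N → Bool) :
    |mixPsi d i ls y σ| ≤ mixBd d := by
  refine (abs_add_le _ _).trans (add_le_add ((abs_add_le _ _).trans (add_le_add
    ((Finset.abs_sum_le_sum_abs _ _).trans (Finset.sum_le_sum fun k _ => abs_le_tnorm _ _))
    ((Finset.abs_sum_le_sum_abs _ _).trans (Finset.sum_le_sum fun k _ => lmf_abs _ _ fun j => hy _)))) ?_)
  exact (Finset.abs_sum_le_sum_abs _ _).trans (Finset.sum_le_sum fun v _ => by rw [abs_mul, spin_abs, mul_one])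

theorem measurable_mixPsi' (d : Disorder K N p q) (i : Fin p → Fin K → Fin N) (ls : Fin q → Fin K × Fin N)
    (σ : Fin N → Bool) : Measurable fun y : Fin q × Fin K → ℝ => mixPsi d i ls y σ := by
  have h := measurable_mixPsi (p := p) (q := q) i ls σ
  exact Measurable.of_uncurry_left (f := fun (d : Disorder K N p q) y => mixPsi d i ls y σ) (x := d) h

theorem measurable_logMix (d : Disorder K N p q) (i : Fin p → Fin K → Fin N) (ls : Fin q → Fin K × Fin N) :
    Measurable fun y => logSum (mixPsi d i ls y) :=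
  measurable_logSum (Φ := fun y => mixPsi d i ls y) (measurable_mixPsi' d i ls)

section Trial

variable {m : Fin r → ℝ} {x : (Fin (r + 1) → ℝ) → ℝ}
variable (hm : ∀ l, 0 < m l) (hx : Measurable x) (hxb : ∀ w, x w ∈ Set.Icc (-1 : ℝ) 1)

include hm hx hxb

theorem mixVal_abs (d : Disorder K N p q) (i : Fin p → Fin K → Fin N) (ls : Fin q → Fin K × Fin N) :
    |mixVal m x d i ls| ≤ mixBd d + N * log 2 :=
  trialT_abs_le hm hx hxb (B := mixBd d + N * log 2) (measurable_logMix d i ls)
    fun _ hy => logSum_abs (fun σ => mixPsi_abs d i ls hy σ)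

omit hm hxb in
theorem measurable_mixVal (i : Fin p → Fin K → Fin N) (ls : Fin q → Fin K × Fin N) :
    Measurable fun d => mixVal m x d i ls :=
  measurable_trialT m hx (g := fun d y => logSum (mixPsi d i ls y))
    (measurable_logSum fun σ => measurable_mixPsi i ls σ)

theorem mixAvg_abs [NeZero N] [NeZero K] (d : Disorder K N p q) : |mixAvg m x d| ≤ mixBd d + N * log 2 :=
  mean_abs fun i => mean_abs fun ls => mixVal_abs hm hx hxb d i ls

omit hm hxb in
theorem measurable_mixAvg : Measurable fun d : Disorder K N p q => mixAvg m x d :=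
  measurable_mean fun i => measurable_mean fun ls => measurable_mixVal hx i ls

omit hxb in
/-- The step value of the system is made of neighbouring systems. -/
theorem stepVal_mix [NeZero N] [NeZero K] (d : Disorder K N p q) (i : Fin p → Fin K → Fin N)
    (ls : Fin q → Fin K × Fin N) (c : Clause K) :
    stepVal r m x (mixPsi d i ls) (theta c) =
      mean (fun i₀ => mixVal m x (Fin.cons c d.1, d.2) (Fin.cons i₀ i) ls) - mixVal m x d i ls
      - K * (mean (fun jv => mixVal m x (d.1, Fin.cons c d.2.1, d.2.2) i (Fin.cons jv ls)) - mixVal m x d i ls)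
      + ((K : ℝ) - 1) * trialT (Fin K) r m x (lvf (theta c)) := by
  let eL : Fin q × Fin K ↪ (Fin q × Fin K) ⊕ Fin K := ⟨Sum.inl, Sum.inl_injective⟩
  let eR : Fin K ↪ (Fin q × Fin K) ⊕ Fin K := ⟨Sum.inr, Sum.inr_injective⟩
  have hinj : Function.Injective
      (Sum.elim (fun a : Fin q × Fin K => (a.1.succ, a.2)) fun j => ((0 : Fin (q + 1)), j)) := by
    rintro (⟨k, j⟩ | j) (⟨k', j'⟩ | j') h <;> simp_all [Fin.succ_ne_zero, Ne.symm (Fin.succ_ne_zero _)]
  let eN : (Fin q × Fin K) ⊕ Fin K ↪ Fin (q + 1) × Fin K := ⟨_, hinj⟩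
  have hbase : trialT ((Fin q × Fin K) ⊕ Fin K) r m x (fun y => logSum (mixPsi d i ls (y ∘ Sum.inl))) =
      mixVal m x d i ls := trialT_restrict eL m hx (measurable_logMix d i ls)
  have hX : ∀ i₀ : Fin K → Fin N, trialT ((Fin q × Fin K) ⊕ Fin K) r m x
      (fun y => logSum fun σ => mixPsi d i ls (y ∘ Sum.inl) σ + theta c (σ ∘ i₀)) =
      mixVal m x (Fin.cons c d.1, d.2) (Fin.cons i₀ i) ls := fun i₀ => by
    rw [mixVal, ← trialT_restrict eL m hx (measurable_logMix _ _ _)]
    congr 1
    funext y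
    refine congrArg logSum (funext fun σ => ?_)
    simp only [mixPsi, Fin.sum_univ_succ, Fin.cons_zero, Fin.cons_succ, eL, Function.Embedding.coeFn_mk]
    ring
  have hY : ∀ jv : Fin K × Fin N, trialT ((Fin q × Fin K) ⊕ Fin K) r m x
      (fun y => logSum fun σ => mixPsi d i ls (y ∘ Sum.inl) σ + lmf (theta c) (y ∘ Sum.inr) jv.1 (σ jv.2)) =
      mixVal m x (d.1, Fin.cons c d.2.1, d.2.2) i (Fin.cons jv ls) := fun jv => by
    have hl : Measurable fun y : (Fin q × Fin K) ⊕ Fin K → ℝ => y ∘ Sum.inl :=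
      measurable_pi_lambda _ fun a => measurable_pi_apply _
    have hr : Measurable fun y : (Fin q × Fin K) ⊕ Fin K → ℝ => y ∘ Sum.inr :=
      measurable_pi_lambda _ fun a => measurable_pi_apply _
    have hσ : ∀ σ : Fin N → Bool, Measurable fun y : (Fin q × Fin K) ⊕ Fin K → ℝ =>
        mixPsi d i ls (y ∘ Sum.inl) σ + lmf (theta c) (y ∘ Sum.inr) jv.1 (σ jv.2) := fun σ =>
      ((measurable_mixPsi' d i ls σ).comp hl).fun_add
        (measurable_lmf (T := fun _ => theta c) (A := fun y => y ∘ Sum.inr) measurable_const hr _ _)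
    have hg := measurable_logSum (Φ := fun (y : (Fin q × Fin K) ⊕ Fin K → ℝ) (σ : Fin N → Bool) =>
        mixPsi d i ls (y ∘ Sum.inl) σ + lmf (theta c) (y ∘ Sum.inr) jv.1 (σ jv.2)) hσ
    rw [mixVal, ← trialT_restrict eN m hx hg]
    congr 1
    funext y
    refine congrArg logSum (funext fun σ => ?_)
    simp only [mixPsi, Fin.sum_univ_succ, Fin.cons_zero, Fin.cons_succ, eN, Function.Embedding.coeFn_mk,
      Function.comp_apply, Sum.elim_inl]
    simp only [Function.comp_def, Sum.elim_inr]
    ring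
  have hV : trialT ((Fin q × Fin K) ⊕ Fin K) r m x (fun y => logSum fun _ : Fin N → Bool =>
      -((N : ℝ) * log 2) + lvf (theta c) (y ∘ Sum.inr)) = trialT (Fin K) r m x (lvf (theta c)) := by
    have hg : Measurable (lvf (K := K) (theta c)) :=
      measurable_lvf (T := fun _ => theta c) (A := fun y => y) measurable_const measurable_id
    rw [← trialT_restrict eR m hx hg]
    congr 1
    funext y
    have h := logSum_add_const (fun _ : Fin N → Bool => (0 : ℝ)) (-((N : ℝ) * log 2) + lvf (theta c) (y ∘ Sum.inr))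
    simp only [zero_add, logSum_zero] at h
    rw [h]
    simp [eR]
  have h0 : trialT ((Fin q × Fin K) ⊕ Fin K) r m x
      (fun _ => logSum fun _ : Fin N → Bool => -((N : ℝ) * log 2)) = 0 := by
    have h := logSum_add_const (fun _ : Fin N → Bool => (0 : ℝ)) (-((N : ℝ) * log 2))
    simp only [zero_add, logSum_zero, add_neg_cancel] at h
    rw [h]
    exact trialT_const (ι := (Fin q × Fin K) ⊕ Fin K) m hm x 0
  have hms : ∀ {α : Type} [Fintype α] [Nonempty α] (f : α → ℝ) (c : ℝ),
      (mean fun a => f a - c) = mean f - c := fun f c => by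
    simpa [sub_eq_add_neg] using mean_add_const f (-c)
  simp only [stepVal, gT, hbase, hX, hY, hV, h0, hms, sub_zero]

end Trial

end Vale.Agent.P168
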