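import Vale.Agent.P168.Upper.Factor

/-!
# P168, upper bound: one step of the interpolation

Adding one clause, `K` times fewer one message factor, plus `K - 1` times one factor of `V`,
decreases the root value on average.
-/

open Real Finset MeasureTheory

namespace Vale.Agent.P168

variable {L K N : ℕ} {A C : Type} [Fintype A] [DecidableEq A] [Nonempty A] [Fintype C] [DecidableEq C]
  [Nonempty C]

/-- The mean of a spin function under a message. -/
noncomputable def qf (f : Bool → ℝ) (y : ℝ) : ℝ := ∑ s, msgW y s * f s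

theorem qf_abs {f : Bool → ℝ} {y : ℝ} (hf : ∀ s, |f s| ≤ 1) (hy : |y| ≤ 1) : |qf f y| ≤ 1 := by
  obtain ⟨a, b⟩ := abs_le.1 hy
  obtain ⟨c, d⟩ := abs_le.1 (hf true)
  obtain ⟨c', d'⟩ := abs_le.1 (hf false)
  rw [qf, Fintype.sum_bool, abs_le]
  simp only [msgW, spin, if_true, Bool.false_eq_true, if_false]
  constructor <;> nlinarith

/-- The disorder of a new factor: `(f_j, ω_j)` for every position. -/
abbrev NewPt (K : ℕ) : Type := Fin K → (Bool → ℝ) × ℝ

/-- A clause on given sites. -/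
def clauseP (sp : (Fin L → A) → Fin N → Bool) (i : Fin K → Fin N) (p : NewPt K)
    (ξ : Fin L → A × (Fin K → C)) : ℝ :=
  ∏ j, (p j).1 (sp (fun a => (ξ a).1) (i j))

/-- A message factor on a given site. -/
noncomputable def messageP (sp : (Fin L → A) → Fin N → Bool) (y : ℝ → (Fin L → C) → ℝ)
    (jv : Fin K × Fin N) (p : NewPt K) (ξ : Fin L → A × (Fin K → C)) : ℝ :=
  (p jv.1).1 (sp (fun a => (ξ a).1) jv.2) *
    ∏ j ∈ Finset.univ.erase jv.1, qf (p j).1 (y (p j).2 fun a => (ξ a).2 j)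

/-- A factor of `V`. -/
noncomputable def freeP (y : ℝ → (Fin L → C) → ℝ) (p : NewPt K) (ξ : Fin L → A × (Fin K → C)) : ℝ :=
  ∏ j, qf (p j).1 (y (p j).2 fun a => (ξ a).2 j)

/-- The change of the root value under a new factor. -/
noncomputable def gain (G : Grid L) {Z : Type} [Fintype Z] [Nonempty Z] (H P : (Fin L → Z) → ℝ)
    (β : ℝ) : ℝ :=
  vAt G (fun ξ => H ξ + log (1 + β * P ξ)) 0 (fun _ => Classical.arbitrary Z) -
    vAt G H 0 fun _ => Classical.arbitrary Z

/-- The increment of one step. -/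
noncomputable def stepGain (G : Grid L) (H : (Fin L → A) → ℝ) (sp : (Fin L → A) → Fin N → Bool)
    (y : ℝ → (Fin L → C) → ℝ) (c : ℝ × NewPt K) : ℝ :=
  mean (fun i : Fin K → Fin N =>
      gain G (fun ζ : Fin L → A × (Fin K → C) => H fun a => (ζ a).1) (clauseP sp i c.2) c.1)
    - K * mean (fun jv : Fin K × Fin N =>
      gain G (fun ζ : Fin L → A × (Fin K → C) => H fun a => (ζ a).1) (messageP sp y jv c.2) c.1)
    + ((K : ℝ) - 1) * gain G (fun _ : Fin L → A × (Fin K → C) => (0 : ℝ)) (freeP y c.2) c.1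

theorem coefW_sum {α : Type*} (G : Grid L) (s : Finset α) (Φ : α → ∀ k, Shape L k → ℝ) :
    ∀ (d n : ℕ) (S : Shape L n),
      coefW G d n S (fun k T => ∑ a ∈ s, Φ a k T) = ∑ a ∈ s, coefW G d n S (Φ a)
  | 0, _, _ => rfl
  | d + 1, n, S => by
    simp only [coefW, coefW_sum G s Φ d, mul_sum]
    rw [sum_comm (s := s)]
    exact sum_congr rfl fun i _ => sum_comm

theorem coefW_smul (G : Grid L) (c : ℝ) (Φ : ∀ k, Shape L k → ℝ) (d n : ℕ) (S : Shape L n) :
    coefW G d n S (fun k T => c * Φ k T) = c * coefW G d n S Φ := by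
  simpa using coefW_lin G Φ Φ c 0 d n S

theorem coefW_mean {α : Type*} [Fintype α] (G : Grid L) (Φ : α → ∀ k, Shape L k → ℝ) (d n : ℕ)
    (S : Shape L n) :
    coefW G d n S (fun k T => mean fun a => Φ a k T) = mean fun a => coefW G d n S (Φ a) := by
  simp only [mean, div_eq_inv_mul]
  rw [coefW_smul, coefW_sum]

theorem coefW_congr (G : Grid L) {Φ Ψ : ∀ k, Shape L k → ℝ} :
    ∀ (d n : ℕ) (S : Shape L n), (∀ k, k = n + d → ∀ T, Φ k T = Ψ k T) →
      coefW G d n S Φ = coefW G d n S Ψ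
  | 0, n, S, h => h n rfl S
  | d + 1, n, S, h => by
    simp only [coefW, fun i t => coefW_congr G d (n + 1) (S.ext i (t : Fin L) t.2)
      fun k hk => h k (by omega)]

theorem gain_series (hd : DerivStmt) (hr : RootStmt) (hmass : MassStmt) (G : Grid L) {Z : Type}
    [Fintype Z] [DecidableEq Z] [Nonempty Z] (H P : (Fin L → Z) → ℝ) {β : ℝ} (hβ : |β| < 1)
    (hP : ∀ ξ, |P ξ| ≤ 1) :
    HasSum (fun d => (-1) ^ d * β ^ (d + 1) / (d + 1).factorial *
        coefW G d 1 (Shape.one L) (fun _ S => S.E G H fun ξ => ∏ l, P (ξ l)))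
      (gain G H P β) := by
  have h := root_series hd hr hmass G H (fun ξ => β * P ξ) hβ
    (fun ξ => by rw [abs_mul]; exact mul_le_of_le_one_right (abs_nonneg β) (hP ξ))
    fun _ => Classical.arbitrary Z
  refine h.congr_fun fun d => ?_
  have e : coefW G d 1 (Shape.one L) (fun _ S => S.E G H fun ξ => ∏ l, β * P (ξ l)) =
      β ^ (d + 1) * coefW G d 1 (Shape.one L) fun _ S => S.E G H fun ξ => ∏ l, P (ξ l) := by
    rw [← coefW_smul]
    refine coefW_congr G d 1 _ fun k hk T => ?_
    simp only [prod_mul_distrib, prod_const, card_univ, Fintype.card_fin, E_mul_left]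
    rw [show β ^ k = β ^ (d + 1) by rw [hk, Nat.add_comm]]
  rw [e]
  ring

/-- The bracket `A^K - K A Q^(K-1) + (K-1) Q^K` before averaging. -/
noncomputable def bracket (G : Grid L) (H : (Fin L → A) → ℝ) (sp : (Fin L → A) → Fin N → Bool)
    (y : ℝ → (Fin L → C) → ℝ) (p : NewPt K) (k : ℕ) (S : Shape L k) : ℝ :=
  mean (fun i : Fin K → Fin N =>
      S.E G (fun ζ : Fin L → A × (Fin K → C) => H fun a => (ζ a).1) fun ξ => ∏ l, clauseP sp i p (ξ l))
    - K * mean (fun jv : Fin K × Fin N =>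
      S.E G (fun ζ : Fin L → A × (Fin K → C) => H fun a => (ζ a).1) fun ξ => ∏ l, messageP sp y jv p (ξ l))
    + ((K : ℝ) - 1) * S.E G (fun _ : Fin L → A × (Fin K → C) => (0 : ℝ)) fun ξ => ∏ l, freeP y p (ξ l)

theorem mean_mono {α : Type*} [Fintype α] {f g : α → ℝ} (h : ∀ a, f a ≤ g a) : mean f ≤ mean g :=
  div_le_div_of_nonneg_right (sum_le_sum fun a _ => h a) (Nat.cast_nonneg _)

theorem mean_abs {α : Type*} [Fintype α] [Nonempty α] {f : α → ℝ} {B : ℝ} (h : ∀ a, |f a| ≤ B) :
    |mean f| ≤ B :=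
  abs_le.2 ⟨(mean_const (α := α) (-B)).symm.trans_le (mean_mono fun a => (abs_le.1 (h a)).1),
    (mean_mono fun a => (abs_le.1 (h a)).2).trans_eq (mean_const B)⟩

theorem hasSum_mean {α : Type*} [Fintype α] {f : α → ℕ → ℝ} {a : α → ℝ} (h : ∀ i, HasSum (f i) (a i)) :
    HasSum (fun d => mean fun i => f i d) (mean a) :=
  (hasSum_sum fun i _ => h i).div_const _

theorem mean_mul_left {α : Type*} [Fintype α] (c : ℝ) (f : α → ℝ) :
    (mean fun a => c * f a) = c * mean f := by
  simp [mean, ← mul_sum, mul_div_assoc]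

theorem integral_mean {α Ω : Type*} [Fintype α] [MeasurableSpace Ω] {μ : Measure Ω} {f : α → Ω → ℝ}
    (h : ∀ a, Integrable (f a) μ) : ∫ w, mean (fun a => f a w) ∂μ = mean fun a => ∫ w, f a w ∂μ := by
  simp only [mean, integral_div, integral_finsetSum _ fun a _ => h a]

theorem measurable_mean {α Ω : Type*} [Fintype α] [MeasurableSpace Ω] {f : α → Ω → ℝ}
    (h : ∀ a, Measurable (f a)) : Measurable fun w => mean fun a => f a w :=
  (Finset.measurable_sum _ fun a _ => h a).div_const _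

theorem measurable_E {k : ℕ} {Z Ω : Type} [Fintype Z] [DecidableEq Z] [MeasurableSpace Ω]
    (S : Shape L k) (G : Grid L) (H : (Fin L → Z) → ℝ) {φ : (Fin k → Fin L → Z) → Ω → ℝ}
    (h : ∀ ξ, Measurable (φ ξ)) : Measurable fun w => S.E G H fun ξ => φ ξ w :=
  (Finset.measurable_sum _ fun ξ _ => (h ξ).const_mul _).div_const _

theorem integral_E {k : ℕ} {Z Ω : Type} [Fintype Z] [DecidableEq Z] [MeasurableSpace Ω] {μ : Measure Ω}
    (S : Shape L k) (G : Grid L) (H : (Fin L → Z) → ℝ) {φ : (Fin k → Fin L → Z) → Ω → ℝ}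
    (h : ∀ ξ, Integrable (φ ξ) μ) :
    ∫ w, S.E G H (fun ξ => φ ξ w) ∂μ = S.E G H fun ξ => ∫ w, φ ξ w ∂μ := by
  simp only [Shape.E, integral_div, integral_finsetSum _ fun ξ _ => (h ξ).const_mul _, integral_const_mul]

theorem integrable_coefW {Ω : Type} [MeasurableSpace Ω] {μ : Measure Ω} (G : Grid L)
    {Φ : Ω → ∀ k, Shape L k → ℝ} (h : ∀ k, 0 < k → ∀ T, Integrable (fun w => Φ w k T) μ) :
    ∀ (d n : ℕ) (S : Shape L n), 0 < n → Integrable (fun w => coefW G d n S (Φ w)) μ
  | 0, n, S, hn => h n hn S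
  | d + 1, n, S, _ => integrable_finsetSum _ fun i _ => integrable_finsetSum _ fun t _ =>
      (integrable_coefW G h d (n + 1) _ n.succ_pos).const_mul _

theorem integral_coefW {Ω : Type} [MeasurableSpace Ω] {μ : Measure Ω} (G : Grid L)
    {Φ : Ω → ∀ k, Shape L k → ℝ} (h : ∀ k, 0 < k → ∀ T, Integrable (fun w => Φ w k T) μ) :
    ∀ (d n : ℕ) (S : Shape L n), 0 < n →
      ∫ w, coefW G d n S (Φ w) ∂μ = coefW G d n S fun k T => ∫ w, Φ w k T ∂μ
  | 0, _, _, _ => rfl
  | d + 1, n, S, _ => by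
    have hi : ∀ (i : Fin n) (t : Fin L),
        Integrable (fun w => S.attW G i t * coefW G d (n + 1) (S.ext i t t.2) (Φ w)) μ :=
      fun i t => (integrable_coefW G h d (n + 1) _ n.succ_pos).const_mul _
    simp only [coefW]
    rw [integral_finsetSum _ fun i _ => integrable_finsetSum _ fun t _ => hi i t]
    refine sum_congr rfl fun i _ => ?_
    rw [integral_finsetSum _ fun t _ => hi i t]
    simp only [integral_const_mul, fun t => integral_coefW G h d (n + 1) (S.ext i (t : Fin L) t.2) n.succ_pos]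

section Bracket

variable (μ : Measure ((Bool → ℝ) × ℝ)) [IsProbabilityMeasure μ] (G : Grid L) (H : (Fin L → A) → ℝ)
  (sp : (Fin L → A) → Fin N → Bool) (y : ℝ → (Fin L → C) → ℝ)

theorem new_ae (hf : ∀ᵐ q ∂μ, ∀ s, |q.1 s| ≤ 1) :
    ∀ᵐ p ∂Measure.pi (fun _ : Fin K => μ), ∀ j s, |(p j).1 s| ≤ 1 :=
  ae_all_iff.2 fun j => (measurePreserving_eval (fun _ : Fin K => μ) j).quasiMeasurePreserving.ae hf

variable {μ} {G} {H} {sp} {y}
variable (hy : ∀ z, Measurable fun w => y w z) (hy1 : ∀ w z, |y w z| ≤ 1)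

include hy in
theorem measurable_qf (z : Fin L → C) : Measurable fun q : (Bool → ℝ) × ℝ => qf q.1 (y q.2 z) := by
  have h : ∀ s : Bool, Measurable fun q : (Bool → ℝ) × ℝ => q.1 s := fun s =>
    (measurable_pi_apply s).comp measurable_fst
  exact Finset.measurable_sum _ fun s _ =>
    ((((hy z).comp measurable_snd).mul_const (spin s)).const_add 1 |>.div_const 2).mul (h s)

include hy hy1 in
theorem bracket_bound (hmass : MassStmt) [NeZero N] [NeZero K] (k : ℕ) (S : Shape L k) (p : NewPt K)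
    (hp : ∀ j s, |(p j).1 s| ≤ 1) : |bracket G H sp y p k S| ≤ 2 * K := by
  have hq : ∀ j z, |qf (p j).1 (y (p j).2 z)| ≤ 1 := fun j z => qf_abs (hp j) (hy1 _ _)
  have hprod : ∀ {ι : Type} (s : Finset ι) (g : ι → ℝ), (∀ j, |g j| ≤ 1) → |∏ j ∈ s, g j| ≤ 1 :=
    fun s g h => by rw [abs_prod]; exact prod_le_one (fun j _ => abs_nonneg _) fun j _ => h j
  have h1 : ∀ i, |S.E G (fun ζ : Fin L → A × (Fin K → C) => H fun a => (ζ a).1)
      fun ξ => ∏ l, clauseP sp i p (ξ l)| ≤ 1 :=
    fun i => E_abs hmass S G _ fun ξ => hprod _ _ fun l => hprod _ _ fun j => hp _ _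
  have h2 : ∀ jv, |S.E G (fun ζ : Fin L → A × (Fin K → C) => H fun a => (ζ a).1)
      fun ξ => ∏ l, messageP sp y jv p (ξ l)| ≤ 1 :=
    fun jv => E_abs hmass S G _ fun ξ => hprod _ _ fun l => by
      rw [messageP, abs_mul]
      exact mul_le_one₀ (hp _ _) (abs_nonneg _) (hprod _ _ fun j => hq j _)
  have h3 : |S.E G (fun _ : Fin L → A × (Fin K → C) => (0 : ℝ)) fun ξ => ∏ l, freeP y p (ξ l)| ≤ 1 :=
    E_abs hmass S G _ fun ξ => hprod _ _ fun l => hprod _ _ fun j => hq j _
  have hK : (1 : ℝ) ≤ K := Nat.one_le_cast.2 (Nat.one_le_iff_ne_zero.2 (NeZero.ne K))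
  obtain ⟨a, a'⟩ := abs_le.1 (mean_abs h1)
  obtain ⟨b, b'⟩ := abs_le.1 (mean_abs h2)
  obtain ⟨c, c'⟩ := abs_le.1 h3
  rw [bracket, abs_le]
  constructor <;> nlinarith

include hy in
theorem bracket_measurable (k : ℕ) (S : Shape L k) :
    Measurable fun p : NewPt K => bracket G H sp y p k S := by
  have hq : ∀ (j : Fin K) z, Measurable fun p : NewPt K => qf (p j).1 (y (p j).2 z) := fun j z =>
    (measurable_qf hy z).comp (measurable_pi_apply j)
  have hf : ∀ (j : Fin K) s, Measurable fun p : NewPt K => (p j).1 s := fun j s =>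
    (measurable_pi_apply s).comp (measurable_fst.comp (measurable_pi_apply j))
  refine ((measurable_mean fun i => measurable_E S G _ fun ξ => Finset.measurable_prod _ fun l _ =>
    Finset.measurable_prod _ fun j _ => hf j _).sub ((measurable_mean fun jv => measurable_E S G _ fun ξ =>
    Finset.measurable_prod _ fun l _ => (hf _ _).mul (Finset.measurable_prod _ fun j _ => hq j _)).const_mul _)).add
    ((measurable_E S G _ fun ξ => Finset.measurable_prod _ fun l _ =>
      Finset.measurable_prod _ fun j _ => hq j _).const_mul _)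

include hy hy1 in
theorem bracket_integrable (hmass : MassStmt) [NeZero N] [NeZero K] (hf : ∀ᵐ q ∂μ, ∀ s, |q.1 s| ≤ 1)
    (k : ℕ) (S : Shape L k) :
    Integrable (fun p => bracket G H sp y p k S) (Measure.pi fun _ : Fin K => μ) :=
  Integrable.of_bound (bracket_measurable hy k S).aestronglyMeasurable (2 * K)
    ((new_ae μ hf).mono fun p hp => bracket_bound hy hy1 hmass k S p hp)

include hy hy1 in
theorem bracket_integral (hmass : MassStmt) [NeZero N] (hK : Even K) (h1 : 1 ≤ K)
    (hf : ∀ᵐ q ∂μ, ∀ s, |q.1 s| ≤ 1) (k : ℕ) (S : Shape L k) :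
    0 ≤ ∫ p, bracket G H sp y p k S ∂Measure.pi fun _ : Fin K => μ := by
  have : NeZero K := ⟨by omega⟩
  let a : (Fin k → Fin L → A) → (Bool → ℝ) × ℝ → ℝ := fun u q => mean fun v => ∏ l, q.1 (sp (u l) v)
  let c : (Bool → ℝ) × ℝ → ℝ := fun q =>
    cmean S fun b : Fin k → Fin L → C => ∏ l, qf q.1 (y q.2 (b l))
  have ha1 : ∀ u q, (∀ s, |q.1 s| ≤ 1) → |a u q| ≤ 1 := fun u q hq => mean_abs fun v => by
    rw [abs_prod]; exact prod_le_one (fun l _ => abs_nonneg _) fun l _ => hq _
  have hc1 : ∀ q, (∀ s, |q.1 s| ≤ 1) → |c q| ≤ 1 := fun q hq => cmean_abs S fun v => by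
    rw [abs_prod]; exact prod_le_one (fun l _ => abs_nonneg _) fun l _ => qf_abs hq (hy1 _ _)
  have ham : ∀ u, Measurable (a u) := fun u => measurable_mean fun v =>
    Finset.measurable_prod _ fun l _ => (measurable_pi_apply _).comp measurable_fst
  have hcm : Measurable c :=
    (Finset.measurable_sum _ fun v _ => Finset.measurable_prod _ fun l _ => measurable_qf hy _).div_const _
  -- the three parts
  have e1 : ∀ p, (mean fun i : Fin K → Fin N =>
      S.E G (fun ζ : Fin L → A × (Fin K → C) => H fun a => (ζ a).1) fun ξ => ∏ l, clauseP sp i p (ξ l)) =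
      S.E G H fun u => ∏ j, a u (p j) := fun p => by
    have e : ∀ i : Fin K → Fin N,
        (S.E G (fun ζ : Fin L → A × (Fin K → C) => H fun a => (ζ a).1) fun ξ => ∏ l, clauseP sp i p (ξ l)) =
        S.E G H fun u => ∏ j, ∏ l, (p j).1 (sp (u l) (i j)) := fun i => by
      have h := E_fst_snd (B := Fin K → C) S G H (fun u => ∏ j, ∏ l, (p j).1 (sp (u l) (i j))) fun _ => 1
      rw [cmean_one, mul_one] at h
      rw [← h]
      refine congrArg _ (funext fun ξ => ?_)
      simp only [clauseP, mul_one]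
      exact prod_comm
    simp only [e, mean, ← E_sum, a]
    rw [div_eq_inv_mul, ← E_mul_left]
    refine congrArg _ (funext fun u => ?_)
    rw [← div_eq_inv_mul]
    exact mean_pi_prod fun j v => ∏ l, (p j).1 (sp (u l) v)
  have e2 : ∀ p, (mean fun jv : Fin K × Fin N =>
      S.E G (fun ζ : Fin L → A × (Fin K → C) => H fun a => (ζ a).1) fun ξ => ∏ l, messageP sp y jv p (ξ l)) =
      mean fun j₀ => S.E G H (fun u => a u (p j₀)) * ∏ j ∈ Finset.univ.erase j₀, c (p j) := fun p => by
    have e : ∀ jv : Fin K × Fin N,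
        (S.E G (fun ζ : Fin L → A × (Fin K → C) => H fun a => (ζ a).1) fun ξ => ∏ l, messageP sp y jv p (ξ l)) =
        S.E G H (fun u => ∏ l, (p jv.1).1 (sp (u l) jv.2)) * ∏ j ∈ Finset.univ.erase jv.1, c (p j) := by
      intro jv
      have h := E_fst_snd S G H (fun u => ∏ l, (p jv.1).1 (sp (u l) jv.2)) fun v : Fin k → Fin L → Fin K → C =>
        ∏ j, if j = jv.1 then 1 else ∏ l, qf (p j).1 (y (p j).2 fun b => v l b j)
      rw [cmean_pi S fun j v => if j = jv.1 then 1 else ∏ l, qf (p j).1 (y (p j).2 (v l))] at h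
      have h2 : ∏ j, cmean S (fun v => if j = jv.1 then 1 else ∏ l, qf (p j).1 (y (p j).2 (v l))) =
          ∏ j ∈ Finset.univ.erase jv.1, c (p j) := by
        rw [← mul_prod_erase _ _ (Finset.mem_univ jv.1)]
        simp only [if_true, cmean_one, one_mul]
        exact prod_congr rfl fun j hj => by simp [Finset.ne_of_mem_erase hj, c]
      rw [← h2, ← h]
      refine congrArg _ (funext fun ξ => ?_)
      simp only [messageP, prod_mul_distrib]
      rw [← mul_prod_erase _ (fun j => if j = jv.1 then 1 else _) (Finset.mem_univ jv.1), prod_comm]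
      simp only [if_true, one_mul]
      exact congrArg _ (prod_congr rfl fun j hj => by simp [Finset.ne_of_mem_erase hj])
    simp only [e, mean, Fintype.sum_prod_type, ← sum_mul, ← E_sum, Fintype.card_prod, Nat.cast_mul, a]
    rw [mul_comm (Fintype.card (Fin K) : ℝ), ← div_div, sum_div]
    congr 1
    refine sum_congr rfl fun j₀ _ => ?_
    rw [mul_div_right_comm]
    congr 1
    rw [div_eq_inv_mul, ← E_mul_left]
    exact congrArg _ (funext fun u => (div_eq_inv_mul _ _).symm)
  have e3 : ∀ p, (S.E G (fun _ : Fin L → A × (Fin K → C) => (0 : ℝ)) fun ξ => ∏ l, freeP y p (ξ l)) =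
      ∏ j, c (p j) := fun p => by
    have h := E_fst_snd S G (fun _ : Fin L → A => (0 : ℝ)) (fun _ => 1) fun v : Fin k → Fin L → Fin K → C =>
      ∏ j, ∏ l, qf (p j).1 (y (p j).2 fun b => v l b j)
    rw [(hmass L k A G _ S).1, one_mul, cmean_pi S fun j v => ∏ l, qf (p j).1 (y (p j).2 (v l))] at h
    rw [← h]
    refine congrArg _ (funext fun ξ => ?_)
    simp only [freeP, one_mul]
    exact prod_comm
  have hi : ∀ (g : Fin K → (Bool → ℝ) × ℝ → ℝ), (∀ j, Measurable (g j)) →
      (∀ j q, (∀ s, |q.1 s| ≤ 1) → |g j q| ≤ 1) →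
      Integrable (fun p => ∏ j, g j (p j)) (Measure.pi fun _ : Fin K => μ) := fun g hg hb =>
    Integrable.of_bound (Finset.measurable_prod _ fun j _ => (hg j).comp (measurable_pi_apply j)).aestronglyMeasurable
      1 ((new_ae μ hf).mono fun p hp => by
        rw [Real.norm_eq_abs, abs_prod]
        exact prod_le_one (fun j _ => abs_nonneg _) fun j _ => hb j _ (hp j))
  let am : (Fin k → Fin L → A) → ℝ := fun u => ∫ q, a u q ∂μ
  let cm : ℝ := ∫ q, c q ∂μ
  have i1 : Integrable (fun p => S.E G H fun u => ∏ j, a u (p j)) (Measure.pi fun _ : Fin K => μ) :=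
    (integrable_finsetSum _ fun u _ => (hi (fun _ => a u) (fun _ => ham u) (fun _ => ha1 u)).const_mul _).div_const _
  have i3 : Integrable (fun p => ∏ j, c (p j)) (Measure.pi fun _ : Fin K => μ) :=
    hi (fun _ => c) (fun _ => hcm) fun _ => hc1
  have e2' : ∀ (j₀ : Fin K) (p : NewPt K), S.E G H (fun u => a u (p j₀)) * ∏ j ∈ Finset.univ.erase j₀, c (p j) =
      S.E G H fun u => ∏ j, if j = j₀ then a u (p j) else c (p j) := fun j₀ p => by
    rw [mul_comm, ← E_mul_left]
    refine congrArg _ (funext fun u => ?_)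
    rw [← mul_prod_erase _ (fun j => if j = j₀ then _ else _) (Finset.mem_univ j₀), if_pos rfl, mul_comm]
    exact congrArg _ (prod_congr rfl fun j hj => by simp [Finset.ne_of_mem_erase hj])
  have i2' : ∀ j₀ u, Integrable (fun p : NewPt K => ∏ j, if j = j₀ then a u (p j) else c (p j))
      (Measure.pi fun _ : Fin K => μ) := fun j₀ u => by
    have := hi (fun j => if j = j₀ then a u else c) (fun j => by split_ifs; exacts [ham u, hcm])
      (fun j => by split_ifs; exacts [ha1 u, hc1])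
    simpa only [ite_apply] using this
  have i2 : Integrable (fun p => mean fun j₀ => S.E G H fun u => ∏ j, if j = j₀ then a u (p j) else c (p j))
      (Measure.pi fun _ : Fin K => μ) :=
    (integrable_finsetSum _ fun j₀ _ =>
      (integrable_finsetSum _ fun u _ => (i2' j₀ u).const_mul _).div_const _).div_const _
  have i2j : ∀ j₀, Integrable (fun p : NewPt K => S.E G H fun u => ∏ j, if j = j₀ then a u (p j) else c (p j))
      (Measure.pi fun _ : Fin K => μ) := fun j₀ =>
    (integrable_finsetSum _ fun u _ => (i2' j₀ u).const_mul _).div_const _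
  have v1 : ∫ p, (S.E G H fun u => ∏ j, a u (p j)) ∂Measure.pi (fun _ : Fin K => μ) =
      S.E G H fun u => am u ^ K := by
    rw [integral_E S G H fun u => hi (fun _ => a u) (fun _ => ham u) fun _ => ha1 u]
    refine congrArg _ (funext fun u => ?_)
    rw [integral_fintype_prod_eq_prod (fun _ : Fin K => a u)]
    simp [am]
  have v2 : ∀ j₀ : Fin K, ∫ p, (S.E G H fun u => ∏ j, if j = j₀ then a u (p j) else c (p j))
      ∂Measure.pi (fun _ : Fin K => μ) = S.E G H fun u => am u * cm ^ (K - 1) := fun j₀ => by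
    rw [integral_E S G H (i2' j₀)]
    refine congrArg _ (funext fun u => ?_)
    have := integral_fintype_prod_eq_prod (μ := fun _ : Fin K => μ) (fun j => if j = j₀ then a u else c)
    simp only [ite_apply] at this
    rw [this, ← mul_prod_erase _ _ (Finset.mem_univ j₀)]
    simp only [if_true]
    rw [prod_congr rfl fun j hj => show ∫ q, (if j = j₀ then a u q else c q) ∂μ = cm by
      simp [Finset.ne_of_mem_erase hj, cm], prod_const, card_erase_of_mem (Finset.mem_univ j₀)]
    simp [am]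
  have v3 : ∫ p, ∏ j, c (p j) ∂Measure.pi (fun _ : Fin K => μ) = cm ^ K := by
    rw [integral_fintype_prod_eq_prod (fun _ : Fin K => c)]
    simp [cm]
  simp only [bracket, e1, e2, e3, e2']
  have i12 : Integrable (fun p : NewPt K => (S.E G H fun u => ∏ j, a u (p j)) -
      (K : ℝ) * mean fun j₀ => S.E G H fun u => ∏ j, if j = j₀ then a u (p j) else c (p j))
      (Measure.pi fun _ : Fin K => μ) := i1.sub (i2.const_mul _)
  rw [integral_add i12 (i3.const_mul _), integral_sub i1 (i2.const_mul _),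
    integral_const_mul, integral_const_mul, integral_mean i2j, v1, v3]
  simp only [v2, mean_const]
  have h := E_mono S G H (φ := fun _ => 0)
    (ψ := fun u => am u ^ K + ((-(K : ℝ)) * (am u * cm ^ (K - 1)) + ((K : ℝ) - 1) * cm ^ K * 1))
    (fun u => by nlinarith [tangent_pow hK h1 (am u) cm])
  rw [E_add, E_add, E_mul_left, E_mul_left, (hmass L k A G H S).1] at h
  have h0 : S.E G H (fun _ => (0 : ℝ)) = 0 := by simp [Shape.E]
  linarith

include hy hy1 in
/-- One step of the interpolation, for coupling strengths below one. -/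
theorem stepGain_nonpos (hd : DerivStmt) (hr : RootStmt) (hmass : MassStmt) [NeZero N] (hK : Even K)
    (h1 : 1 ≤ K) (hf : ∀ᵐ q ∂μ, ∀ s, |q.1 s| ≤ 1) (ν : Measure ℝ) [IsProbabilityMeasure ν]
    (hb : ∀ᵐ b ∂ν, |b| ≤ 1) (hpos : ∀ n : ℕ, 1 ≤ n → 0 ≤ ∫ b, (-b) ^ n ∂ν) {u : ℝ} (hu0 : 0 ≤ u)
    (hu : u < 1) :
    ∫ c, stepGain G H sp y (u * c.1, c.2) ∂ν.prod (Measure.pi fun _ : Fin K => μ) ≤ 0 := by
  have : NeZero K := ⟨by omega⟩
  set ρ := ν.prod (Measure.pi fun _ : Fin K => μ)
  let W : ℕ → NewPt K → ℝ := fun d p => coefW G d 1 (Shape.one L) (bracket G H sp y p)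
  let F : ℕ → ℝ × NewPt K → ℝ := fun d c =>
    (-1) ^ d * (u * c.1) ^ (d + 1) / (d + 1).factorial * W d c.2
  have hae : ∀ᵐ c ∂ρ, |c.1| ≤ 1 ∧ ∀ j s, |(c.2 j).1 s| ≤ 1 :=
    (Measure.quasiMeasurePreserving_fst.ae hb).and (Measure.quasiMeasurePreserving_snd.ae (new_ae μ hf))
  have hsum : ∀ c : ℝ × NewPt K, |c.1| ≤ 1 → (∀ j s, |(c.2 j).1 s| ≤ 1) →
      HasSum (fun d => F d c) (stepGain G H sp y (u * c.1, c.2)) := by
    intro c hc hp
    have hβ : |u * c.1| < 1 := by
      rw [abs_mul, abs_of_nonneg hu0]; nlinarith [abs_nonneg c.1]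
    have hq : ∀ j z, |qf (c.2 j).1 (y (c.2 j).2 z)| ≤ 1 := fun j z => qf_abs (hp j) (hy1 _ _)
    have hprod : ∀ (s : Finset (Fin K)) (g : Fin K → ℝ), (∀ j, |g j| ≤ 1) → |∏ j ∈ s, g j| ≤ 1 :=
      fun s g h => by rw [abs_prod]; exact prod_le_one (fun j _ => abs_nonneg _) fun j _ => h j
    refine HasSum.congr_fun ((((hasSum_mean fun i : Fin K → Fin N => gain_series hd hr hmass G
        (fun ζ : Fin L → A × (Fin K → C) => H fun a => (ζ a).1) (clauseP sp i c.2) hβ
          fun ξ => hprod _ _ fun j => hp _ _).sub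
      ((hasSum_mean fun jv : Fin K × Fin N => gain_series hd hr hmass G
        (fun ζ : Fin L → A × (Fin K → C) => H fun a => (ζ a).1) (messageP sp y jv c.2) hβ
          fun ξ => by
            rw [messageP, abs_mul]
            exact mul_le_one₀ (hp _ _) (abs_nonneg _) (hprod _ _ fun j => hq j _)).mul_left (K : ℝ)))).add
      ((gain_series hd hr hmass G (fun _ : Fin L → A × (Fin K → C) => (0 : ℝ)) (freeP y c.2) hβ
        fun ξ => hprod _ _ fun j => hq j _).mul_left ((K : ℝ) - 1))) fun d => ?_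
    simp only [F, W, mean_mul_left]
    have e : bracket G H sp y c.2 = fun k (S : Shape L k) => 1 * (1 * (mean fun i : Fin K → Fin N =>
          S.E G (fun ζ : Fin L → A × (Fin K → C) => H fun a => (ζ a).1) fun ξ => ∏ l, clauseP sp i c.2 (ξ l))
        + (-(K : ℝ)) * mean fun jv : Fin K × Fin N =>
          S.E G (fun ζ : Fin L → A × (Fin K → C) => H fun a => (ζ a).1) fun ξ => ∏ l, messageP sp y jv c.2 (ξ l))
        + ((K : ℝ) - 1) * S.E G (fun _ : Fin L → A × (Fin K → C) => (0 : ℝ)) fun ξ => ∏ l, freeP y c.2 (ξ l) :=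
      funext fun k => funext fun S => by simp only [bracket]; ring
    rw [e, coefW_lin, coefW_lin, coefW_mean, coefW_mean]
    ring
  have hW : ∀ d p, (∀ j s, |(p j).1 s| ≤ 1) → |W d p| ≤ d.factorial * (2 * K) := fun d p hp => by
    simpa [prod_one_add_range] using coefW_abs G d 1 (Shape.one L)
      fun k _ T => bracket_bound hy hy1 hmass k T p hp
  have hFb : ∀ d, ∀ᵐ c ∂ρ, ‖F d c‖ ≤ 2 * K * u ^ (d + 1) := fun d => hae.mono fun c hc => by
    have h2 : |(u * c.1) ^ (d + 1)| ≤ u ^ (d + 1) := by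
      rw [abs_pow]
      refine pow_le_pow_left₀ (abs_nonneg _) ?_ _
      rw [abs_mul, abs_of_nonneg hu0]
      exact mul_le_of_le_one_right hu0 hc.1
    have h3 : (d.factorial : ℝ) ≤ (d + 1).factorial := Nat.cast_le.2 (Nat.factorial_le d.le_succ)
    have h4 : (0 : ℝ) < (d + 1).factorial := Nat.cast_pos.2 (Nat.factorial_pos _)
    simp only [F, Real.norm_eq_abs, abs_mul, abs_div, abs_pow, abs_neg, abs_one, one_pow, one_mul,
      Nat.abs_cast]
    rw [← abs_mul, ← abs_pow]
    calc |(u * c.1) ^ (d + 1)| / (d + 1).factorial * |W d c.2|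
        ≤ u ^ (d + 1) / (d + 1).factorial * (((d + 1).factorial : ℝ) * (2 * K)) :=
          mul_le_mul (div_le_div_of_nonneg_right h2 h4.le)
            ((hW d c.2 hc.2).trans (mul_le_mul_of_nonneg_right h3 (by positivity))) (abs_nonneg _)
            (div_nonneg (pow_nonneg hu0 _) h4.le)
      _ = 2 * K * u ^ (d + 1) := by field_simp
  have hgeo : Summable fun d : ℕ => 2 * (K : ℝ) * u ^ (d + 1) :=
    ((summable_nat_add_iff 1).2 (summable_geometric_of_lt_one hu0 hu)).mul_left _
  have hWm : ∀ d, Measurable (W d) := by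
    intro d
    have : ∀ (d n : ℕ) (S : Shape L n), Measurable fun p : NewPt K => coefW G d n S (bracket G H sp y p) := by
      intro d
      induction d with
      | zero => exact fun n S => bracket_measurable hy n S
      | succ d ih =>
        exact fun n S => Finset.measurable_sum _ fun i _ => Finset.measurable_sum _ fun t _ =>
          (ih (n + 1) _).const_mul _
    exact this d 1 _
  have key := hasSum_integral_of_dominated_convergence (μ := ρ) (fun d _ => 2 * (K : ℝ) * u ^ (d + 1))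
    (F := F) (f := fun c => stepGain G H sp y (u * c.1, c.2))
    (fun d => (((((measurable_fst.const_mul u).pow_const _).const_mul _).div_const _).mul
      ((hWm d).comp measurable_snd)).aestronglyMeasurable)
    hFb (Filter.Eventually.of_forall fun _ => hgeo) (integrable_const _)
    (hae.mono fun c hc => hsum c hc.1 hc.2)
  refine hasSum_le (fun d => ?_) key hasSum_zero
  have e : ∀ c : ℝ × NewPt K,
      F d c = (-(u ^ (d + 1) / (d + 1).factorial)) * ((-c.1) ^ (d + 1) * W d c.2) := fun c => by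
    simp only [F, neg_pow c.1, mul_pow, pow_succ (-1 : ℝ)]
    ring
  simp only [e]
  rw [integral_const_mul, integral_prod_mul (fun b : ℝ => (-b) ^ (d + 1)) (W d)]
  refine mul_nonpos_of_nonpos_of_nonneg (neg_nonpos.2 (div_nonneg (pow_nonneg hu0 _) (Nat.cast_nonneg _)))
    (mul_nonneg (hpos (d + 1) d.succ_pos) ?_)
  simp only [W]
  rw [integral_coefW G (fun k _ T => bracket_integrable hy hy1 hmass hf k T) d 1 _ one_pos]
  exact coefW_nonneg G (fun k _ T => bracket_integral hy hy1 hmass hK h1 hf k T) d 1 _ one_pos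

end Bracket

end Vale.Agent.P168
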