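import Vale.Agent.P168.Upper.Step
import Vale.Agent.P168.Lower.Lip

/-!
# P168, upper bound: the step of the interpolation as a function of the table of the new clause
-/

open MeasureTheory Real

namespace Vale.Agent.P168

variable {ι ι0 : Type} [Fintype ι] [Fintype ι0] {K N r : ℕ}

/-- The logarithm of a sum over configurations. -/
noncomputable def logSum (Φ : (Fin N → Bool) → ℝ) : ℝ := log (∑ σ, exp (Φ σ))

/-- The potential of one clause with one position opened: the message it sends. -/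
noncomputable def lmf (t : (Fin K → Bool) → ℝ) (a : Fin K → ℝ) (ℓ : Fin K) (e : Bool) : ℝ :=
  log (facU t a ℓ e)

/-- The potential of one clause of `V`. -/
noncomputable def lvf (t : (Fin K → Bool) → ℝ) (a : Fin K → ℝ) : ℝ := log (facV t a)

/-- The table of the interaction `log (1 + β ∏ f_j)`. -/
noncomputable def tbl (β : ℝ) (f : Fin K → Bool → ℝ) (s : Fin K → Bool) : ℝ :=
  log (1 + β * ∏ j, f j (s j))

theorem logSum_add_const (Φ : (Fin N → Bool) → ℝ) (c : ℝ) :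
    logSum (fun σ => Φ σ + c) = logSum Φ + c := by
  simp only [logSum, exp_add, ← Finset.sum_mul]
  rw [log_mul (Finset.sum_pos (fun σ _ => exp_pos _) Finset.univ_nonempty).ne' (exp_pos c).ne', log_exp]

theorem logSum_lip {Φ Φ' : (Fin N → Bool) → ℝ} {d : ℝ} (h : ∀ σ, |Φ σ - Φ' σ| ≤ d) :
    |logSum Φ - logSum Φ'| ≤ d := by
  have key : ∀ Φ Φ' : (Fin N → Bool) → ℝ, (∀ σ, Φ σ ≤ Φ' σ + d) → logSum Φ ≤ logSum Φ' + d := fun Φ Φ' h =>
    log_sum_le (Finset.sum_pos (fun σ _ => exp_pos _) Finset.univ_nonempty)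
      (Finset.sum_pos (fun σ _ => exp_pos _) Finset.univ_nonempty) fun σ => by
        rw [← exp_add, add_comm]; exact exp_le_exp.2 (h σ)
  have h1 := key Φ Φ' fun σ => by linarith [(abs_le.1 (h σ)).2]
  have h2 := key Φ' Φ fun σ => by linarith [(abs_le.1 (h σ)).1]
  exact abs_sub_le_iff.2 ⟨by linarith, by linarith⟩

theorem logSum_zero : logSum (fun _ : Fin N → Bool => 0) = N * log 2 := by
  simp [logSum, log_pow]

theorem logSum_abs {Φ : (Fin N → Bool) → ℝ} {d : ℝ} (h : ∀ σ, |Φ σ| ≤ d) :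
    |logSum Φ| ≤ d + N * log 2 := by
  have h1 := logSum_lip (Φ' := fun _ => 0) (d := d) fun σ => by simpa using h σ
  rw [logSum_zero] at h1
  have h2 : (0 : ℝ) ≤ N * log 2 := mul_nonneg (Nat.cast_nonneg _) (log_nonneg one_le_two)
  rw [abs_le] at h1 ⊢
  constructor <;> linarith

theorem measurable_logSum {Ω : Type*} [MeasurableSpace Ω] {Φ : Ω → (Fin N → Bool) → ℝ}
    (h : ∀ σ, Measurable fun w => Φ w σ) : Measurable fun w => logSum (Φ w) :=
  measurable_log.comp (Finset.measurable_sum _ fun σ _ => (h σ).exp)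

section Factors

variable {t t' : (Fin K → Bool) → ℝ} {a : Fin K → ℝ}

theorem lmf_lip (ℓ : Fin K) (e : Bool) {d : ℝ} (ha : ∀ j, a j ∈ Set.Icc (-1 : ℝ) 1)
    (h : ∀ s, |t s - t' s| ≤ d) : |lmf t a ℓ e - lmf t' a ℓ e| ≤ d := by
  have key : ∀ t t' : (Fin K → Bool) → ℝ, (∀ s, t s ≤ t' s + d) → lmf t a ℓ e ≤ lmf t' a ℓ e + d :=
    fun t t' h => by
      rw [lmf, lmf, log_le_iff_le_exp (facU_pos ℓ e ha), exp_add, exp_log (facU_pos ℓ e ha), mul_comm]
      exact facU_le t' ℓ e ha h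
  have h1 := key t t' fun s => by linarith [(abs_le.1 (h s)).2]
  have h2 := key t' t fun s => by linarith [(abs_le.1 (h s)).1]
  exact abs_sub_le_iff.2 ⟨by linarith, by linarith⟩

theorem lvf_lip {d : ℝ} (ha : ∀ j, a j ∈ Set.Icc (-1 : ℝ) 1) (h : ∀ s, |t s - t' s| ≤ d) :
    |lvf t a - lvf t' a| ≤ d := by
  have key : ∀ t t' : (Fin K → Bool) → ℝ, (∀ s, t s ≤ t' s + d) → lvf t a ≤ lvf t' a + d :=
    fun t t' h => by
      rw [lvf, lvf, log_le_iff_le_exp (facV_pos ha), exp_add, exp_log (facV_pos ha), mul_comm]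
      exact facV_le t' ha h
  have h1 := key t t' fun s => by linarith [(abs_le.1 (h s)).2]
  have h2 := key t' t fun s => by linarith [(abs_le.1 (h s)).1]
  exact abs_sub_le_iff.2 ⟨by linarith, by linarith⟩

theorem lmf_zero (ℓ : Fin K) (e : Bool) : lmf (fun _ => 0) a ℓ e = 0 := by simp [lmf, facU_zero]

theorem lvf_zero : lvf (fun _ => 0) a = 0 := by simp [lvf, facV_zero]

theorem lmf_abs (ℓ : Fin K) (e : Bool) (ha : ∀ j, a j ∈ Set.Icc (-1 : ℝ) 1) :
    |lmf t a ℓ e| ≤ tnorm t := by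
  simpa [lmf_zero] using lmf_lip (t' := fun _ => 0) ℓ e ha fun s => by simpa using abs_le_tnorm t s

theorem lvf_abs (ha : ∀ j, a j ∈ Set.Icc (-1 : ℝ) 1) : |lvf t a| ≤ tnorm t := by
  simpa [lvf_zero] using lvf_lip (t' := fun _ => 0) ha fun s => by simpa using abs_le_tnorm t s

theorem lmf_add_const (ℓ : Fin K) (e : Bool) (ha : ∀ j, a j ∈ Set.Icc (-1 : ℝ) 1) (c : ℝ) :
    lmf (fun s => t s + c) a ℓ e = lmf t a ℓ e + c := by
  have : facU (fun s => t s + c) a ℓ e = facU t a ℓ e * exp c := by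
    simp only [facU, exp_add, Finset.sum_mul, ite_mul, zero_mul, mul_right_comm]
  rw [lmf, lmf, this, log_mul (facU_pos ℓ e ha).ne' (exp_pos c).ne', log_exp]

theorem lvf_add_const (ha : ∀ j, a j ∈ Set.Icc (-1 : ℝ) 1) (c : ℝ) :
    lvf (fun s => t s + c) a = lvf t a + c := by
  have : facV (fun s => t s + c) a = facV t a * exp c := by
    simp only [facV, exp_add, Finset.sum_mul, mul_right_comm]
  rw [lvf, lvf, this, log_mul (facV_pos ha).ne' (exp_pos c).ne', log_exp]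

theorem measurable_lmf {Ω : Type*} [MeasurableSpace Ω] {T : Ω → (Fin K → Bool) → ℝ} {A : Ω → Fin K → ℝ}
    (hT : Measurable T) (hA : Measurable A) (ℓ : Fin K) (e : Bool) :
    Measurable fun w => lmf (T w) (A w) ℓ e := by
  refine measurable_log.comp (Finset.measurable_sum _ fun s _ => ?_)
  split_ifs
  · exact ((measurable_pi_apply s).comp hT).exp.mul (Finset.measurable_prod _ fun j _ =>
      ((((measurable_pi_apply j).comp hA).mul_const _).const_add _).div_const _)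
  · exact measurable_const

theorem measurable_lvf {Ω : Type*} [MeasurableSpace Ω] {T : Ω → (Fin K → Bool) → ℝ} {A : Ω → Fin K → ℝ}
    (hT : Measurable T) (hA : Measurable A) : Measurable fun w => lvf (T w) (A w) :=
  measurable_log.comp (Finset.measurable_sum _ fun s _ => ((measurable_pi_apply s).comp hT).exp.mul
    (Finset.measurable_prod _ fun j _ => ((((measurable_pi_apply j).comp hA).mul_const _).const_add _).div_const _))

theorem one_add_prod_pos {β : ℝ} {P : ℝ} (hβ : |β| < 1) (hP : |P| ≤ 1) : 0 < 1 + β * P := by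
  have : |β * P| < 1 := by
    rw [abs_mul]
    exact (mul_le_of_le_one_right (abs_nonneg β) hP).trans_lt hβ
  linarith [(abs_lt.1 this).1]

theorem abs_prod_le_one {f : Fin K → Bool → ℝ} (hf : ∀ j b, |f j b| ≤ 1) (s : Fin K → Bool) :
    |∏ j, f j (s j)| ≤ 1 := by
  rw [Finset.abs_prod]
  exact Finset.prod_le_one (fun j _ => abs_nonneg _) fun j _ => hf j _

theorem facU_tbl {β : ℝ} {f : Fin K → Bool → ℝ} (hβ : |β| < 1) (hf : ∀ j b, |f j b| ≤ 1) (ℓ : Fin K)
    (e : Bool) :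
    facU (tbl β f) a ℓ e = 1 + β * (f ℓ e * ∏ j ∈ Finset.univ.erase ℓ, qf (f j) (a j)) := by
  have h : ∀ s, exp (tbl β f s) = 1 + β * ∏ j, f j (s j) := fun s =>
    exp_log (one_add_prod_pos hβ (abs_prod_le_one hf s))
  have key : (∑ s : Fin K → Bool, if s ℓ = e then
      (∏ j, f j (s j)) * ∏ j ∈ Finset.univ.erase ℓ, msgW (a j) (s j) else 0) =
      f ℓ e * ∏ j ∈ Finset.univ.erase ℓ, qf (f j) (a j) := by
    have e1 : ∀ s : Fin K → Bool, (if s ℓ = e then
        (∏ j, f j (s j)) * ∏ j ∈ Finset.univ.erase ℓ, msgW (a j) (s j) else 0) =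
        ∏ j, (if j = ℓ then (if s j = e then f j (s j) else 0) else msgW (a j) (s j) * f j (s j)) := fun s => by
      rw [← Finset.mul_prod_erase _ _ (Finset.mem_univ ℓ), ← Finset.mul_prod_erase _
        (fun j => if j = ℓ then _ else _) (Finset.mem_univ ℓ), if_pos rfl,
        Finset.prod_congr rfl fun j hj => if_neg (Finset.ne_of_mem_erase hj), Finset.prod_mul_distrib]
      split_ifs <;> ring
    simp only [e1]
    rw [← Fintype.prod_sum fun j b => if j = ℓ then (if b = e then f j b else 0) else msgW (a j) b * f j b,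
      ← Finset.mul_prod_erase _ _ (Finset.mem_univ ℓ)]
    congr 1
    · simp
    · exact Finset.prod_congr rfl fun j hj => by simp only [if_neg (Finset.ne_of_mem_erase hj), qf]
  simp only [facU, h, add_mul, one_mul, ← Finset.sum_filter, Finset.sum_add_distrib, mul_assoc,
    ← Finset.mul_sum]
  simp only [Finset.sum_filter]
  rw [sum_msgW_erase, key]

theorem facV_tbl {β : ℝ} {f : Fin K → Bool → ℝ} (hβ : |β| < 1) (hf : ∀ j b, |f j b| ≤ 1) :
    facV (tbl β f) a = 1 + β * ∏ j, qf (f j) (a j) := by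
  have h : ∀ s, exp (tbl β f s) = 1 + β * ∏ j, f j (s j) := fun s =>
    exp_log (one_add_prod_pos hβ (abs_prod_le_one hf s))
  simp only [facV, h, add_mul, one_mul, Finset.sum_add_distrib, mul_assoc, ← Finset.mul_sum,
    sum_msgW_prod, qf, Fintype.prod_sum, Finset.prod_mul_distrib, mul_comm (∏ j, msgW _ _)]

end Factors

/-! ### The step -/

/-- The change of `T log ∑ exp Φ` when `δ` is added to `Φ`. -/
noncomputable def gT (r : ℕ) (m : Fin r → ℝ) (x : (Fin (r + 1) → ℝ) → ℝ)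
    (Φ δ : (ι → ℝ) → (Fin N → Bool) → ℝ) : ℝ :=
  trialT ι r m x (fun y => logSum fun σ => Φ y σ + δ y σ) - trialT ι r m x fun y => logSum (Φ y)

/-- One clause more, `K` message factors fewer and `K - 1` factors of `V` more. -/
noncomputable def stepVal (r : ℕ) (m : Fin r → ℝ) (x : (Fin (r + 1) → ℝ) → ℝ)
    (Ψ : (ι0 → ℝ) → (Fin N → Bool) → ℝ) (t : (Fin K → Bool) → ℝ) : ℝ :=
  mean (fun i : Fin K → Fin N => gT r m x (fun y : ι0 ⊕ Fin K → ℝ => Ψ (y ∘ Sum.inl))
      fun _ σ => t (σ ∘ i))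
    - K * mean (fun jv : Fin K × Fin N => gT r m x (fun y : ι0 ⊕ Fin K → ℝ => Ψ (y ∘ Sum.inl))
      fun y σ => lmf t (y ∘ Sum.inr) jv.1 (σ jv.2))
    + ((K : ℝ) - 1) * gT r m x (fun (_ : ι0 ⊕ Fin K → ℝ) (_ : Fin N → Bool) => -((N : ℝ) * log 2))
      fun y _ => lvf t (y ∘ Sum.inr)

theorem trialT_add_const {m : Fin r → ℝ} {x : (Fin (r + 1) → ℝ) → ℝ} (hm : ∀ p, 0 < m p)
    (hx : Measurable x) (hxb : ∀ w, x w ∈ Set.Icc (-1 : ℝ) 1) {g : (ι → ℝ) → ℝ} {B : ℝ} (hg : Measurable g)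
    (hB : ∀ a : ι → ℝ, (∀ i, a i ∈ Set.Icc (-1 : ℝ) 1) → |g a| ≤ B) (c : ℝ) :
    trialT ι r m x (fun y => g y + c) = trialT ι r m x g + c := by
  unfold trialT
  rw [show c = ∫ _ : ι → ℝ, c ∂Measure.pi fun _ : ι => unif by simp,
    ← integral_add (integrable_trial hm hx hxb hg hB) (integrable_const _)]
  simp only [integral_const, probReal_univ, one_smul]
  refine integral_congr_ae (ae_of_all _ fun w₀ => ?_)
  set L := fun w : Fin r → ι → ℝ => g fun a => x (Fin.cons (w₀ a) fun p => w p a)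
  have hL : Measurable L := (measurable_trial_fun hx hg).comp ((measurable_const (a := w₀)).prodMk measurable_id)
  have hLB : ∀ w, |L w| ≤ B := fun w => hB _ fun _ => hxb _
  have hLc : ∀ w, |L w + c| ≤ B + |c| := fun w => (abs_add_le _ _).trans (add_le_add (hLB w) le_rfl)
  refine le_antisymm (recLog_le_add r m _ L (B + |c|) B c hm (hL.add_const c) hL hLc hLB fun w => le_rfl) ?_
  have := recLog_le_add (μ := Measure.pi fun _ : ι => unif) r m L (fun w => L w + c) B (B + |c|) (-c) hm hL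
    (hL.add_const c) hLB hLc fun w => by simp
  linarith

section Step

variable {m : Fin r → ℝ} {x : (Fin (r + 1) → ℝ) → ℝ} {Φ δ δ' : (ι → ℝ) → (Fin N → Bool) → ℝ} {B D D' d : ℝ}
variable (hm : ∀ p, 0 < m p) (hx : Measurable x) (hxb : ∀ w, x w ∈ Set.Icc (-1 : ℝ) 1)
variable (hΦ : ∀ σ, Measurable fun y => Φ y σ)
  (hB : ∀ y : ι → ℝ, (∀ i, y i ∈ Set.Icc (-1 : ℝ) 1) → ∀ σ, |Φ y σ| ≤ B)

include hm hx hxb hΦ hB

omit [Fintype ι0] in
theorem gT_lip (hδ : ∀ σ, Measurable fun y => δ y σ) (hδ' : ∀ σ, Measurable fun y => δ' y σ)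
    (hD : ∀ y : ι → ℝ, (∀ i, y i ∈ Set.Icc (-1 : ℝ) 1) → ∀ σ, |δ y σ| ≤ D)
    (hD' : ∀ y : ι → ℝ, (∀ i, y i ∈ Set.Icc (-1 : ℝ) 1) → ∀ σ, |δ' y σ| ≤ D')
    (h : ∀ y : ι → ℝ, (∀ i, y i ∈ Set.Icc (-1 : ℝ) 1) → ∀ σ, |δ y σ - δ' y σ| ≤ d) :
    |gT r m x Φ δ - gT r m x Φ δ'| ≤ d := by
  have hb : ∀ (δ : (ι → ℝ) → (Fin N → Bool) → ℝ) (D : ℝ),
      (∀ y : ι → ℝ, (∀ i, y i ∈ Set.Icc (-1 : ℝ) 1) → ∀ σ, |δ y σ| ≤ D) →
      ∀ y : ι → ℝ, (∀ i, y i ∈ Set.Icc (-1 : ℝ) 1) → |logSum fun σ => Φ y σ + δ y σ| ≤ B + D + N * log 2 :=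
    fun δ D hD y hy => logSum_abs fun σ => (abs_add_le _ _).trans (add_le_add (hB y hy σ) (hD y hy σ))
  simp only [gT, sub_sub_sub_cancel_right]
  exact trialT_lip hm hx hxb (measurable_logSum fun σ => (hΦ σ).add (hδ σ))
    (measurable_logSum fun σ => (hΦ σ).add (hδ' σ)) (hb δ D hD) (hb δ' D' hD') fun y hy =>
      logSum_lip fun σ => by simpa using h y hy σ

omit [Fintype ι0] in
theorem gT_add_const (hδ : ∀ σ, Measurable fun y => δ y σ)
    (hD : ∀ y : ι → ℝ, (∀ i, y i ∈ Set.Icc (-1 : ℝ) 1) → ∀ σ, |δ y σ| ≤ D) (c : ℝ) :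
    gT r m x Φ (fun y σ => δ y σ + c) = gT r m x Φ δ + c := by
  simp only [gT, ← add_assoc, logSum_add_const]
  rw [trialT_add_const hm hx hxb (measurable_logSum fun σ => (hΦ σ).fun_add (hδ σ)) (B := B + D + N * log 2)
    fun y hy => logSum_abs fun σ => (abs_add_le _ _).trans (add_le_add (hB y hy σ) (hD y hy σ))]
  ring

end Step

omit [Fintype ι] in
theorem mean_sub_le {α : Type*} [Fintype α] [Nonempty α] {f g : α → ℝ} {d : ℝ} (h : ∀ a, |f a - g a| ≤ d) :
    |mean f - mean g| ≤ d := by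
  have : mean f - mean g = mean fun a => f a - g a := by simp [mean, sub_div]
  rw [this]
  exact mean_abs h

omit [Fintype ι] in
theorem mean_add_const {α : Type*} [Fintype α] [Nonempty α] (f : α → ℝ) (c : ℝ) :
    (mean fun a => f a + c) = mean f + c := by
  simp [mean, Finset.sum_add_distrib, add_div, Fintype.card_ne_zero]

section StepVal

variable {m : Fin r → ℝ} {x : (Fin (r + 1) → ℝ) → ℝ} {Ψ : (ι0 → ℝ) → (Fin N → Bool) → ℝ} {B : ℝ}
variable (hm : ∀ p, 0 < m p) (hx : Measurable x) (hxb : ∀ w, x w ∈ Set.Icc (-1 : ℝ) 1)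
variable (hΨ : ∀ σ, Measurable fun y => Ψ y σ)
  (hB : ∀ y : ι0 → ℝ, (∀ i, y i ∈ Set.Icc (-1 : ℝ) 1) → ∀ σ, |Ψ y σ| ≤ B)

include hm hx hxb hΨ hB

omit [Fintype ι] in
theorem stepVal_lip [NeZero N] [NeZero K] (t t' : (Fin K → Bool) → ℝ) {d : ℝ} (h : ∀ s, |t s - t' s| ≤ d) :
    |stepVal r m x Ψ t - stepVal r m x Ψ t'| ≤ 2 * K * d := by
  have hi : Measurable fun y : ι0 ⊕ Fin K → ℝ => y ∘ Sum.inl :=
    measurable_pi_lambda _ fun a => measurable_pi_apply _
  have ho : Measurable fun y : ι0 ⊕ Fin K → ℝ => y ∘ Sum.inr :=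
    measurable_pi_lambda _ fun a => measurable_pi_apply _
  have hΨi : ∀ σ, Measurable fun y : ι0 ⊕ Fin K → ℝ => Ψ (y ∘ Sum.inl) σ := fun σ => (hΨ σ).comp hi
  have hBi : ∀ y : ι0 ⊕ Fin K → ℝ, (∀ i, y i ∈ Set.Icc (-1 : ℝ) 1) → ∀ σ, |Ψ (y ∘ Sum.inl) σ| ≤ B :=
    fun y hy σ => hB _ (fun i => hy _) σ
  have h1 : ∀ i : Fin K → Fin N, _ := fun i => gT_lip hm hx hxb hΨi hBi
    (δ := fun _ σ => t (σ ∘ i)) (δ' := fun _ σ => t' (σ ∘ i)) (D := tnorm t) (D' := tnorm t') (d := d)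
    (fun σ => measurable_const) (fun σ => measurable_const) (fun y _ σ => abs_le_tnorm _ _)
    (fun y _ σ => abs_le_tnorm _ _) fun y _ σ => h _
  have h2 : ∀ jv : Fin K × Fin N, _ := fun jv => gT_lip hm hx hxb hΨi hBi
    (δ := fun y σ => lmf t (y ∘ Sum.inr) jv.1 (σ jv.2)) (δ' := fun y σ => lmf t' (y ∘ Sum.inr) jv.1 (σ jv.2))
    (D := tnorm t) (D' := tnorm t') (d := d)
    (fun σ => measurable_lmf measurable_const ho _ _) (fun σ => measurable_lmf measurable_const ho _ _)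
    (fun y hy σ => lmf_abs _ _ fun i => hy _) (fun y hy σ => lmf_abs _ _ fun i => hy _)
    fun y hy σ => lmf_lip _ _ (fun i => hy _) h
  have h3 := gT_lip (Φ := fun (_ : ι0 ⊕ Fin K → ℝ) (_ : Fin N → Bool) => -((N : ℝ) * log 2))
    (B := |(N : ℝ) * log 2|) hm hx hxb (fun _ => measurable_const) (fun y _ σ => (abs_neg _).le)
    (δ := fun y _ => lvf t (y ∘ Sum.inr)) (δ' := fun y _ => lvf t' (y ∘ Sum.inr))
    (D := tnorm t) (D' := tnorm t') (d := d)
    (fun σ => measurable_lvf measurable_const ho) (fun σ => measurable_lvf measurable_const ho)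
    (fun y hy σ => lvf_abs fun i => hy _) (fun y hy σ => lvf_abs fun i => hy _)
    fun y hy σ => lvf_lip (fun i => hy _) h
  obtain ⟨a, a'⟩ := abs_le.1 (mean_sub_le h1)
  obtain ⟨b, b'⟩ := abs_le.1 (mean_sub_le h2)
  obtain ⟨c, c'⟩ := abs_le.1 h3
  have hK : (1 : ℝ) ≤ K := Nat.one_le_cast.2 (Nat.one_le_iff_ne_zero.2 (NeZero.ne K))
  rw [stepVal, stepVal, abs_le]
  constructor <;> nlinarith

omit [Fintype ι] in
theorem stepVal_add_const [NeZero N] [NeZero K] (t : (Fin K → Bool) → ℝ) (c : ℝ) :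
    stepVal r m x Ψ (fun s => t s + c) = stepVal r m x Ψ t := by
  have hi : Measurable fun y : ι0 ⊕ Fin K → ℝ => y ∘ Sum.inl :=
    measurable_pi_lambda _ fun a => measurable_pi_apply _
  have ho : Measurable fun y : ι0 ⊕ Fin K → ℝ => y ∘ Sum.inr :=
    measurable_pi_lambda _ fun a => measurable_pi_apply _
  have hΨi : ∀ σ, Measurable fun y : ι0 ⊕ Fin K → ℝ => Ψ (y ∘ Sum.inl) σ := fun σ => (hΨ σ).comp hi
  have hBi : ∀ y : ι0 ⊕ Fin K → ℝ, (∀ i, y i ∈ Set.Icc (-1 : ℝ) 1) → ∀ σ, |Ψ (y ∘ Sum.inl) σ| ≤ B :=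
    fun y hy σ => hB _ (fun i => hy _) σ
  -- the shift of each of the three terms, with the messages read on the cube
  have hclamp : ∀ (Φ δ δ' : (ι0 ⊕ Fin K → ℝ) → (Fin N → Bool) → ℝ),
      (∀ y, (∀ i, y i ∈ Set.Icc (-1 : ℝ) 1) → ∀ σ, δ y σ = δ' y σ) → gT r m x Φ δ = gT r m x Φ δ' := by
    intro Φ δ δ' he
    simp only [gT, trialT]
    congr 2
    funext w₀
    refine congrArg _ (funext fun w => congrArg logSum (funext fun σ => ?_))
    rw [he _ (fun i => hxb _) σ]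
  have h1 : ∀ i : Fin K → Fin N, _ := fun i => gT_add_const hm hx hxb hΨi hBi
    (δ := fun _ σ => t (σ ∘ i)) (D := tnorm t) (fun σ => measurable_const) (fun y _ σ => abs_le_tnorm _ _) c
  have h2 : ∀ jv : Fin K × Fin N,
      gT r m x (fun y : ι0 ⊕ Fin K → ℝ => Ψ (y ∘ Sum.inl))
          (fun y σ => lmf (fun s => t s + c) (y ∘ Sum.inr) jv.1 (σ jv.2)) =
        gT r m x (fun y : ι0 ⊕ Fin K → ℝ => Ψ (y ∘ Sum.inl))
          (fun y σ => lmf t (y ∘ Sum.inr) jv.1 (σ jv.2)) + c := fun jv => by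
    rw [← gT_add_const hm hx hxb hΨi hBi (δ := fun y σ => lmf t (y ∘ Sum.inr) jv.1 (σ jv.2)) (D := tnorm t)
      (fun σ => measurable_lmf measurable_const ho _ _) (fun y hy σ => lmf_abs _ _ fun i => hy _) c]
    exact hclamp _ _ _ fun y hy σ => lmf_add_const _ _ (fun i => hy _) c
  have h3 : gT r m x (fun (_ : ι0 ⊕ Fin K → ℝ) (_ : Fin N → Bool) => -((N : ℝ) * log 2))
          (fun y _ => lvf (fun s => t s + c) (y ∘ Sum.inr)) =
      gT r m x (fun (_ : ι0 ⊕ Fin K → ℝ) (_ : Fin N → Bool) => -((N : ℝ) * log 2))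
          (fun y _ => lvf t (y ∘ Sum.inr)) + c := by
    rw [← gT_add_const (B := |(N : ℝ) * log 2|) hm hx hxb (fun _ => measurable_const)
      (fun y _ σ => (abs_neg _).le) (δ := fun y _ => lvf t (y ∘ Sum.inr)) (D := tnorm t)
      (fun σ => measurable_lvf measurable_const ho) (fun y hy σ => lvf_abs fun i => hy _) c]
    exact hclamp _ _ _ fun y hy σ => lvf_add_const (fun i => hy _) c
  simp only [stepVal, h1, h2, h3, mean_add_const]
  ring

omit [Fintype ι] hm hx hxb hΨ hB in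
theorem stepVal_zero : stepVal r m x Ψ (fun _ : Fin K → Bool => 0) = 0 := by
  simp [stepVal, gT, lmf_zero, lvf_zero, mean]

omit [Fintype ι] in
theorem stepVal_abs [NeZero N] [NeZero K] (t : (Fin K → Bool) → ℝ) :
    |stepVal r m x Ψ t| ≤ 2 * K * tnorm t := by
  simpa [stepVal_zero] using stepVal_lip hm hx hxb hΨ hB t (fun _ => 0) fun s => by
    simpa using abs_le_tnorm t s

omit [Fintype ι] in
theorem stepVal_continuous [NeZero N] [NeZero K] :
    Continuous fun t : (Fin K → Bool) → ℝ => stepVal r m x Ψ t :=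
  (LipschitzWith.of_dist_le_mul (K := 2 * (K : NNReal)) fun t t' => by
    rw [Real.dist_eq]
    exact (stepVal_lip hm hx hxb hΨ hB t t' fun s => dist_le_pi_dist t t' s).trans_eq (by simp)).continuous

end StepVal

end Vale.Agent.P168
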